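import Vale.Agent.P095.SI.MUBasic

/-!
P095, equivariant (SI) step, block B2: preliminaries for central events.
-/

namespace Vale.Agent.P095.SI

open Polynomial

variable {A : Type*} [CStarAlgebra A]

lemma Central.mono {S S' : Finset A} {δ δ' : ℝ} {b : A} (h : Central S δ b) (hS : S' ⊆ S)
    (hδ : δ ≤ δ') : Central S' δ' b :=
  fun a ha => (h a (hS ha)).trans hδ

lemma Central.comm_le {S : Finset A} {δ : ℝ} {b a : A} (h : Central S δ b) (ha : a ∈ S) :
    ‖a * b - b * a‖ ≤ δ := by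
  rw [norm_sub_rev]; exact h a ha

lemma Central.smul {S : Finset A} {δ : ℝ} {b : A} (h : Central S δ b) (r : ℝ) :
    Central S (|r| * δ) (r • b) := fun a ha => by
  rw [smul_mul_assoc, mul_smul_comm, ← smul_sub, norm_smul, Real.norm_eq_abs]
  exact mul_le_mul_of_nonneg_left (h a ha) (abs_nonneg r)

/-- Commutators with polynomials. -/
lemma exists_poly_comm (q : ℝ[X]) {R : ℝ} (hR : 0 ≤ R) :
    ∃ C : ℝ, 0 ≤ C ∧ ∀ x a : A, ‖x‖ ≤ R →
      ‖aeval x q * a - a * aeval x q‖ ≤ C * ‖x * a - a * x‖ := by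
  induction q using Polynomial.induction_on' with
  | add p q hp hq =>
    obtain ⟨C, hC, hp⟩ := hp
    obtain ⟨C', hC', hq⟩ := hq
    refine ⟨C + C', add_nonneg hC hC', fun x a hx => ?_⟩
    simp only [map_add, add_mul, mul_add]
    rw [add_sub_add_comm]
    exact (norm_add_le _ _).trans (add_le_add (hp x a hx) (hq x a hx))
  | monomial n r =>
    have hn : ∀ n : ℕ, ∃ C P : ℝ, 0 ≤ C ∧ 0 ≤ P ∧ ∀ x a : A, ‖x‖ ≤ R →
        ‖x ^ n‖ ≤ P ∧ ‖x ^ n * a - a * x ^ n‖ ≤ C * ‖x * a - a * x‖ := by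
      intro n
      induction n with
      | zero => exact ⟨0, ‖(1 : A)‖, le_rfl, norm_nonneg _, fun x a _ => by simp⟩
      | succ n ih =>
        obtain ⟨C, P, hC, hP, h⟩ := ih
        refine ⟨P + C * R, P * R, by positivity, by positivity, fun x a hx => ⟨?_, ?_⟩⟩
        · rw [pow_succ]
          exact (norm_mul_le _ _).trans (mul_le_mul (h x a hx).1 hx (norm_nonneg _) hP)
        · have e : x ^ (n + 1) * a - a * x ^ (n + 1)
              = x ^ n * (x * a - a * x) + (x ^ n * a - a * x ^ n) * x := by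
            rw [pow_succ]; noncomm_ring
          rw [e, add_mul]
          refine (norm_add_le _ _).trans (add_le_add ?_ ?_)
          · exact (norm_mul_le _ _).trans (mul_le_mul_of_nonneg_right (h x a hx).1 (norm_nonneg _))
          · refine (norm_mul_le _ _).trans ((mul_le_mul (h x a hx).2 hx (norm_nonneg _)
              (by positivity)).trans (le_of_eq ?_))
            ring
    obtain ⟨C, P, hC, hP, h⟩ := hn n
    refine ⟨|r| * C, by positivity, fun x a hx => ?_⟩
    rw [aeval_monomial, ← Algebra.smul_def, smul_mul_assoc, mul_smul_comm, ← smul_sub, norm_smul,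
      Real.norm_eq_abs, mul_assoc]
    exact mul_le_mul_of_nonneg_left (h x a hx).2 (abs_nonneg r)

/-- Functional calculus keeps small commutators small, uniformly. -/
lemma exists_comm_modulus {φ : ℝ → ℝ} (hφ : Continuous φ) {R : ℝ} (hR : 0 ≤ R) {M : ℝ}
    (hM : 0 ≤ M) {ε : ℝ} (hε : 0 < ε) :
    ∃ δ : ℝ, 0 < δ ∧ ∀ x a : A, IsSelfAdjoint x → ‖x‖ ≤ R → ‖a‖ ≤ M →
      ‖x * a - a * x‖ ≤ δ → ‖cfc φ x * a - a * cfc φ x‖ ≤ ε := by
  rcases subsingleton_or_nontrivial A with hA | hA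
  · exact ⟨1, one_pos, fun x a _ _ _ _ => by simp [Subsingleton.elim _ (0 : A), hε.le]⟩
  have h4 : 0 < ε / (4 * (M + 1)) := by positivity
  obtain ⟨q, hq⟩ := exists_polynomial_near_of_continuousOn (-R) R φ hφ.continuousOn _ h4
  obtain ⟨C, hC, hCq⟩ := exists_poly_comm (A := A) q hR
  refine ⟨ε / (2 * (C + 1)), by positivity, fun x a hx hxR ha hxa => ?_⟩
  have hcl : ‖cfc φ x - aeval x q‖ ≤ ε / (4 * (M + 1)) := by
    rw [← cfc_polynomial q x hx, ← cfc_sub φ q.eval x hφ.continuousOn q.continuous.continuousOn]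
    refine norm_cfc_le h4.le (fun t ht => ?_)
    have htd : |t| ≤ R := le_trans (by simpa using spectrum.norm_le_norm_of_mem ht) hxR
    rw [Real.norm_eq_abs, abs_sub_comm]
    exact (hq t ⟨(abs_le.1 htd).1, (abs_le.1 htd).2⟩).le
  have e : cfc φ x * a - a * cfc φ x = (cfc φ x - aeval x q) * a - a * (cfc φ x - aeval x q)
      + (aeval x q * a - a * aeval x q) := by noncomm_ring
  rw [e]
  refine (norm_add_le _ _).trans ?_
  have h1 : ‖(cfc φ x - aeval x q) * a - a * (cfc φ x - aeval x q)‖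
      ≤ ε / (4 * (M + 1)) * M + M * (ε / (4 * (M + 1))) :=
    (norm_sub_le _ _).trans (add_le_add
      ((norm_mul_le _ _).trans (mul_le_mul hcl ha (norm_nonneg _) h4.le))
      ((norm_mul_le _ _).trans (mul_le_mul ha hcl (norm_nonneg _) hM)))
  have h2 : ε / (4 * (M + 1)) * (M + 1) = ε / 4 := by field_simp
  have h3 : ‖aeval x q * a - a * aeval x q‖ ≤ C * (ε / (2 * (C + 1))) :=
    (hCq x a hxR).trans (mul_le_mul_of_nonneg_left hxa hC)
  have h5 : ε / (2 * (C + 1)) * (C + 1) = ε / 2 := by field_simp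
  nlinarith

/-- Functional calculus keeps central elements central, uniformly. -/
lemma exists_central_modulus {φ : ℝ → ℝ} (hφ : Continuous φ) {R : ℝ} (hR : 0 ≤ R) (S : Finset A)
    {η : ℝ} (hη : 0 < η) :
    ∃ δ : ℝ, 0 < δ ∧ ∀ x : A, IsSelfAdjoint x → ‖x‖ ≤ R → Central S δ x →
      Central S η (cfc φ x) := by
  obtain ⟨δ, hδ, h⟩ := exists_comm_modulus (A := A) hφ hR
    (Finset.sum_nonneg fun a (_ : a ∈ S) => norm_nonneg a) hη
  exact ⟨δ, hδ, fun x hx hxR hc a ha =>
    h x a hx hxR (Finset.single_le_sum (fun b _ => norm_nonneg b) ha) (hc a ha)⟩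

/-- In a simple algebra a central element cannot annihilate a nonzero element. -/
lemma exists_lower [IsSimpleRing A] {a : A} (ha : a ≠ 0) :
    ∃ (S : Finset A) (γ δ : ℝ), 0 < γ ∧ 0 < δ ∧
      ∀ p : A, Central S δ p → ‖p‖ = 1 → γ ≤ ‖p * a‖ := by
  classical
  let T : Set A := {z | ∃ (S : Finset A) (C : ℝ), 0 ≤ C ∧
    ∀ (p : A) (δ : ℝ), 0 ≤ δ → Central S δ p → ‖p * z‖ ≤ C * (‖p * a‖ + δ)}
  let I : TwoSidedIdeal A := TwoSidedIdeal.mk' T
    ⟨∅, 0, le_rfl, fun p δ _ _ => by simp⟩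
    (fun {x y} ⟨S, C, hC, hx⟩ ⟨S', C', hC', hy⟩ =>
      ⟨S ∪ S', C + C', add_nonneg hC hC', fun p δ hδ hp => by
        rw [mul_add, add_mul]
        exact (norm_add_le _ _).trans (add_le_add
          (hx p δ hδ (hp.mono Finset.subset_union_left le_rfl))
          (hy p δ hδ (hp.mono Finset.subset_union_right le_rfl)))⟩)
    (fun {x} ⟨S, C, hC, hx⟩ => ⟨S, C, hC, fun p δ hδ hp => by
      rw [mul_neg, norm_neg]; exact hx p δ hδ hp⟩)
    (fun {x y} ⟨S, C, hC, hy⟩ =>
      ⟨insert x S, ‖x‖ * C + ‖y‖, by positivity, fun p δ hδ hp => by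
        have e : p * (x * y) = x * (p * y) + (p * x - x * p) * y := by noncomm_ring
        rw [e, add_mul]
        refine (norm_add_le _ _).trans (add_le_add ?_ ?_)
        · exact (norm_mul_le _ _).trans ((mul_le_mul_of_nonneg_left
            (hy p δ hδ (hp.mono (Finset.subset_insert _ _) le_rfl)) (norm_nonneg x)).trans
            (le_of_eq (by ring)))
        · have h1 := hp x (Finset.mem_insert_self _ _)
          exact (norm_mul_le _ _).trans ((mul_le_mul_of_nonneg_right h1 (norm_nonneg y)).trans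
            (by nlinarith [norm_nonneg (p * a), norm_nonneg y]))⟩)
    (fun {x y} ⟨S, C, hC, hx⟩ =>
      ⟨S, C * ‖y‖, by positivity, fun p δ hδ hp => by
        rw [← mul_assoc]
        exact (norm_mul_le _ _).trans ((mul_le_mul_of_nonneg_right (hx p δ hδ hp)
          (norm_nonneg y)).trans (le_of_eq (by ring)))⟩)
  have haI : a ∈ I := (TwoSidedIdeal.mem_mk' _ _ _ _ _ _ _).2
    ⟨∅, 1, zero_le_one, fun p δ hδ _ => by linarith [norm_nonneg (p * a)]⟩
  have htop : I = ⊤ := (IsSimpleOrder.eq_bot_or_eq_top I).resolve_left fun hbot => by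
    rw [hbot, TwoSidedIdeal.mem_bot] at haI
    exact ha haI
  have h1 : (1 : A) ∈ I := by rw [htop]; trivial
  obtain ⟨S, C, hC, h⟩ := (TwoSidedIdeal.mem_mk' _ _ _ _ _ _ _).1 h1
  refine ⟨S, 1 / (2 * (C + 1)), 1 / (2 * (C + 1)), by positivity, by positivity,
    fun p hp hp1 => ?_⟩
  have h2 := h p _ (by positivity) hp
  rw [mul_one, hp1] at h2
  by_contra hlt
  rw [not_le] at hlt
  have h5 : 1 / (2 * (C + 1)) * (2 * (C + 1)) = 1 := by field_simp
  have h6 := mul_le_mul_of_nonneg_left hlt.le hC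
  have h7 : (0 : ℝ) < 1 / (2 * (C + 1)) := by positivity
  nlinarith

/-- The plateau is one on the outer half. -/
noncomputable def plat (t : ℝ) : ℝ := 4 * t ^ 2 / max 1 (4 * t ^ 2)

/-- The plateau divided by the variable. -/
noncomputable def chi (t : ℝ) : ℝ := 4 * t / max 1 (4 * t ^ 2)

/-- The square root of the plateau. -/
noncomputable def platSqrt (t : ℝ) : ℝ := Real.sqrt (plat t)

/-- A bump below the plateau, one on the outer quarter. -/
noncomputable def wit (t : ℝ) : ℝ := max 0 (min 1 (4 * |t| - 2))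

@[fun_prop]
lemma continuous_plat : Continuous plat := by
  unfold plat
  exact Continuous.div₀ (by fun_prop) (by fun_prop) fun t =>
    (lt_max_of_lt_left one_pos).ne'

@[fun_prop]
lemma continuous_chi : Continuous chi := by
  unfold chi
  exact Continuous.div₀ (by fun_prop) (by fun_prop) fun t =>
    (lt_max_of_lt_left one_pos).ne'

@[fun_prop]
lemma continuous_platSqrt : Continuous platSqrt := by
  unfold platSqrt; fun_prop

@[fun_prop]
lemma continuous_wit : Continuous wit := by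
  unfold wit; fun_prop

lemma plat_nonneg (t : ℝ) : 0 ≤ plat t := by unfold plat; positivity

lemma plat_le_one (t : ℝ) : plat t ≤ 1 :=
  div_le_one_of_le₀ (le_max_right _ _) (le_max_of_le_left zero_le_one)

lemma plat_eq_mul_chi (t : ℝ) : plat t = t * chi t := by unfold plat chi; ring

lemma abs_chi_le (t : ℝ) : |chi t| ≤ 2 := by
  have hd : 0 < max 1 (4 * t ^ 2) := lt_max_of_lt_left one_pos
  rw [chi, abs_div, abs_of_pos hd, div_le_iff₀ hd, abs_mul, abs_of_pos (by norm_num : (0:ℝ) < 4)]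
  have h1 : 1 + 4 * |t| ^ 2 ≤ 2 * max 1 (4 * t ^ 2) := by
    rw [sq_abs]
    linarith [le_max_left 1 (4 * t ^ 2), le_max_right 1 (4 * t ^ 2)]
  nlinarith [sq_nonneg (2 * |t| - 1)]

lemma plat_mul_wit (t : ℝ) : plat t * wit t = wit t := by
  rcases le_or_gt |t| (1 / 2) with h | h
  · have : wit t = 0 := by
      unfold wit
      rw [max_eq_left]
      exact min_le_iff.2 (Or.inr (by linarith))
    rw [this, mul_zero]
  · have h4 : 1 ≤ 4 * t ^ 2 := by nlinarith [sq_abs t]
    rw [plat, max_eq_right h4, div_self (by linarith : (4 : ℝ) * t ^ 2 ≠ 0), one_mul]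

lemma abs_wit_le (t : ℝ) : |wit t| ≤ 1 := by
  unfold wit
  rw [abs_of_nonneg (le_max_left _ _)]
  exact max_le zero_le_one (min_le_left _ _)

lemma wit_eq_one {t : ℝ} (h : 3 / 4 ≤ |t|) : wit t = 1 := by
  unfold wit
  rw [min_eq_left (by linarith), max_eq_right zero_le_one]

lemma abs_one_sub_wit_mul_le (t : ℝ) : |t * (1 - wit t)| ≤ 3 / 4 := by
  rcases le_or_gt (3 / 4) |t| with h | h
  · rw [wit_eq_one h]; norm_num
  · have h1 : |1 - wit t| ≤ 1 := by
      have h2 := abs_le.1 (abs_wit_le t)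
      have h3 : 0 ≤ wit t := by unfold wit; exact le_max_left _ _
      exact abs_le.2 ⟨by linarith, by linarith⟩
    rw [abs_mul]
    nlinarith [abs_nonneg t, abs_nonneg (1 - wit t)]

lemma exists_abs_eq_norm [Nontrivial A] {r : A} (hr : IsSelfAdjoint r) :
    ∃ t ∈ spectrum ℝ r, |t| = ‖r‖ := by
  obtain ⟨⟨t, ht, h⟩, -⟩ :=
    IsometricContinuousFunctionalCalculus.isGreatest_norm_spectrum (𝕜 := ℝ) r hr
  exact ⟨t, ht, by simpa using h⟩

lemma norm_cfc_eq_one {f : ℝ → ℝ} (hf : Continuous f) (hb : ∀ t, |f t| ≤ 1) {r : A}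
    (hr : IsSelfAdjoint r) {t : ℝ} (ht : t ∈ spectrum ℝ r) (h1 : f t = 1) : ‖cfc f r‖ = 1 := by
  refine le_antisymm (norm_cfc_le zero_le_one fun x _ => by simpa using hb x) ?_
  simpa [h1] using norm_apply_le_norm_cfc f r ht hf.continuousOn hr

lemma norm_wit_eq_one [Nontrivial A] {r : A} (hr : IsSelfAdjoint r) (h : 3 / 4 ≤ ‖r‖) :
    ‖cfc wit r‖ = 1 := by
  obtain ⟨t, ht, h1⟩ := exists_abs_eq_norm hr
  exact norm_cfc_eq_one continuous_wit abs_wit_le hr ht (wit_eq_one (h1 ▸ h))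

lemma cfc_plat_mul_wit (r : A) (hr : IsSelfAdjoint r) : cfc plat r * cfc wit r = cfc wit r := by
  rw [← cfc_mul plat wit r]
  simp only [plat_mul_wit]

lemma star_mul_platSqrt (r : A) (hr : IsSelfAdjoint r) :
    star (cfc platSqrt r) * cfc platSqrt r = cfc plat r := by
  rw [(cfc_predicate platSqrt r).star_eq, ← cfc_mul platSqrt platSqrt r]
  refine cfc_congr fun t _ => ?_
  exact Real.mul_self_sqrt (plat_nonneg t)

/-- The plateau keeps the orthogonality to a translate. -/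
lemma norm_plat_mul_le (β : A ≃⋆ₐ[ℂ] A) (r : A) (hr : IsSelfAdjoint r) :
    ‖cfc plat r * β (cfc plat r)‖ ≤ 4 * ‖r * β r‖ := by
  have hx : ‖cfc chi r‖ ≤ 2 :=
    norm_cfc_le zero_le_two fun t _ => by simpa using abs_chi_le t
  have h1 : cfc plat r = cfc chi r * r := by
    nth_rewrite 3 [← cfc_id' ℝ r]
    rw [← cfc_mul chi (fun t => t) r]
    exact cfc_congr fun t _ => by rw [plat_eq_mul_chi, mul_comm]
  have h2 : cfc plat r = r * cfc chi r := by
    nth_rewrite 2 [← cfc_id' ℝ r]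
    rw [← cfc_mul (fun t => t) chi r]
    exact cfc_congr fun t _ => by rw [plat_eq_mul_chi]
  calc ‖cfc plat r * β (cfc plat r)‖ = ‖cfc chi r * (r * β r) * β (cfc chi r)‖ := by
        rw [show β (cfc plat r) = β r * β (cfc chi r) by rw [h2, map_mul], h1]
        simp only [mul_assoc]
    _ ≤ ‖cfc chi r‖ * ‖r * β r‖ * ‖β (cfc chi r)‖ := norm_mul₃_le
    _ ≤ 2 * ‖r * β r‖ * 2 := by
        refine mul_le_mul (mul_le_mul_of_nonneg_right hx (norm_nonneg _))
          ((NonUnitalStarAlgHom.norm_apply_le β _).trans hx) (norm_nonneg _) (by positivity)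
    _ = _ := by ring

end Vale.Agent.P095.SI
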