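import Vale.Agent.P095.SI.Pins
import Vale.Agent.P095.Tracial.TraceBasic

/-!
P095, equivariant (SI) step, block B1: from trace estimates to norm estimates.
If `a` dominates the defects and `T a ≤ C • a` for finitely many automorphisms `T` closed under
inverses, then the average `P` of the resolvents `s (s + a)⁻¹` over `M` geometric scales is moved by
at most `3 / M` by every `T`, kills the defects in norm, and is close to one in every trace.
-/

namespace Vale.Agent.P095.SI

open Filter Tracial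
open scoped Topology

universe u v

variable {A : Type u} [CStarAlgebra A]

section Order

variable [PartialOrder A] [StarOrderedRing A]

/-- The resolvent `s (s + a)⁻¹`. -/
noncomputable def rs (s : ℝ) (a : A) : A := s • Ring.inverse (algebraMap ℝ A s + a)

variable {a b : A} {s : ℝ}

lemma algebraMap_pos (hs : 0 < s) : IsStrictlyPositive (algebraMap ℝ A s) :=
  ⟨by simpa using algebraMap_mono A hs.le, (isUnit_iff_ne_zero.2 hs.ne').map _⟩

lemma shift_pos (hs : 0 < s) (ha : 0 ≤ a) : IsStrictlyPositive (algebraMap ℝ A s + a) :=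
  (algebraMap_pos hs).add_nonneg ha

lemma rs_nonneg (hs : 0 < s) (ha : 0 ≤ a) : 0 ≤ rs s a := by
  refine smul_nonneg hs.le ?_
  have h := shift_pos hs ha
  lift algebraMap ℝ A s + a to Aˣ using h.isUnit with x hx
  rw [Ring.inverse_unit]
  exact CFC.inv_nonneg_of_nonneg x h.nonneg

lemma rs_zero (hs : 0 < s) : rs s (0 : A) = 1 := by
  have h : IsUnit (algebraMap ℝ A s) := (algebraMap_pos hs).isUnit
  rw [rs, add_zero, Algebra.smul_def, Ring.mul_inverse_cancel _ h]

lemma rs_anti (hs : 0 < s) (ha : 0 ≤ a) (hab : a ≤ b) : rs s b ≤ rs s a :=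
  smul_le_smul_of_nonneg_left
    (CStarAlgebra.ringInverse_le_ringInverse (add_le_add_right hab _) (shift_pos hs ha)) hs.le

lemma rs_le_one (hs : 0 < s) (ha : 0 ≤ a) : rs s a ≤ 1 :=
  rs_zero (A := A) hs ▸ rs_anti hs le_rfl ha

lemma mul_rs (hs : 0 < s) (ha : 0 ≤ a) : a * rs s a = s • (1 - rs s a) := by
  have h := Ring.mul_inverse_cancel _ (shift_pos hs ha).isUnit
  rw [add_mul, ← Algebra.smul_def] at h
  rw [rs, mul_smul_comm]
  congr 1
  rw [eq_sub_iff_add_eq, add_comm]
  exact h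

lemma rs_mul (hs : 0 < s) (ha : 0 ≤ a) : rs s a * a = s • (1 - rs s a) := by
  have h := Ring.inverse_mul_cancel _ (shift_pos hs ha).isUnit
  rw [mul_add, ← (Algebra.commute_algebraMap_left s _).eq, ← Algebra.smul_def] at h
  rw [rs, smul_mul_assoc]
  congr 1
  rw [eq_sub_iff_add_eq, add_comm]
  exact h

lemma one_sub_rs_le (hs : 0 < s) (ha : 0 ≤ a) : 1 - rs s a ≤ s⁻¹ • a := by
  have h1 : 1 - rs s a = s⁻¹ • (a * rs s a) := by
    rw [mul_rs hs ha, inv_smul_smul₀ hs.ne']
  rw [h1]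
  refine smul_le_smul_of_nonneg_left ?_ (inv_nonneg.2 hs.le)
  have hc : Commute a (1 - rs s a) := (Commute.one_right a).sub_right
    ((mul_rs hs ha).trans (rs_mul hs ha).symm)
  have := Commute.mul_nonneg ha (sub_nonneg.2 (rs_le_one hs ha)) hc
  rwa [mul_sub, mul_one, sub_nonneg] at this

lemma rs_smul {c : ℝ} (hc : 0 < c) (hs : 0 < s) (ha : 0 ≤ a) :
    rs s (c • a) = rs (s / c) a := by
  have e : algebraMap ℝ A s + c • a = c • (algebraMap ℝ A (s / c) + a) := by
    rw [smul_add, Algebra.smul_def c (algebraMap ℝ A (s / c)), ← map_mul, mul_div_cancel₀ _ hc.ne']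
  have h := (shift_pos (div_pos hs hc) ha).isUnit
  have h2 : Ring.inverse (algebraMap ℝ A s + c • a) =
      c⁻¹ • Ring.inverse (algebraMap ℝ A (s / c) + a) := by
    rw [e]
    lift algebraMap ℝ A (s / c) + a to Aˣ using h with x
    have hx : c • (x : A) = ((Units.mk0 c hc.ne') • x : Aˣ) := rfl
    rw [hx, Ring.inverse_unit, Ring.inverse_unit]
    simp [Units.smul_def]
  rw [rs, rs, h2, smul_smul, ← div_eq_mul_inv]

lemma rs_mono {s' : ℝ} (hs : 0 < s) (hss : s ≤ s') (ha : 0 ≤ a) : rs s a ≤ rs s' a := by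
  have hs' : 0 < s' := hs.trans_le hss
  have hc : 0 < s' / s := div_pos hs' hs
  have h1 : rs s' ((s' / s) • a) = rs s a := by
    rw [rs_smul hc hs' ha, div_div_cancel₀ hs'.ne']
  rw [← h1]
  refine rs_anti hs' ha ?_
  calc a = (1 : ℝ) • a := (one_smul _ _).symm
    _ ≤ (s' / s) • a := smul_le_smul_of_nonneg_right ((one_le_div hs).2 hss) ha

lemma map_rs (T : A ≃⋆ₐ[ℂ] A) (hs : 0 < s) (ha : 0 ≤ a) : T (rs s a) = rs s (T a) := by
  have h := (shift_pos hs ha).isUnit
  have h1 : T (algebraMap ℝ A s) = algebraMap ℝ A s := by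
    rw [IsScalarTower.algebraMap_apply ℝ ℂ A, AlgEquivClass.commutes]
  have h2 : T (Ring.inverse (algebraMap ℝ A s + a)) = Ring.inverse (algebraMap ℝ A s + T a) := by
    have hu := h.map (T : A →⋆ₐ[ℂ] A)
    have h3 : algebraMap ℝ A s + T a = T (algebraMap ℝ A s + a) := by rw [map_add, h1]
    rw [h3]
    refine (hu.mul_right_cancel ?_)
    show T _ * T _ = Ring.inverse (T _) * T _
    rw [← map_mul, Ring.inverse_mul_cancel _ h, map_one]
    exact (Ring.inverse_mul_cancel _ hu).symm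
  rw [rs, rs, ← Complex.coe_smul, ← Complex.coe_smul, map_smul, h2]

/-- Average of the resolvents over geometric scales. -/
noncomputable def scales (M : ℕ) (C t : ℝ) (a : A) : A :=
  (M : ℝ)⁻¹ • ∑ i ∈ Finset.range M, rs (t * C ^ i) a

variable {M : ℕ} {C t : ℝ}

lemma scales_nonneg (hC : 1 ≤ C) (ht : 0 < t) (ha : 0 ≤ a) : 0 ≤ scales M C t a :=
  smul_nonneg (by positivity) (Finset.sum_nonneg fun _ _ => rs_nonneg (by positivity) ha)

lemma scales_le_one (hM : 0 < M) (hC : 1 ≤ C) (ht : 0 < t) (ha : 0 ≤ a) :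
    scales M C t a ≤ 1 := by
  calc scales M C t a ≤ (M : ℝ)⁻¹ • ∑ _i ∈ Finset.range M, (1 : A) :=
        smul_le_smul_of_nonneg_left
          (Finset.sum_le_sum fun _ _ => rs_le_one (by positivity) ha) (by positivity)
    _ = 1 := by
        rw [Finset.sum_const, Finset.card_range, ← Nat.cast_smul_eq_nsmul ℝ,
          inv_smul_smul₀ (Nat.cast_ne_zero.2 hM.ne')]

lemma norm_scales_le (hM : 0 < M) (hC : 1 ≤ C) (ht : 0 < t) (ha : 0 ≤ a) :
    ‖scales M C t a‖ ≤ 1 :=
  (CStarAlgebra.norm_le_one_iff_of_nonneg _ (scales_nonneg hC ht ha)).2 (scales_le_one hM hC ht ha)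

lemma norm_mul_scales_le (hM : 0 < M) (hC : 1 ≤ C) (ht : 0 < t) (ha : 0 ≤ a) :
    ‖a * scales M C t a‖ ≤ t * C ^ M := by
  have hb : ∀ i ∈ Finset.range M, ‖a * rs (t * C ^ i) a‖ ≤ t * C ^ M := by
    intro i hi
    have hs : 0 < t * C ^ i := by positivity
    rw [mul_rs hs ha, norm_smul, Real.norm_of_nonneg hs.le]
    calc _ ≤ t * C ^ i * 1 := mul_le_mul_of_nonneg_left
          ((CStarAlgebra.norm_le_one_iff_of_nonneg _ (sub_nonneg.2 (rs_le_one hs ha))).2
            (sub_le_self _ (rs_nonneg hs ha))) hs.le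
      _ ≤ t * C ^ M := by
          rw [mul_one]
          exact mul_le_mul_of_nonneg_left
            (pow_le_pow_right₀ hC (Finset.mem_range.1 hi).le) ht.le
  rw [scales, mul_smul_comm, Finset.mul_sum, norm_smul, Real.norm_of_nonneg (by positivity),
    inv_mul_le_iff₀ (by positivity)]
  calc _ ≤ _ := norm_sum_le _ _
    _ ≤ ∑ _i ∈ Finset.range M, t * C ^ M := Finset.sum_le_sum hb
    _ = _ := by rw [Finset.sum_const, Finset.card_range, nsmul_eq_mul]

/-- Dominated elements are killed by the scales. -/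
lemma norm_scales_mul_le (hM : 0 < M) (hC : 1 ≤ C) (ht : 0 < t) (ha : 0 ≤ a) {d : A}
    (hd : d * star d ≤ a) : ‖scales M C t a * d‖ ^ 2 ≤ t * C ^ M := by
  set P := scales M C t a with hP
  have hsa : IsSelfAdjoint P := .of_nonneg (scales_nonneg hC ht ha)
  have h1 : P * d * star (P * d) = P * (d * star d) * P := by
    rw [star_mul, hsa.star_eq]
    noncomm_ring
  rw [sq, ← CStarRing.norm_self_mul_star, h1]
  calc ‖P * (d * star d) * P‖ ≤ ‖P * a * P‖ :=
        CStarAlgebra.norm_le_norm_of_nonneg_of_le (hsa.conjugate_nonneg (mul_star_self_nonneg d))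
          (hsa.conjugate_le_conjugate hd)
    _ ≤ ‖P‖ * ‖a * P‖ := by rw [mul_assoc]; exact norm_mul_le _ _
    _ ≤ 1 * (t * C ^ M) := mul_le_mul (norm_scales_le hM hC ht ha)
          (norm_mul_scales_le hM hC ht ha) (norm_nonneg _) zero_le_one
    _ = _ := one_mul _

/-- Scales are almost invariant under automorphisms distorting the element boundedly. -/
lemma norm_map_scales_sub_le (hM : 0 < M) (hC : 1 ≤ C) (ht : 0 < t) (ha : 0 ≤ a)
    (T : A ≃⋆ₐ[ℂ] A) (h1 : T a ≤ C • a) (h2 : a ≤ C • T a) :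
    ‖T (scales M C t a) - scales M C t a‖ ≤ 3 / M := by
  have hC0 : 0 < C := zero_lt_one.trans_le hC
  have hTa : 0 ≤ T a := map_nonneg (T : A →⋆ₐ[ℂ] A) ha
  set f : ℕ → A := fun i => rs (t * C ^ i) a with hf
  have hpos : ∀ i, 0 < t * C ^ i := fun i => by positivity
  have hmap : T (scales M C t a) = (M : ℝ)⁻¹ • ∑ i ∈ Finset.range M, rs (t * C ^ i) (T a) := by
    rw [scales, ← Complex.coe_smul, map_smul, map_sum, Complex.coe_smul]
    exact congrArg _ (Finset.sum_congr rfl fun i _ => map_rs T (hpos i) ha)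
  -- one step up or down
  have hup : ∀ i, rs (t * C ^ i) (T a) ≤ f (i + 1) := by
    intro i
    have h' : C⁻¹ • a ≤ T a := by
      have := smul_le_smul_of_nonneg_left h2 (inv_nonneg.2 hC0.le)
      rwa [inv_smul_smul₀ hC0.ne'] at this
    refine (rs_anti (hpos i) (smul_nonneg (inv_nonneg.2 hC0.le) ha) h').trans_eq ?_
    rw [rs_smul (inv_pos.2 hC0) (hpos i) ha, hf]
    congr 1
    rw [div_inv_eq_mul, pow_succ, mul_assoc]
  have hdown : ∀ i, rs (t * C ^ i / C) a ≤ rs (t * C ^ i) (T a) := fun i => by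
    rw [← rs_smul hC0 (hpos i) ha]
    exact rs_anti (hpos i) hTa h1
  have tel : ∑ i ∈ Finset.range M, (f (i + 1) - f i) = f M - f 0 := Finset.sum_range_sub f M
  have hu : T (scales M C t a) - scales M C t a ≤ algebraMap ℝ A (M : ℝ)⁻¹ := by
    rw [hmap, scales, ← smul_sub, ← Finset.sum_sub_distrib, Algebra.algebraMap_eq_smul_one]
    refine smul_le_smul_of_nonneg_left ?_ (by positivity)
    calc _ ≤ ∑ i ∈ Finset.range M, (f (i + 1) - f i) :=
          Finset.sum_le_sum fun i _ => sub_le_sub_right (hup i) _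
      _ = f M - f 0 := tel
      _ ≤ 1 := (sub_le_self _ (rs_nonneg (hpos 0) ha)).trans (rs_le_one (hpos M) ha)
  have hl : scales M C t a - T (scales M C t a) ≤ algebraMap ℝ A (M : ℝ)⁻¹ := by
    rw [hmap, scales, ← smul_sub, ← Finset.sum_sub_distrib, Algebra.algebraMap_eq_smul_one]
    refine smul_le_smul_of_nonneg_left ?_ (by positivity)
    have hs0 : 0 < t / C := div_pos ht hC0
    let g : ℕ → A := fun i => rs (t / C * C ^ i) a
    calc _ ≤ ∑ i ∈ Finset.range M, (g (i + 1) - g i) := by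
          refine Finset.sum_le_sum fun i _ => ?_
          have e1 : t / C * C ^ (i + 1) = t * C ^ i := by
            rw [pow_succ]; field_simp
          have e2 : t / C * C ^ i = t * C ^ i / C := by ring
          simp only [g, e1, e2]
          exact sub_le_sub_left (hdown i) _
      _ = g M - g 0 := Finset.sum_range_sub g M
      _ ≤ 1 := (sub_le_self _ (rs_nonneg (by positivity) ha)).trans (rs_le_one (by positivity) ha)
  set X := T (scales M C t a) - scales M C t a with hX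
  set c : ℝ := (M : ℝ)⁻¹ with hc
  have hc0 : 0 ≤ c := by positivity
  have hl' : -X ≤ algebraMap ℝ A c := by rw [hX, neg_sub]; exact hl
  have hY0 : 0 ≤ X + algebraMap ℝ A c := by rwa [← neg_le_iff_add_nonneg']
  have hY : ‖X + algebraMap ℝ A c‖ ≤ c + c := by
    refine (CStarAlgebra.norm_le_iff_le_algebraMap _ (by positivity) hY0).2 ?_
    rw [map_add]
    exact add_le_add_left hu _
  have hone : ‖algebraMap ℝ A c‖ ≤ c := by
    rcases subsingleton_or_nontrivial A with h | h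
    · simp [Subsingleton.elim (algebraMap ℝ A c) 0, hc0]
    · simp [norm_algebraMap', abs_of_nonneg hc0]
  calc ‖X‖ = ‖X + algebraMap ℝ A c - algebraMap ℝ A c‖ := by rw [add_sub_cancel_right]
    _ ≤ _ := norm_sub_le _ _
    _ ≤ 3 / M := by rw [div_eq_mul_inv, ← hc]; linarith

lemma trace_nonneg {τ : A → ℂ} (h : IsTraceOn (⊤ : StarSubalgebra ℂ A) τ) (ha : 0 ≤ a) :
    0 ≤ (τ a).re := by
  have e := CFC.sqrt_mul_sqrt_self a ha
  have := (h.pos (CFC.sqrt a) trivial).1
  rwa [(IsSelfAdjoint.of_nonneg (CFC.sqrt_nonneg a)).star_eq, e] at this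

lemma trace_mono {τ : A → ℂ} (h : IsTraceOn (⊤ : StarSubalgebra ℂ A) τ) (hab : a ≤ b) :
    (τ a).re ≤ (τ b).re := by
  have := trace_nonneg h (sub_nonneg.2 hab)
  rw [h.map_sub trivial trivial, Complex.sub_re] at this
  linarith

lemma trace_one_sub_scales {τ : A → ℂ} (h : IsTraceOn (⊤ : StarSubalgebra ℂ A) τ) (hM : 0 < M)
    (hC : 1 ≤ C) (ht : 0 < t) (ha : 0 ≤ a) :
    tsq τ (1 - scales M C t a) ≤ (τ a).re / t := by
  set Q := 1 - scales M C t a with hQ
  have hQ0 : 0 ≤ Q := sub_nonneg.2 (scales_le_one hM hC ht ha)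
  have hQ1 : 0 ≤ 1 - Q := by rw [hQ, sub_sub_cancel]; exact scales_nonneg hC ht ha
  have hQQ : star Q * Q ≤ Q := by
    rw [(IsSelfAdjoint.of_nonneg hQ0).star_eq]
    have := Commute.mul_nonneg hQ0 hQ1 ((Commute.one_right Q).sub_right (Commute.refl Q))
    rwa [mul_sub, mul_one, sub_nonneg] at this
  have hle : Q ≤ t⁻¹ • a := by
    calc Q = (M : ℝ)⁻¹ • ∑ i ∈ Finset.range M, (1 - rs (t * C ^ i) a) := by
          rw [hQ, scales, Finset.sum_sub_distrib, smul_sub, Finset.sum_const, Finset.card_range,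
            ← Nat.cast_smul_eq_nsmul ℝ, inv_smul_smul₀ (Nat.cast_ne_zero.2 hM.ne')]
      _ ≤ (M : ℝ)⁻¹ • ∑ _i ∈ Finset.range M, t⁻¹ • a := by
          refine smul_le_smul_of_nonneg_left (Finset.sum_le_sum fun i _ => ?_) (by positivity)
          refine (one_sub_rs_le (by positivity) ha).trans (smul_le_smul_of_nonneg_right ?_ ha)
          exact inv_anti₀ ht (le_mul_of_one_le_right ht.le (one_le_pow₀ hC))
      _ = _ := by
          rw [Finset.sum_const, Finset.card_range, ← Nat.cast_smul_eq_nsmul ℝ,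
            inv_smul_smul₀ (Nat.cast_ne_zero.2 hM.ne')]
  calc tsq τ Q ≤ (τ (t⁻¹ • a)).re := (trace_mono h hQQ).trans (trace_mono h hle)
    _ = (τ a).re / t := by
        rw [← Complex.coe_smul, h.smul _ _ trivial, Complex.re_ofReal_mul, inv_mul_eq_div]

/-- A positive element dominating `j` and distorted boundedly by the given automorphisms, still
small in every trace. -/
lemma exists_dominating {ι : Type*} [Fintype ι] (T : ι → A ≃⋆ₐ[ℂ] A) {j : A} (hj : 0 ≤ j) {D : ℝ}
    (hD : ∀ τ, IsTraceOn (⊤ : StarSubalgebra ℂ A) τ → (τ j).re ≤ D) :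
    ∃ a : A, 0 ≤ a ∧ j ≤ a ∧ (∀ i, T i a ≤ (2 * (Fintype.card ι + 1 : ℝ)) • a) ∧
      ∀ τ, IsTraceOn (⊤ : StarSubalgebra ℂ A) τ → (τ a).re ≤ 2 * D := by
  set C : ℝ := 2 * (Fintype.card ι + 1 : ℝ) with hCdef
  have hC : 0 < C := by positivity
  let b : ℕ → A := fun k => Nat.rec j (fun _ y => C⁻¹ • ∑ i, T i y) k
  have hb : ∀ k, b (k + 1) = C⁻¹ • ∑ i, T i (b k) := fun k => rfl
  have hcard : C⁻¹ * Fintype.card ι ≤ 1 / 2 := by
    rw [inv_mul_le_iff₀ hC, hCdef]
    linarith
  have hpos : ∀ k, 0 ≤ b k := by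
    intro k
    induction k with
    | zero => exact hj
    | succ k ih =>
      rw [hb]
      exact smul_nonneg (inv_nonneg.2 hC.le)
        (Finset.sum_nonneg fun i _ => map_nonneg (T i : A →⋆ₐ[ℂ] A) ih)
  have hnorm : ∀ k, ‖b k‖ ≤ ‖j‖ * (1 / 2) ^ k := by
    intro k
    induction k with
    | zero => simp [b]
    | succ k ih =>
      rw [hb, norm_smul, Real.norm_of_nonneg (inv_nonneg.2 hC.le)]
      calc C⁻¹ * ‖∑ i, T i (b k)‖ ≤ C⁻¹ * ∑ _i : ι, ‖b k‖ := mul_le_mul_of_nonneg_left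
            ((norm_sum_le _ _).trans (Finset.sum_le_sum fun i _ =>
              NonUnitalStarAlgHom.norm_apply_le (T i : A →⋆ₐ[ℂ] A) _)) (inv_nonneg.2 hC.le)
        _ = C⁻¹ * Fintype.card ι * ‖b k‖ := by
            rw [Finset.sum_const, Finset.card_univ, nsmul_eq_mul]; ring
        _ ≤ 1 / 2 * (‖j‖ * (1 / 2) ^ k) :=
            mul_le_mul hcard ih (norm_nonneg _) (by norm_num)
        _ = _ := by ring
  have hsum : Summable b :=
    Summable.of_norm_bounded (summable_geometric_two.mul_left ‖j‖) hnorm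
  refine ⟨∑' k, b k, tsum_nonneg hpos, hsum.le_tsum 0 fun k _ => hpos k, fun i => ?_,
    fun τ hτ => ?_⟩
  · have hcont : Continuous (T i : A →⋆ₐ[ℂ] A) :=
      map_continuous (T i : A →⋆ₐ[ℂ] A)
    have h1 : HasSum (fun k => T i (b k)) (T i (∑' k, b k)) := hsum.hasSum.map
      (T i : A →⋆ₐ[ℂ] A) hcont
    have hs2 : Summable fun k => b (k + 1) := (summable_nat_add_iff 1).2 hsum
    calc T i (∑' k, b k) ≤ C • ∑' k, b (k + 1) :=
          hasSum_le (fun k => ?_) h1 (hs2.hasSum.const_smul C)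
      _ ≤ C • ∑' k, b k := smul_le_smul_of_nonneg_left ?_ hC.le
    · rw [hb, smul_inv_smul₀ hC.ne']
      exact Finset.single_le_sum (f := fun i => T i (b k))
        (fun i _ => map_nonneg (T i : A →⋆ₐ[ℂ] A) (hpos k)) (Finset.mem_univ i)
    · rw [hsum.tsum_eq_zero_add]
      exact le_add_of_nonneg_left (hpos 0)
  · have key : ∀ k, ∀ τ, IsTraceOn (⊤ : StarSubalgebra ℂ A) τ →
        (τ (b k)).re ≤ D * (1 / 2) ^ k := by
      intro k
      induction k with
      | zero => intro τ hτ; simpa [b] using hD τ hτ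
      | succ k ih =>
        intro τ hτ
        have hD0 : 0 ≤ D := (trace_nonneg hτ hj).trans (hD τ hτ)
        have h2 : ∀ i : ι, (τ (T i (b k))).re ≤ D * (1 / 2) ^ k := fun i =>
          ih _ (hτ.comp (T i : A →⋆ₐ[ℂ] A) fun _ _ => trivial)
        rw [hb, ← Complex.coe_smul, hτ.smul _ _ trivial, Complex.re_ofReal_mul,
          hτ.map_sum _ _ (fun _ _ => trivial), Complex.re_sum]
        calc C⁻¹ * ∑ i, (τ (T i (b k))).re ≤ C⁻¹ * ∑ _i : ι, D * (1 / 2) ^ k :=
              mul_le_mul_of_nonneg_left (Finset.sum_le_sum fun i _ => h2 i) (inv_nonneg.2 hC.le)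
          _ = C⁻¹ * Fintype.card ι * (D * (1 / 2) ^ k) := by
              rw [Finset.sum_const, Finset.card_univ, nsmul_eq_mul]; ring
          _ ≤ 1 / 2 * (D * (1 / 2) ^ k) :=
              mul_le_mul_of_nonneg_right hcard (by positivity)
          _ = _ := by ring
    obtain ⟨σ, hσ⟩ : ∃ σ : A →L[ℂ] ℂ, ∀ x, σ x = τ x := by
      let L : A →ₗ[ℂ] ℂ :=
        { toFun := τ
          map_add' := fun x y => hτ.add x trivial y trivial
          map_smul' := fun c x => hτ.smul c x trivial }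
      have hB : IsClosed ((⊤ : StarSubalgebra ℂ A) : Set A) := by
        rw [StarSubalgebra.coe_top]; exact isClosed_univ
      exact ⟨L.mkContinuous 1 fun x => by simpa [L] using hτ.norm_le hB (x := x) trivial,
        fun _ => rfl⟩
    have h1 : HasSum (fun k => (τ (b k)).re) (τ (∑' k, b k)).re := by
      simpa [hσ] using Complex.hasSum_re (σ.hasSum hsum.hasSum)
    have h2 := hasSum_geometric_two.mul_left D
    linarith [hasSum_le (fun k => key k τ hτ) h1 h2]

end Order

/-- The unitaries spanning an element. -/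
noncomputable def uOf (x : A) : Fin 4 → unitary A :=
  (CStarAlgebra.exists_sum_four_unitary x).choose

lemma norm_commute_le_of_conj {P x : A} {c : ℝ}
    (h : ∀ k, ‖Unitary.conjStarAlgAut ℂ A (uOf x k) P - P‖ ≤ c) :
    ‖P * x - x * P‖ ≤ 2 * ‖x‖ * c := by
  obtain ⟨k, hk, hbd⟩ := (CStarAlgebra.exists_sum_four_unitary x).choose_spec
  have hu : ∀ i, ‖(uOf x i : A) * P - P * (uOf x i : A)‖ ≤ c := by
    intro i
    refine le_of_eq_of_le ?_ (h i)
    rw [← CStarRing.norm_mul_mem_unitary ((uOf x i : A) * P - P * (uOf x i : A))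
      (Unitary.star_mem (uOf x i).2), Unitary.conjStarAlgAut_apply, sub_mul]
    congr 2
    rw [mul_assoc, Unitary.mul_star_self_of_mem (uOf x i).2, mul_one]
  have e : P * x - x * P = -∑ i, k i • ((uOf x i : A) * P - P * (uOf x i : A)) := by
    conv_lhs => rw [hk]
    rw [Finset.sum_mul, Finset.mul_sum, ← Finset.sum_sub_distrib, ← Finset.sum_neg_distrib]
    refine Finset.sum_congr rfl fun i _ => ?_
    rw [smul_sub, neg_sub, mul_smul_comm, smul_mul_assoc]
    rfl
  have hc : 0 ≤ c := (norm_nonneg _).trans (h 0)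
  calc ‖P * x - x * P‖ ≤ ∑ i, ‖k i • ((uOf x i : A) * P - P * (uOf x i : A))‖ := by
        rw [e, norm_neg]; exact norm_sum_le _ _
    _ ≤ ∑ _i : Fin 4, ‖x‖ / 2 * c := Finset.sum_le_sum fun i _ => by
        rw [norm_smul]
        exact mul_le_mul (hbd i) (hu i) (norm_nonneg _) (by positivity)
    _ = _ := by simp; ring

/-- The trace estimates survive a perturbation small in the trace two-norm. -/
lemma traceSmall_perturb {τ : A → ℂ} (h : IsTraceOn (⊤ : StarSubalgebra ℂ A) τ) {x y : A}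
    (hx : ‖x‖ ≤ 1) (hy : ‖y‖ ≤ 1) :
    √(tsq τ (1 - sq2 x)) ≤ √(tsq τ (sq2 y - 1)) + 4 * √(tsq τ (x - y)) := by
  have hB : IsClosed ((⊤ : StarSubalgebra ℂ A) : Set A) := by
    rw [StarSubalgebra.coe_top]; exact isClosed_univ
  have hneg : ∀ z, tsq τ (-z) = tsq τ z := fun z => by simp [tsq]
  have hl : ∀ a z : A, ‖a‖ ≤ 1 → √(tsq τ (a * z)) ≤ √(tsq τ z) := fun a z ha => by
    refine Real.sqrt_le_sqrt ((h.tsq_mul_le hB trivial trivial).trans ?_)
    exact mul_le_of_le_one_left (h.tsq_nonneg trivial) (pow_le_one₀ (norm_nonneg _) ha)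
  have hr : ∀ a z : A, ‖a‖ ≤ 1 → √(tsq τ (z * a)) ≤ √(tsq τ z) := fun a z ha => by
    refine Real.sqrt_le_sqrt ((h.tsq_mul_right_le hB trivial trivial).trans ?_)
    exact mul_le_of_le_one_left (h.tsq_nonneg trivial) (pow_le_one₀ (norm_nonneg _) ha)
  have hs : tsq τ (star x - star y) = tsq τ (x - y) := by
    rw [← star_sub, h.tsq_star trivial]
  have hd : sq2 x - sq2 y =
      star x * (x - y) + (star x - star y) * y + (x * (star x - star y) + (x - y) * star y) := by
    simp only [sq2, mul_sub, sub_mul]; abel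
  have h4 : √(tsq τ (sq2 x - sq2 y)) ≤ 4 * √(tsq τ (x - y)) := by
    rw [hd]
    refine (h.sqrt_tsq_add_le hB trivial trivial).trans ?_
    refine (add_le_add (h.sqrt_tsq_add_le hB trivial trivial)
      (h.sqrt_tsq_add_le hB trivial trivial)).trans ?_
    have e1 := hl (star x) (x - y) (by rwa [norm_star])
    have e2 := hr y (star x - star y) hy
    have e3 := hl x (star x - star y) hx
    have e4 := hr (star y) (x - y) (by rwa [norm_star])
    rw [hs] at e2 e3
    linarith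
  have e : 1 - sq2 x = -(sq2 y - 1) + -(sq2 x - sq2 y) := by abel
  rw [e]
  refine (h.sqrt_tsq_add_le hB trivial trivial).trans ?_
  rw [hneg, hneg]
  linarith

/-- The top corner is almost a projection in every trace. -/
lemma trace_corner_le {τ : A → ℂ} (h : IsTraceOn (⊤ : StarSubalgebra ℂ A) τ) {x : A}
    (hx : ‖x‖ ≤ 1) :
    (τ (star x * x * (1 - star x * x))).re ≤ √(tsq τ (1 - sq2 x)) + ‖x * x‖ ^ 2 := by
  have hB : IsClosed ((⊤ : StarSubalgebra ℂ A) : Set A) := by
    rw [StarSubalgebra.coe_top]; exact isClosed_univ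
  have e : star x * x * (1 - star x * x) =
      star x * x * (1 - sq2 x) + star x * x * x * star x := by
    simp only [sq2]; noncomm_ring
  rw [e, h.add _ trivial _ trivial, Complex.add_re]
  refine add_le_add ?_ ?_
  · have h2 := h.cauchy_schwarz hB (x := star x * x) (y := 1 - sq2 x) trivial trivial
    rw [star_mul, star_star] at h2
    have h3 : tsq τ (star x * x) ≤ 1 := (h.tsq_le_norm_sq hB trivial).trans
      (pow_le_one₀ (norm_nonneg _) (by
        rw [CStarRing.norm_star_mul_self]; exact mul_le_one₀ hx (norm_nonneg _) hx))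
    refine (Complex.re_le_norm _).trans (Real.le_sqrt_of_sq_le (h2.trans ?_))
    exact mul_le_of_le_one_left (h.tsq_nonneg trivial) h3
  · have e2 : τ (star x * x * x * star x) = τ (star (x * x) * (x * x)) := by
      rw [h.tracial _ trivial _ trivial, star_mul]
      simp only [mul_assoc]
    rw [e2]
    exact h.tsq_le_norm_sq hB trivial

/-- B1 for one choice of the finite sets: the trace estimates for them give the norm estimates. -/
theorem liftGood_at {G : Type v} [Group G] (α : G →* (A ≃⋆ₐ[ℂ] A)) (K : Finset G) (S : Finset A)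
    (hT : ∀ ε₀ : ℝ, 0 < ε₀ → ∃ x : A, ‖x‖ ≤ 1 ∧ (∀ a ∈ S, ‖x * a - a * x‖ ≤ ε₀) ∧
      ∀ τ, IsTraceOn (⊤ : StarSubalgebra ℂ A) τ →
        tsq τ (x * x) ≤ ε₀ ∧ tsq τ (sq2 x - 1) ≤ ε₀ ∧ ∀ g ∈ K, tsq τ (α g x - x) ≤ ε₀)
    {ε : ℝ} (hε : 0 < ε) :
    ∃ x : A, ‖x‖ ≤ 1 ∧ Central S ε x ∧ ‖x * x‖ ≤ ε ∧ (∀ g ∈ K, ‖α g x - x‖ ≤ ε) ∧
      TraceSmall x ε := by
  classical
  let : PartialOrder A := CStarAlgebra.spectralOrder A
  have : StarOrderedRing A := CStarAlgebra.spectralOrderedRing A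
  -- the size of the data
  set L : ℝ := 1 + ∑ a ∈ S, ‖a‖ with hL
  have hL1 : 1 ≤ L := le_add_of_nonneg_right (Finset.sum_nonneg fun _ _ => norm_nonneg _)
  set ε' : ℝ := min ε 1 with hε'
  have hε0 : 0 < ε' := lt_min hε one_pos
  have hεle : ε' ≤ ε := min_le_left _ _
  obtain ⟨M, hM⟩ := exists_nat_gt (60 * L / ε')
  have hMpos : 0 < M := by
    rcases Nat.eq_zero_or_pos M with h | h
    · subst h
      have : 0 ≤ 60 * L / ε' := by positivity
      simp only [Nat.cast_zero] at hM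
      linarith
    · exact h
  set m : ℕ := Fintype.card ((↥K ⊕ Fin (S.card + 1) × Fin 4) × Bool) with hm
  set C : ℝ := 2 * (m + 1 : ℝ) with hC
  have hC1 : 1 ≤ C := by
    have : (0 : ℝ) ≤ m := Nat.cast_nonneg _
    rw [hC]; linarith
  set δ : ℝ := (ε' / 4) ^ 2 with hδ
  set t : ℝ := δ / C ^ M with ht
  have ht0 : 0 < t := by positivity
  have htC : t * C ^ M = δ := div_mul_cancel₀ _ (by positivity)
  set η : ℝ := (ε' / 30) ^ 2 with hη
  set ε₀ : ℝ := min η (t * η / (2 * (K.card + 1))) with hε₀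
  have hε₀0 : 0 < ε₀ := lt_min (by positivity) (by positivity)
  obtain ⟨x₀, hx₀, hxS, hxτ⟩ := hT ε₀ hε₀0
  -- the automorphisms
  obtain ⟨enum, henum⟩ : ∃ f : Fin (S.card + 1) → A, ∀ y ∈ insert x₀ S, ∃ i, f i = y := by
    refine ⟨Fin.cases x₀ fun i => (S.equivFin.symm i : A), fun y hy => ?_⟩
    rcases Finset.mem_insert.1 hy with rfl | hy
    · exact ⟨0, rfl⟩
    · exact ⟨(S.equivFin ⟨y, hy⟩).succ, by simp⟩
  let ψ : ↥K ⊕ Fin (S.card + 1) × Fin 4 → A ≃⋆ₐ[ℂ] A :=
    Sum.elim (fun g => α g.1) fun p => Unitary.conjStarAlgAut ℂ A (uOf (enum p.1) p.2)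
  let Ψ : (↥K ⊕ Fin (S.card + 1) × Fin 4) × Bool → A ≃⋆ₐ[ℂ] A :=
    fun p => if p.2 then ψ p.1 else (ψ p.1).symm
  -- the defects
  set j : A := (x₀ * x₀) * star (x₀ * x₀) + ∑ g ∈ K, (α g x₀ - x₀) * star (α g x₀ - x₀) with hj
  have hj0 : 0 ≤ j := add_nonneg (mul_star_self_nonneg _)
    (Finset.sum_nonneg fun _ _ => mul_star_self_nonneg _)
  have hjD : ∀ τ, IsTraceOn (⊤ : StarSubalgebra ℂ A) τ → (τ j).re ≤ (K.card + 1) * ε₀ := by
    intro τ hτ
    have e : ∀ d : A, (τ (d * star d)).re = tsq τ d := fun d => by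
      rw [← hτ.tsq_star (x := d) trivial, tsq, star_star]
    rw [hj, hτ.add _ trivial _ trivial, hτ.map_sum _ _ (fun _ _ => trivial), Complex.add_re,
      Complex.re_sum, e]
    calc _ ≤ ε₀ + ∑ _g ∈ K, ε₀ := add_le_add (hxτ τ hτ).1
          (Finset.sum_le_sum fun g hg => (e _).trans_le ((hxτ τ hτ).2.2 g hg))
      _ = _ := by rw [Finset.sum_const, nsmul_eq_mul]; ring
  obtain ⟨a, ha0, hja, haT, haτ⟩ := exists_dominating Ψ hj0 hjD
  rw [← hm, ← hC] at haT
  set P : A := scales M C t a with hP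
  have hP1 : ‖P‖ ≤ 1 := norm_scales_le hMpos hC1 ht0 ha0
  have hinv : ∀ i, ‖ψ i P - P‖ ≤ 3 / M := by
    intro i
    have h1 : ψ i a ≤ C • a := by simpa [Ψ] using haT (i, true)
    have h2 : a ≤ C • ψ i a := by
      have h := OrderHomClass.mono (ψ i : A →⋆ₐ[ℂ] A) (by simpa [Ψ] using haT (i, false))
      simpa [← Complex.coe_smul] using h
    exact norm_map_scales_sub_le hMpos hC1 ht0 ha0 (ψ i) h1 h2
  have hM3 : 3 / (M : ℝ) * L ≤ ε' / 20 := by
    have h := (div_lt_iff₀ hε0).1 hM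
    rw [div_mul_eq_mul_div, div_le_iff₀ (Nat.cast_pos.2 hMpos)]
    linarith
  have hM1 : 3 / (M : ℝ) ≤ ε' / 20 := le_trans (le_mul_of_one_le_right (by positivity) hL1) hM3
  have hcom : ∀ y ∈ insert x₀ S, ‖P * y - y * P‖ ≤ ε' / 10 := by
    intro y hy
    obtain ⟨i, hi⟩ := henum y hy
    refine (norm_commute_le_of_conj fun k => ?_).trans
      (le_trans (mul_le_mul_of_nonneg_right ?_ (by positivity)) (?_ : 2 * L * (3 / M) ≤ ε' / 10))
    · simpa [ψ, hi] using hinv (Sum.inr (i, k))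
    · rcases Finset.mem_insert.1 hy with rfl | hy
      · linarith
      · have : ‖y‖ ≤ ∑ a ∈ S, ‖a‖ := Finset.single_le_sum (fun a _ => norm_nonneg a) hy
        linarith
    · linarith
  have hkill : ∀ d : A, d * star d ≤ j → ‖P * d‖ ≤ ε' / 4 := by
    intro d hd
    have h := norm_scales_mul_le hMpos hC1 ht0 ha0 (hd.trans hja)
    rw [htC] at h
    exact (pow_le_pow_iff_left₀ (norm_nonneg _) (by positivity) two_ne_zero).1 h
  set x : A := P * x₀ with hx
  have hx1 : ‖x‖ ≤ 1 := (norm_mul_le _ _).trans (mul_le_one₀ hP1 (norm_nonneg _) hx₀)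
  have hxx : ‖x * x‖ ≤ ε' / 2 := by
    have e : x * x = P * (P * (x₀ * x₀)) - P * (P * x₀ - x₀ * P) * x₀ := by
      rw [hx]; noncomm_ring
    rw [e]
    refine (norm_sub_le _ _).trans ?_
    have h1 : ‖P * (P * (x₀ * x₀))‖ ≤ ε' / 4 :=
      (norm_mul_le _ _).trans ((mul_le_of_le_one_left (norm_nonneg _) hP1).trans
        (hkill _ (le_add_of_nonneg_right (Finset.sum_nonneg fun _ _ => mul_star_self_nonneg _))))
    have h2 : ‖P * (P * x₀ - x₀ * P) * x₀‖ ≤ ε' / 10 :=
      ((norm_mul_le _ _).trans (mul_le_of_le_one_right (norm_nonneg _) hx₀)).trans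
        ((norm_mul_le _ _).trans ((mul_le_of_le_one_left (norm_nonneg _) hP1).trans
          (hcom _ (Finset.mem_insert_self _ _))))
    linarith
  refine ⟨x, hx1, fun b hb => ?_, hxx.trans (by linarith), fun g hg => ?_, fun τ hτ => ?_⟩
  · have e : x * b - b * x = P * (x₀ * b - b * x₀) + (P * b - b * P) * x₀ := by
      rw [hx]; noncomm_ring
    have h1 : ‖P * (x₀ * b - b * x₀)‖ ≤ ε₀ :=
      ((norm_mul_le _ _).trans (mul_le_of_le_one_left (norm_nonneg _) hP1)).trans (hxS b hb)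
    have h2 : ‖(P * b - b * P) * x₀‖ ≤ ε' / 10 :=
      ((norm_mul_le _ _).trans (mul_le_of_le_one_right (norm_nonneg _) hx₀)).trans
        (hcom b (Finset.mem_insert_of_mem hb))
    have hη2 : η ≤ ε' / 2 := by
      rw [hη]; nlinarith [min_le_right ε 1]
    rw [e]
    linarith [norm_add_le (P * (x₀ * b - b * x₀)) ((P * b - b * P) * x₀), min_le_left η
      (t * η / (2 * (K.card + 1)))]
  · have e : α g x - x = (α g P - P) * α g x₀ + P * (α g x₀ - x₀) := by
      rw [hx, map_mul]; noncomm_ring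
    have h1 : ‖(α g P - P) * α g x₀‖ ≤ ε' / 20 :=
      ((norm_mul_le _ _).trans (mul_le_of_le_one_right (norm_nonneg _)
        ((NonUnitalStarAlgHom.norm_apply_le (α g : A →⋆ₐ[ℂ] A) x₀).trans hx₀))).trans
        ((hinv (Sum.inl ⟨g, hg⟩)).trans hM1)
    have h2 := hkill (α g x₀ - x₀) (le_add_of_nonneg_of_le (mul_star_self_nonneg _)
      (Finset.single_le_sum (f := fun g => (α g x₀ - x₀) * star (α g x₀ - x₀))
        (fun _ _ => mul_star_self_nonneg _) hg))
    rw [e]
    linarith [norm_add_le ((α g P - P) * α g x₀) (P * (α g x₀ - x₀))]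
  · have hB : IsClosed ((⊤ : StarSubalgebra ℂ A) : Set A) := by
      rw [StarSubalgebra.coe_top]; exact isClosed_univ
    have hq : tsq τ (x - x₀) ≤ η := by
      have e : x - x₀ = -((1 - P) * x₀) := by rw [hx, sub_mul, one_mul, neg_sub]
      rw [e, show tsq τ (-((1 - P) * x₀)) = tsq τ ((1 - P) * x₀) by simp [tsq]]
      refine (hτ.tsq_mul_right_le hB trivial trivial).trans ?_
      refine (mul_le_of_le_one_left (hτ.tsq_nonneg trivial)
        (pow_le_one₀ (norm_nonneg _) hx₀)).trans ?_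
      refine (trace_one_sub_scales hτ hMpos hC1 ht0 ha0).trans ?_
      rw [div_le_iff₀ ht0, mul_comm η]
      have h2 := (le_div_iff₀ (by positivity)).1 (min_le_right η (t * η / (2 * (K.card + 1 : ℝ))))
      nlinarith [haτ τ hτ]
    have hsq := traceSmall_perturb hτ hx1 hx₀
    have hs1 : √(tsq τ (sq2 x₀ - 1)) ≤ ε' / 30 := by
      rw [Real.sqrt_le_left (by positivity)]
      exact (hxτ τ hτ).2.1.trans (min_le_left _ _)
    have hs2 : √(tsq τ (x - x₀)) ≤ ε' / 30 := by
      rwa [Real.sqrt_le_left (by positivity)]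
    refine ⟨?_, ?_⟩
    · have h := (Real.sqrt_le_left (by positivity)).1
        (show √(tsq τ (1 - sq2 x)) ≤ ε' / 6 by linarith)
      nlinarith [min_le_right ε 1]
    · have h := trace_corner_le hτ hx1
      have h2 : ‖x * x‖ ^ 2 ≤ ε' / 2 := by
        nlinarith [norm_nonneg (x * x), min_le_right ε 1]
      linarith

/-- B1. -/
theorem liftPin : LiftPin.{u, v} :=
  fun _ _ _ _ _ α hT K S _ hε => liftGood_at α K S (hT K S) hε

end Vale.Agent.P095.SI
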