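import Vale.Agent.P095.SI.Defs

/-!
P095, equivariant (SI) step: basic facts about matrix units, their commutant and the expectation
onto it, and about towers.
-/

namespace Vale.Agent.P095.SI

variable {A : Type*} [CStarAlgebra A] {D : MU A}

namespace MU

lemma mul_eq (D : MU A) (i : Fin D.m) (a b c : Fin (D.d i + 1)) :
    D.e i a b * D.e i b c = D.e i a c := by
  rw [D.mul_same, if_pos rfl]

lemma norm_e_le (D : MU A) (i : Fin D.m) (a b : Fin (D.d i + 1)) : ‖D.e i a b‖ ≤ 1 := by
  have key : ∀ c : Fin (D.d i + 1), ‖D.e i c c‖ ≤ 1 := fun c => by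
    have h := CStarRing.norm_star_mul_self (x := D.e i c c)
    rw [D.star_e, D.mul_eq] at h
    rcases eq_or_ne ‖D.e i c c‖ 0 with h0 | h0
    · rw [h0]; exact zero_le_one
    · exact le_of_eq (mul_left_cancel₀ h0 (by rw [← h, mul_one]))
  have h := CStarRing.norm_star_mul_self (x := D.e i a b)
  rw [D.star_e, D.mul_eq] at h
  nlinarith [key b, norm_nonneg (D.e i a b)]

lemma e_mem_alg (D : MU A) (i : Fin D.m) (a b : Fin (D.d i + 1)) : D.e i a b ∈ D.alg :=
  Submodule.subset_span ⟨i, a, b, rfl⟩

lemma Commutes.commute {x : A} (h : D.Commutes x) {y : A} (hy : y ∈ D.alg) : Commute x y := by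
  induction hy using Submodule.span_induction with
  | mem y hy =>
    obtain ⟨i, a, b, rfl⟩ := hy
    exact h i a b
  | zero => exact Commute.zero_right x
  | add u v _ _ hu hv => exact hu.add_right hv
  | smul r u _ hu => exact hu.smul_right r

lemma Commutes.star {x : A} (h : D.Commutes x) : D.Commutes (star x) := fun i a b => by
  have := (h i b a).star_star
  rwa [D.star_e] at this

lemma commutes_one : D.Commutes (1 : A) := fun _ _ _ => Commute.one_left _

lemma Commutes.mul {x y : A} (hx : D.Commutes x) (hy : D.Commutes y) : D.Commutes (x * y) :=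
  fun i a b => (hx i a b).mul_left (hy i a b)

lemma Commutes.add {x y : A} (hx : D.Commutes x) (hy : D.Commutes y) : D.Commutes (x + y) :=
  fun i a b => (hx i a b).add_left (hy i a b)

lemma Commutes.sub {x y : A} (hx : D.Commutes x) (hy : D.Commutes y) : D.Commutes (x - y) :=
  fun i a b => (hx i a b).sub_left (hy i a b)

lemma Commutes.smul (r : ℂ) {x : A} (hx : D.Commutes x) : D.Commutes (r • x) :=
  fun i a b => (hx i a b).smul_left r

lemma Commutes.central {x a y : A} (hx : D.Commutes x) (hy : y ∈ D.alg) :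
    ‖x * a - a * x‖ ≤ 2 * ‖x‖ * ‖a - y‖ := by
  have e : x * a - a * x = x * (a - y) - (a - y) * x := by
    rw [mul_sub, sub_mul, (hx.commute hy).eq]
    abel
  rw [e]
  refine (norm_sub_le _ _).trans ((add_le_add (norm_mul_le _ _) (norm_mul_le _ _)).trans ?_)
  linarith

lemma e_mul_expect (D : MU A) (x : A) (i : Fin D.m) (a b : Fin (D.d i + 1)) :
    D.e i a b * D.expect x = D.e i a 0 * x * D.e i 0 b := by
  rw [expect, Finset.mul_sum, Finset.sum_eq_single i, Finset.mul_sum, Finset.sum_eq_single b]
  · rw [← mul_assoc, ← mul_assoc, D.mul_eq]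
  · intro c _ hc
    rw [← mul_assoc, ← mul_assoc, D.mul_same, if_neg (Ne.symm hc), zero_mul, zero_mul]
  · simp
  · intro j _ hj
    rw [Finset.mul_sum]
    refine Finset.sum_eq_zero fun c _ => ?_
    rw [← mul_assoc, ← mul_assoc, D.mul_ne i j (Ne.symm hj), zero_mul, zero_mul]
  · simp

lemma expect_mul_e (D : MU A) (x : A) (i : Fin D.m) (a b : Fin (D.d i + 1)) :
    D.expect x * D.e i a b = D.e i a 0 * x * D.e i 0 b := by
  rw [expect, Finset.sum_mul, Finset.sum_eq_single i, Finset.sum_mul, Finset.sum_eq_single a]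
  · rw [mul_assoc, D.mul_eq]
  · intro c _ hc
    rw [mul_assoc, D.mul_same, if_neg hc, mul_zero]
  · simp
  · intro j _ hj
    rw [Finset.sum_mul]
    refine Finset.sum_eq_zero fun c _ => ?_
    rw [mul_assoc, D.mul_ne j i hj, mul_zero]
  · simp

lemma expect_commutes (D : MU A) (x : A) : D.Commutes (D.expect x) := fun i a b =>
  (D.expect_mul_e x i a b).trans (D.e_mul_expect x i a b).symm

lemma star_expect (D : MU A) (x : A) : star (D.expect x) = D.expect (star x) := by
  simp only [expect, star_sum, star_mul, D.star_e, mul_assoc]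

lemma expect_add (D : MU A) (x y : A) : D.expect (x + y) = D.expect x + D.expect y := by
  simp only [expect, mul_add, add_mul, Finset.sum_add_distrib]

lemma expect_sub (D : MU A) (x y : A) : D.expect (x - y) = D.expect x - D.expect y := by
  simp only [expect, mul_sub, sub_mul, Finset.sum_sub_distrib]

lemma expect_one (D : MU A) : D.expect 1 = 1 := by
  simp only [expect, mul_one, D.mul_eq, D.sum_eq]

lemma expect_of_commutes (D : MU A) {x : A} (h : D.Commutes x) : D.expect x = x := by
  simp only [expect, mul_assoc, (h _ _ _).eq]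
  simp only [← mul_assoc, D.mul_eq, ← Finset.sum_mul, D.sum_eq, one_mul]

lemma expect_sub_self_le (D : MU A) (x : A) :
    ‖D.expect x - x‖ ≤ ∑ i, ∑ a, ‖x * D.e i 0 a - D.e i 0 a * x‖ := by
  have e : D.expect x - x = ∑ i, ∑ a, D.e i a 0 * (x * D.e i 0 a - D.e i 0 a * x) := by
    simp only [mul_sub, ← mul_assoc, D.mul_eq, Finset.sum_sub_distrib]
    rw [show (∑ i, ∑ a, D.e i a a * x) = x by simp only [← Finset.sum_mul, D.sum_eq, one_mul]]
    rfl
  rw [e]
  refine norm_sum_le_of_le _ fun i _ => norm_sum_le_of_le _ fun a _ => ?_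
  exact (norm_mul_le _ _).trans (mul_le_of_le_one_left (norm_nonneg _) (D.norm_e_le i a 0))

section Order

variable [PartialOrder A] [StarOrderedRing A]

lemma expect_nonneg (D : MU A) {x : A} (hx : 0 ≤ x) : 0 ≤ D.expect x := by
  refine Finset.sum_nonneg fun i _ => Finset.sum_nonneg fun a _ => ?_
  have := star_left_conjugate_nonneg hx (D.e i 0 a)
  rwa [D.star_e] at this

lemma expect_mono (D : MU A) {x y : A} (h : x ≤ y) : D.expect x ≤ D.expect y := by
  have := D.expect_nonneg (sub_nonneg.2 h)
  rwa [expect_sub, sub_nonneg] at this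

lemma norm_expect_le (D : MU A) (x : A) : ‖D.expect x‖ ≤ ‖x‖ := by
  -- the sum of the corners
  let z : A := ∑ i, D.e i 0 0
  have hzs : star z = z := by simp only [z, star_sum, D.star_e]
  have hzz : z * z = z := by
    simp only [z, Finset.sum_mul]
    refine Finset.sum_congr rfl fun i _ => ?_
    rw [Finset.mul_sum, Finset.sum_eq_single i _ (by simp), D.mul_eq]
    intro j _ hj
    exact D.mul_ne i j (Ne.symm hj) _ _ _ _
  have hz1 : z ≤ 1 := by
    have h : 0 ≤ star (1 - z) * (1 - z) := star_mul_self_nonneg _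
    rw [star_sub, star_one, hzs, sub_mul, mul_sub, one_mul, one_mul, mul_sub, mul_one, hzz,
      sub_self, sub_zero] at h
    exact sub_nonneg.1 h
  have key : star (D.expect x) * D.expect x ≤ D.expect (star x * z * x) := by
    rw [D.star_expect]
    conv_lhs => rw [expect, Finset.sum_mul]
    refine Finset.sum_le_sum fun i _ => ?_
    rw [Finset.sum_mul]
    refine Finset.sum_le_sum fun a _ => ?_
    rw [mul_assoc (D.e i a 0 * star x) (D.e i 0 a), e_mul_expect]
    have h1 : star x * D.e i 0 0 * x ≤ star x * z * x :=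
      star_left_conjugate_le_conjugate (Finset.single_le_sum (f := fun j => D.e j 0 0)
        (fun j _ => by
          show 0 ≤ D.e j 0 0
          rw [← D.mul_eq j 0 0 0]
          nth_rw 1 [← D.star_e j 0 0]
          exact star_mul_self_nonneg _) (Finset.mem_univ i)) x
    have := star_left_conjugate_le_conjugate h1 (D.e i 0 a)
    rw [D.star_e] at this
    simpa only [mul_assoc] using this
  have h2 : star x * z * x ≤ algebraMap ℝ A (‖x‖ ^ 2) := by
    refine (star_left_conjugate_le_conjugate hz1 x).trans ?_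
    rw [mul_one, sq, ← CStarRing.norm_star_mul_self]
    exact (IsSelfAdjoint.star_mul_self x).le_algebraMap_norm_self
  have h3 := key.trans (D.expect_mono h2)
  have h4 : D.expect (algebraMap ℝ A (‖x‖ ^ 2)) = algebraMap ℝ A (‖x‖ ^ 2) :=
    D.expect_of_commutes fun i a b => Algebra.commute_algebraMap_left _ _
  rw [h4] at h3
  have h5 := (CStarAlgebra.norm_le_iff_le_algebraMap _ (sq_nonneg ‖x‖) (star_mul_self_nonneg _)).2 h3
  rw [CStarRing.norm_star_mul_self, ← sq] at h5
  exact pow_le_pow_iff_left₀ (norm_nonneg _) (norm_nonneg _) two_ne_zero |>.1 h5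

end Order

end MU

namespace AFTower

variable (T : AFTower A)

lemma alg_le {k l : ℕ} (h : k ≤ l) : (T.D k).alg ≤ (T.D l).alg := by
  induction h with
  | refl => exact le_rfl
  | step _ ih => exact ih.trans (T.mono _)

lemma commutes_mono {k l : ℕ} (h : k ≤ l) {x : A} (hx : (T.D l).Commutes x) :
    (T.D k).Commutes x :=
  fun i a b => hx.commute (T.alg_le h ((T.D k).e_mem_alg i a b))

lemma exists_step (S : Finset A) {ε : ℝ} (hε : 0 < ε) (k₀ : ℕ) :
    ∃ k ≥ k₀, ∀ a ∈ S, ∃ y ∈ (T.D k).alg, ‖a - y‖ ≤ ε := by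
  classical
  induction S using Finset.induction_on with
  | empty => exact ⟨k₀, le_rfl, by simp⟩
  | insert a S _ ih =>
    obtain ⟨k, hk, hS⟩ := ih
    obtain ⟨l, y, hy, hay⟩ := T.dense a ε hε
    refine ⟨max k l, le_trans hk (le_max_left k l), fun b hb => ?_⟩
    rcases Finset.mem_insert.1 hb with rfl | hb
    · exact ⟨y, T.alg_le (le_max_right k l) hy, hay⟩
    · obtain ⟨z, hz, hbz⟩ := hS b hb
      exact ⟨z, T.alg_le (le_max_left k l) hz, hbz⟩

/-- Commutation with a far step of the tower gives centrality. -/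
lemma exists_central (S : Finset A) {ε : ℝ} (hε : 0 < ε) (k₀ : ℕ) :
    ∃ k ≥ k₀, ∀ x : A, ‖x‖ ≤ 1 → (T.D k).Commutes x → Central S ε x := by
  obtain ⟨k, hk, hS⟩ := T.exists_step S (half_pos hε) k₀
  refine ⟨k, hk, fun x hx hc a ha => ?_⟩
  obtain ⟨y, hy, hay⟩ := hS a ha
  refine (MU.Commutes.central hc hy).trans ?_
  nlinarith [norm_nonneg x, norm_nonneg (a - y)]

end AFTower

end Vale.Agent.P095.SI
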