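import Vale.Agent.P095.SI.Pins
import Vale.Agent.P095.SI.MUBasic

/-!
P095, equivariant (SI) step, B4a: translates of one almost central solution, one for each class
modulo the kernel, averaged over a Foelner set.
-/

namespace Vale.Agent.P095.SI

open Tracial

section Basic

variable {A : Type*} [CStarAlgebra A] {G : Type*} [Group G] (α : G →* (A ≃⋆ₐ[ℂ] A))

lemma act_mul (g h : G) (x : A) : α (g * h) x = α g (α h x) := by
  rw [map_mul]; rfl

lemma act_inv_apply (g : G) (x : A) : α g (α g⁻¹ x) = x := by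
  rw [← act_mul, mul_inv_cancel, map_one]; rfl

lemma InKernel.one : InKernel α (1 : G) := fun ε hε =>
  ⟨∅, 1, one_pos, fun b _ _ => by simp [map_one, hε.le]⟩

variable {α}

lemma InKernel.inv {d : G} (h : InKernel α d) : InKernel α d⁻¹ := fun ε hε => by
  obtain ⟨S, δ, hδ, hb⟩ := h ε hε
  refine ⟨S, δ, hδ, fun b h1 h2 => ?_⟩
  rw [← StarAlgEquiv.norm_map (α d), map_sub, act_inv_apply, norm_sub_rev]
  exact hb b h1 h2

lemma InKernel.mul {d e : G} (hd : InKernel α d) (he : InKernel α e) : InKernel α (d * e) :=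
  fun ε hε => by
  classical
  obtain ⟨S, δ, hδ, hb⟩ := hd (ε / 2) (half_pos hε)
  obtain ⟨S', δ', hδ', hb'⟩ := he (ε / 2) (half_pos hε)
  refine ⟨S ∪ S', min δ δ', lt_min hδ hδ', fun b h1 h2 => ?_⟩
  have k1 := hb b h1 fun a ha => (h2 a (Finset.mem_union_left _ ha)).trans (min_le_left _ _)
  have k2 := hb' b h1 fun a ha => (h2 a (Finset.mem_union_right _ ha)).trans (min_le_right _ _)
  have e1 : α (d * e) b - b = α d (α e b - b) + (α d b - b) := by
    rw [act_mul, map_sub]; abel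
  rw [e1]
  refine (norm_add_le _ _).trans ?_
  rw [StarAlgEquiv.norm_map]
  linarith

variable (α) in
/-- The elements acting trivially on central elements. -/
def kernelSubgroup : Subgroup G where
  carrier := {d | InKernel α d}
  one_mem' := InKernel.one α
  mul_mem' hd he := hd.mul he
  inv_mem' hd := hd.inv

end Basic

section Norms

variable {A : Type*} [CStarAlgebra A]

/-- Almost orthogonal combinations. -/
lemma ortho_sum {ι : Type*} (C : Finset ι) (a : ι → ℝ) (u : ι → A) {t : ℝ} (ht : 0 ≤ t)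
    (ha : ∀ c ∈ C, |a c| ≤ 1)
    (hu : ∀ c ∈ C, ∀ c' ∈ C, c ≠ c' → ‖star (u c) * u c'‖ ≤ t) :
    ‖star (∑ c ∈ C, (a c : ℂ) • u c) * (∑ c ∈ C, (a c : ℂ) • u c)
        - ∑ c ∈ C, ((a c ^ 2 : ℝ) : ℂ) • (star (u c) * u c)‖ ≤ (C.card : ℝ) ^ 2 * t := by
  classical
  have e : star (∑ c ∈ C, (a c : ℂ) • u c) * (∑ c ∈ C, (a c : ℂ) • u c)
      - ∑ c ∈ C, ((a c ^ 2 : ℝ) : ℂ) • (star (u c) * u c) =
      ∑ c ∈ C, ∑ c' ∈ C.erase c, ((a c * a c' : ℝ) : ℂ) • (star (u c) * u c') := by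
    rw [star_sum, Finset.sum_mul, ← Finset.sum_sub_distrib]
    refine Finset.sum_congr rfl fun c hc => ?_
    rw [star_smul, Finset.mul_sum]
    simp only [smul_mul_smul_comm, Complex.star_def, Complex.conj_ofReal, ← Complex.ofReal_mul]
    rw [← Finset.add_sum_erase C _ hc, sq, add_sub_cancel_left]
  rw [e]
  refine (norm_sum_le_of_le (n := fun _ => (C.card : ℝ) * t) _ fun c hc => ?_).trans
    (le_of_eq (by rw [Finset.sum_const, nsmul_eq_mul]; ring))
  refine (norm_sum_le_of_le (n := fun _ => t) _ fun c' hc' => ?_).trans ?_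
  · obtain ⟨hne, hc'⟩ := Finset.mem_erase.1 hc'
    rw [norm_smul, Complex.norm_real, Real.norm_eq_abs, abs_mul]
    calc |a c| * |a c'| * ‖star (u c) * u c'‖ ≤ 1 * 1 * t := by
          gcongr
          · exact ha c hc
          · exact ha c' hc'
          · exact hu c hc c' hc' (Ne.symm hne)
      _ = t := by ring
  · rw [Finset.sum_const, nsmul_eq_mul]
    exact mul_le_mul_of_nonneg_right (by exact_mod_cast Finset.card_erase_le) ht

lemma norm_sum_smul_le {ι : Type*} (C : Finset ι) (a : ι → ℝ) (z : ι → A) {t : ℝ}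
    (ha : ∀ c ∈ C, |a c| ≤ 1) (hz : ∀ c ∈ C, ‖z c‖ ≤ t) :
    ‖∑ c ∈ C, (a c : ℂ) • z c‖ ≤ (C.card : ℝ) * t := by
  refine (norm_sum_le_of_le (n := fun _ => t) _ fun c hc => ?_).trans
    (le_of_eq (by rw [Finset.sum_const, nsmul_eq_mul]))
  rw [norm_smul, Complex.norm_real, Real.norm_eq_abs]
  calc |a c| * ‖z c‖ ≤ 1 * t := mul_le_mul (ha c hc) (hz c hc) (norm_nonneg _) zero_le_one
    _ = t := one_mul t

lemma norm_sq2_sub_le {x y : A} (hx : ‖x‖ ≤ 1) (hy : ‖y‖ ≤ 1) :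
    ‖star y * y - star x * x‖ ≤ 2 * ‖y - x‖ ∧ ‖sq2 y - sq2 x‖ ≤ 4 * ‖y - x‖ := by
  have hn := norm_nonneg (y - x)
  have key : ∀ a b c d : A, ‖a‖ ≤ 1 → ‖d‖ ≤ 1 → ‖a * b - c * d‖ ≤ ‖b - d‖ + ‖a - c‖ := by
    intro a b c d ha hd
    rw [show a * b - c * d = a * (b - d) + (a - c) * d by rw [mul_sub, sub_mul]; abel]
    refine (norm_add_le _ _).trans (add_le_add ((norm_mul_le _ _).trans ?_) ((norm_mul_le _ _).trans ?_))
    · exact mul_le_of_le_one_left (norm_nonneg _) ha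
    · exact mul_le_of_le_one_right (norm_nonneg _) hd
  have h1 := key (star y) y (star x) x (by rwa [norm_star]) hx
  have h2 := key y (star y) x (star x) hy (by rwa [norm_star])
  have e : ‖star y - star x‖ = ‖y - x‖ := by rw [← star_sub, norm_star]
  rw [e] at h1 h2
  refine ⟨by linarith, ?_⟩
  rw [sq2, sq2, show star y * y + y * star y - (star x * x + x * star x)
    = (star y * y - star x * x) + (y * star y - x * star x) by abel]
  exact (norm_add_le _ _).trans (by linarith)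

end Norms

section Counting

variable {G : Type*} [Group G] {N : Subgroup G}

/-- The number of points of a finite set in a class. -/
noncomputable def classCount (N : Subgroup G) (Φ : Finset G) (c : G ⧸ N) : ℕ := by
  classical exact (Φ.filter fun h : G => (h : G ⧸ N) = c).card

lemma classCount_sum (Φ : Finset G) (C : Finset (G ⧸ N))
    (hC : ∀ h ∈ Φ, (h : G ⧸ N) ∈ C) :
    ∑ c ∈ C, (classCount N Φ c : ℝ) = Φ.card := by
  classical
  rw [← Nat.cast_sum]
  refine Nat.cast_inj.2 ?_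
  rw [Finset.card_eq_sum_card_fiberwise hC]
  refine Finset.sum_congr rfl fun c _ => ?_
  unfold classCount
  congr 1

lemma classCount_drift (Φ : Finset G) (C : Finset (G ⧸ N)) (k : G) :
    ∑ c ∈ C, |(classCount N Φ c : ℝ) - classCount N Φ (k⁻¹ • c)| ≤
      2 * (Nat.card {h // h ∈ Φ ∧ k * h ∉ Φ} : ℝ) := by
  classical
  set Ψ := Φ.image (k * ·) with hΨ
  have hshift : ∀ c : G ⧸ N, classCount N Φ (k⁻¹ • c) = classCount N Ψ c := by
    intro c
    unfold classCount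
    rw [hΨ, Finset.filter_image, Finset.card_image_of_injective _ (mul_right_injective k)]
    congr 1
    ext h
    simp only [Finset.mem_filter]
    refine and_congr_right fun _ => ?_
    rw [eq_inv_smul_iff, MulAction.Quotient.smul_coe, smul_eq_mul]
  have hfib : ∀ X : Finset G, ∑ c ∈ C, (classCount N X c : ℝ) ≤ X.card := by
    intro X
    have := classCount_sum X (C ∪ X.image fun h : G => (h : G ⧸ N))
      (fun h hh => Finset.mem_union_right _ (Finset.mem_image_of_mem _ hh))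
    rw [← this]
    exact Finset.sum_le_sum_of_subset_of_nonneg Finset.subset_union_left
      fun _ _ _ => Nat.cast_nonneg _
  have hsplit : ∀ (X Y : Finset G) (c : G ⧸ N),
      (classCount N X c : ℝ) = classCount N (X \ Y) c + classCount N (X ∩ Y) c := by
    intro X Y c
    rw [← Nat.cast_add]
    unfold classCount
    rw [← Finset.card_union_of_disjoint (Finset.disjoint_filter_filter
      (Finset.disjoint_sdiff_inter X Y)), ← Finset.filter_union, Finset.sdiff_union_inter]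
  have hcard : (Φ \ Ψ).card = (Ψ \ Φ).card :=
    Finset.card_sdiff_comm (Finset.card_image_of_injective Φ (mul_right_injective k)).symm
  have hB : (Ψ \ Φ).card = Nat.card {h // h ∈ Φ ∧ k * h ∉ Φ} := by
    rw [Nat.subtype_card (Φ.filter fun h => k * h ∉ Φ) (fun h => by simp),
      show Ψ \ Φ = (Φ.filter fun h => k * h ∉ Φ).image (k * ·) from ?_,
      Finset.card_image_of_injective _ (mul_right_injective k)]
    ext z
    simp only [hΨ, Finset.mem_sdiff, Finset.mem_image, Finset.mem_filter]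
    constructor
    · rintro ⟨⟨h, hh, rfl⟩, hz⟩
      exact ⟨h, ⟨hh, hz⟩, rfl⟩
    · rintro ⟨h, ⟨hh, hz⟩, rfl⟩
      exact ⟨⟨h, hh, rfl⟩, hz⟩
  calc ∑ c ∈ C, |(classCount N Φ c : ℝ) - classCount N Φ (k⁻¹ • c)|
      ≤ ∑ c ∈ C, ((classCount N (Φ \ Ψ) c : ℝ) + classCount N (Ψ \ Φ) c) := by
        refine Finset.sum_le_sum fun c _ => ?_
        rw [hshift, hsplit Φ Ψ c, hsplit Ψ Φ c, Finset.inter_comm Ψ Φ, add_sub_add_right_eq_sub]
        refine (abs_sub _ _).trans ?_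
        simp
    _ ≤ ((Φ \ Ψ).card : ℝ) + (Ψ \ Φ).card := by
        rw [Finset.sum_add_distrib]
        exact add_le_add (hfib _) (hfib _)
    _ = 2 * (Nat.card {h // h ∈ Φ ∧ k * h ∉ Φ} : ℝ) := by
        rw [hcard, hB]; ring

lemma sqrt_sub_sq_le {a b : ℝ} (ha : 0 ≤ a) (hb : 0 ≤ b) :
    (Real.sqrt a - Real.sqrt b) ^ 2 ≤ |a - b| := by
  obtain ⟨p, hp, rfl⟩ : ∃ p : ℝ, 0 ≤ p ∧ p ^ 2 = a := ⟨_, Real.sqrt_nonneg a, Real.sq_sqrt ha⟩
  obtain ⟨q, hq, rfl⟩ : ∃ q : ℝ, 0 ≤ q ∧ q ^ 2 = b := ⟨_, Real.sqrt_nonneg b, Real.sq_sqrt hb⟩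
  rw [Real.sqrt_sq hp, Real.sqrt_sq hq]
  rcases le_total p q with h | h
  · exact le_trans (by nlinarith) (neg_le_abs _)
  · exact le_trans (by nlinarith) (le_abs_self _)

end Counting

universe u v

section Steps

variable {A : Type u} [CStarAlgebra A] {G : Type v} [Group G] {α : G →* (A ≃⋆ₐ[ℂ] A)}

lemma norm_smul_real_le {r : ℝ} (h0 : 0 ≤ r) (h1 : r ≤ 1) (z : A) : ‖(r : ℂ) • z‖ ≤ ‖z‖ := by
  rw [norm_smul, Complex.norm_real, Real.norm_eq_abs, abs_of_nonneg h0]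
  exact mul_le_of_le_one_left (norm_nonneg _) h1

/-- Dividing by a number slightly bigger than one gives a contraction. -/
lemma normalise {R : A} {e : ℝ} (he : 0 ≤ e) (he1 : e ≤ 1) (hR : ‖R‖ ≤ 1 + e) :
    ∃ κ : ℝ, 0 ≤ κ ∧ κ ≤ 1 ∧ ‖(κ : ℂ) • R‖ ≤ 1 ∧
      ‖star ((κ : ℂ) • R) * ((κ : ℂ) • R) - star R * R‖ ≤ 3 * e := by
  refine ⟨(1 + e)⁻¹, by positivity, inv_le_one_of_one_le₀ (by linarith), ?_, ?_⟩
  · rw [norm_smul, Complex.norm_real, Real.norm_eq_abs, abs_of_nonneg (by positivity),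
      inv_mul_le_iff₀ (by positivity), mul_one]
    exact hR
  · set κ : ℝ := (1 + e)⁻¹ with hκ_def
    have hκ0 : 0 ≤ κ := by positivity
    have hκ1 : κ ≤ 1 := inv_le_one_of_one_le₀ (by linarith)
    have hκmul : κ * (1 + e) = 1 := inv_mul_cancel₀ (by positivity)
    rw [star_smul, smul_mul_smul_comm, Complex.star_def, Complex.conj_ofReal, ← Complex.ofReal_mul,
      norm_sub_rev, show star R * R - ((κ * κ : ℝ) : ℂ) • (star R * R)
        = ((1 - κ * κ : ℝ) : ℂ) • (star R * R) by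
          rw [Complex.ofReal_sub, sub_smul, Complex.ofReal_one, one_smul],
      norm_smul, Complex.norm_real, Real.norm_eq_abs, abs_of_nonneg (by nlinarith),
      CStarRing.norm_star_mul_self]
    calc (1 - κ * κ) * (‖R‖ * ‖R‖) ≤ (1 - κ * κ) * ((1 + e) * (1 + e)) :=
          mul_le_mul_of_nonneg_left (mul_le_mul hR hR (norm_nonneg _) (by positivity)) (by nlinarith)
      _ = (1 + e) * (1 + e) - (κ * (1 + e)) * (κ * (1 + e)) := by ring
      _ ≤ 3 * e := by rw [hκmul]; nlinarith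

lemma cross_small {p s : A} {d : G} {t : ℝ} (hp : star p = p) (hp1 : ‖p‖ ≤ 1) (hs : ‖s‖ ≤ 1)
    (hsp : ‖p * s - s‖ ≤ t) (hpd : ‖p * α d p‖ ≤ t) : ‖star s * α d s‖ ≤ 3 * t := by
  have e2 : star s * α d s = star (s - p * s) * α d s + star (p * s) * α d (s - p * s)
      + star s * (p * α d p) * α d s := by
    rw [map_sub, map_mul, star_sub, star_mul, hp]
    noncomm_ring
  have hds : ‖α d s‖ ≤ 1 := by rwa [StarAlgEquiv.norm_map]
  have hps1 : ‖p * s‖ ≤ 1 := (norm_mul_le _ _).trans (mul_le_one₀ hp1 (norm_nonneg _) hs)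
  have hsp' : ‖s - p * s‖ ≤ t := by rwa [norm_sub_rev]
  rw [e2]
  refine (norm_add₃_le).trans ?_
  have b1 : ‖star (s - p * s) * α d s‖ ≤ t := by
    refine (norm_mul_le _ _).trans ?_
    rw [norm_star]
    exact (mul_le_of_le_one_right (norm_nonneg _) hds).trans hsp'
  have b2 : ‖star (p * s) * α d (s - p * s)‖ ≤ t := by
    refine (norm_mul_le _ _).trans ?_
    rw [norm_star, StarAlgEquiv.norm_map]
    exact (mul_le_of_le_one_left (norm_nonneg _) hps1).trans hsp'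
  have b3 : ‖star s * (p * α d p) * α d s‖ ≤ t := by
    refine (norm_mul_le _ _).trans ((mul_le_of_le_one_right (norm_nonneg _) hds).trans ?_)
    refine (norm_mul_le _ _).trans ?_
    rw [norm_star]
    exact (mul_le_of_le_one_left (norm_nonneg _) hs).trans hpd
  linarith

/-- One almost central solution with the event built in. -/
lemma solution [IsSimpleRing A] (hEvent : EventPin.{u, v}) (hCompare : ComparePin.{u})
    (T : AFTower A) (hL : LiftGood α) (W : Finset G) (S S₁ : Finset A) (Dker Δ : Finset G)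
    (hker : ∀ d ∈ Dker, InKernel α d) (hnk : ∀ d ∈ Δ, ¬ InKernel α d) {t : ℝ} (ht : 0 < t)
    (ht1 : t ≤ 1) :
    ∃ x s : A, ‖x‖ ≤ 1 ∧ ‖s‖ ≤ 1 ∧ Central S t x ∧ ‖x * x‖ ≤ t ∧
      (∀ g ∈ W, ‖α g x - x‖ ≤ t) ∧ Central S₁ t s ∧ (∀ d ∈ Dker, ‖α d s - s‖ ≤ t) ∧
      (∀ d ∈ Δ, ‖star s * α d s‖ ≤ 3 * t) ∧ ‖star s * s - (1 - sq2 x)‖ ≤ t ∧
      ‖star x * x * s - s‖ ≤ t := by
  classical
  choose! Sd δd hδd hkd' using fun d (hd : InKernel α d) => hd t ht
  choose! kd _ hkd using fun d (hd : InKernel α d) => T.exists_central (Sd d) (hδd d hd) 0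
  obtain ⟨kc, -, hkc⟩ := T.exists_central S₁ ht 0
  obtain ⟨q, hq, -, hqD, hqΔ, hqu⟩ := hEvent A G α (T.D (kc ⊔ Dker.sup kd)) Δ hnk ∅ t ht
  obtain ⟨S', δ, hδ, hcomp⟩ :=
    hCompare A T (kc ⊔ Dker.sup kd) q hq hqD hqu (t / 8) (by positivity)
  obtain ⟨x, hx1, hxc, hxx, hxg, hxt⟩ := hL W (S ∪ S') (min δ t) (lt_min hδ ht)
  obtain ⟨s₀, hs₀, hs₀D, hs₀f, hs₀p, hs₀e⟩ := hcomp x hx1
    (fun a ha => (hxc a (Finset.mem_union_right _ ha)).trans (min_le_left _ _))
    (hxx.trans (min_le_left _ _))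
    (fun τ hτ => ⟨(hxt τ hτ).1.trans (min_le_left _ _), (hxt τ hτ).2.trans (min_le_left _ _)⟩)
  obtain ⟨κ, hκ0, hκ1, hs, hsq⟩ := normalise (by positivity) (by linarith) hs₀
  have hsD : (T.D (kc ⊔ Dker.sup kd)).Commutes ((κ : ℂ) • s₀) := hs₀D.smul _
  refine ⟨x, (κ : ℂ) • s₀, hx1, hs,
    fun a ha => (hxc a (Finset.mem_union_left _ ha)).trans (min_le_right _ _),
    hxx.trans (min_le_right _ _), fun g hg => (hxg g hg).trans (min_le_right _ _),
    hkc _ hs (T.commutes_mono le_sup_left hsD), fun d hd => ?_, fun d hd => ?_, ?_, ?_⟩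
  · exact hkd' d (hker d hd) _ hs
      (hkd d (hker d hd) _ hs (T.commutes_mono ((Finset.le_sup hd).trans le_sup_right) hsD))
  · refine cross_small (by rw [star_mul, star_star]) ?_ hs ?_ (hqΔ d hd)
    · rw [CStarRing.norm_star_mul_self]; exact mul_le_one₀ hq (norm_nonneg _) hq
    · rw [mul_smul_comm, ← smul_sub]
      exact (norm_smul_real_le hκ0 hκ1 _).trans (hs₀p.trans (by linarith))
  · refine (norm_sub_le_norm_sub_add_norm_sub _ (star s₀ * s₀) _).trans ?_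
    linarith
  · rw [mul_smul_comm, ← smul_sub]
    exact (norm_smul_real_le hκ0 hκ1 _).trans (hs₀e.trans (by linarith))

/-- The translate of a solution. -/
lemma translate {g : G} {x s : A} {t : ℝ} (hx : ‖x‖ ≤ 1) (hs : ‖s‖ ≤ 1)
    (hg : ‖α g x - x‖ ≤ t) (hf : ‖star s * s - (1 - sq2 x)‖ ≤ t)
    (he : ‖star x * x * s - s‖ ≤ t) :
    ‖α g s‖ ≤ 1 ∧ ‖star (α g s) * α g s - (1 - sq2 x)‖ ≤ 5 * t ∧
      ‖star x * x * α g s - α g s‖ ≤ 3 * t := by
  have h := norm_sq2_sub_le hx (y := α g x) (by rwa [StarAlgEquiv.norm_map])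
  have hu : ‖α g s‖ ≤ 1 := by rwa [StarAlgEquiv.norm_map]
  refine ⟨hu, ?_, ?_⟩
  · have e : star (α g s) * α g s - (1 - sq2 x)
        = α g (star s * s - (1 - sq2 x)) - (sq2 (α g x) - sq2 x) := by
      simp only [sq2, map_sub, map_add, map_mul, map_star, map_one]; abel
    rw [e]
    refine (norm_sub_le _ _).trans ?_
    rw [StarAlgEquiv.norm_map]
    linarith [h.2]
  · have e : star x * x * α g s - α g s = α g (star x * x * s - s)
        - (star (α g x) * α g x - star x * x) * α g s := by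
      rw [map_sub, map_mul, map_mul, map_star, sub_mul]; abel
    rw [e]
    refine (norm_sub_le _ _).trans ?_
    rw [StarAlgEquiv.norm_map]
    have := (norm_mul_le (star (α g x) * α g x - star x * x) (α g s)).trans
      (mul_le_of_le_one_right (norm_nonneg _) hu)
    linarith [h.1]

variable {ι : Type*} {C : Finset ι} {u : ι → A} {t : ℝ}

/-- The norm of an almost orthogonal combination. -/
lemma ortho_norm (a : ι → ℝ) (ht : 0 ≤ t) (ha : ∀ c ∈ C, |a c| ≤ 1)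
    (hu : ∀ c ∈ C, ‖u c‖ ≤ 1) (hcross : ∀ c ∈ C, ∀ c' ∈ C, c ≠ c' → ‖star (u c) * u c'‖ ≤ t) :
    ‖∑ c ∈ C, (a c : ℂ) • u c‖ ^ 2 ≤ ∑ c ∈ C, a c ^ 2 + (C.card : ℝ) ^ 2 * t := by
  rw [sq, ← CStarRing.norm_star_mul_self]
  refine (norm_le_norm_add_norm_sub' _
    (∑ c ∈ C, ((a c ^ 2 : ℝ) : ℂ) • (star (u c) * u c))).trans
    (add_le_add (norm_sum_le_of_le _ fun c hc => ?_) (ortho_sum C a u ht ha hcross))
  rw [norm_smul, Complex.norm_real, Real.norm_eq_abs, abs_of_nonneg (sq_nonneg _),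
    CStarRing.norm_star_mul_self]
  exact mul_le_of_le_one_right (sq_nonneg _) (mul_le_one₀ (hu c hc) (norm_nonneg _) (hu c hc))

lemma ortho_square {f : A} (a : ι → ℝ) (ht : 0 ≤ t) {t' : ℝ} (ha : ∀ c ∈ C, |a c| ≤ 1)
    (hsum : ∑ c ∈ C, a c ^ 2 = 1) (hd : ∀ c ∈ C, ‖star (u c) * u c - f‖ ≤ t')
    (hcross : ∀ c ∈ C, ∀ c' ∈ C, c ≠ c' → ‖star (u c) * u c'‖ ≤ t) :
    ‖star (∑ c ∈ C, (a c : ℂ) • u c) * (∑ c ∈ C, (a c : ℂ) • u c) - f‖
      ≤ (C.card : ℝ) ^ 2 * t + t' := by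
  refine (norm_sub_le_norm_sub_add_norm_sub _
    (∑ c ∈ C, ((a c ^ 2 : ℝ) : ℂ) • (star (u c) * u c)) _).trans
    (add_le_add (ortho_sum C a u ht ha hcross) ?_)
  have e : f = ∑ c ∈ C, ((a c ^ 2 : ℝ) : ℂ) • f := by
    rw [← Finset.sum_smul, ← Complex.ofReal_sum, hsum, Complex.ofReal_one, one_smul]
  rw [e, ← Finset.sum_sub_distrib]
  refine (norm_sum_le_of_le (n := fun c => a c ^ 2 * t') _ fun c hc => ?_).trans
    (le_of_eq (by rw [← Finset.sum_mul, hsum, one_mul]))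
  rw [← smul_sub, norm_smul, Complex.norm_real, Real.norm_eq_abs, abs_of_nonneg (sq_nonneg _)]
  exact mul_le_mul_of_nonneg_left (hd c hc) (sq_nonneg _)

end Steps

section Weights

variable {G : Type*} [Group G] {N : Subgroup G}

/-- The weight of a class. -/
noncomputable def weight (N : Subgroup G) (Φ : Finset G) (c : G ⧸ N) : ℝ :=
  Real.sqrt (classCount N Φ c / Φ.card)

lemma weight_abs (Φ : Finset G) (c : G ⧸ N) : |weight N Φ c| ≤ 1 := by
  classical
  rw [weight, abs_of_nonneg (Real.sqrt_nonneg _)]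
  refine Real.sqrt_le_one.2 (div_le_one_of_le₀ ?_ (Nat.cast_nonneg _))
  unfold classCount
  exact_mod_cast Finset.card_filter_le _ _

lemma weight_vanish (Φ : Finset G) {c : G ⧸ N} (hc : ∀ h ∈ Φ, (h : G ⧸ N) ≠ c) :
    weight N Φ c = 0 := by
  classical
  rw [weight, show classCount N Φ c = 0 from ?_, Nat.cast_zero, zero_div, Real.sqrt_zero]
  unfold classCount
  rw [Finset.card_eq_zero, Finset.filter_eq_empty_iff]
  exact fun h hh => hc h hh

lemma weight_sum {Φ : Finset G} (hΦ : Φ.Nonempty) (C : Finset (G ⧸ N))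
    (hC : ∀ h ∈ Φ, (h : G ⧸ N) ∈ C) : ∑ c ∈ C, weight N Φ c ^ 2 = 1 := by
  have e : ∀ c, weight N Φ c ^ 2 = classCount N Φ c / (Φ.card : ℝ) := fun c =>
    Real.sq_sqrt (by positivity)
  simp only [e, ← Finset.sum_div, classCount_sum Φ C hC]
  exact div_self (by exact_mod_cast hΦ.card_ne_zero)

lemma weight_drift {Φ : Finset G} (hΦ : Φ.Nonempty) (C : Finset (G ⧸ N)) (k : G) {e : ℝ}
    (hk : (Nat.card {h // h ∈ Φ ∧ k * h ∉ Φ} : ℝ) ≤ e * Φ.card) :
    ∑ c ∈ C, (weight N Φ (k⁻¹ • c) - weight N Φ c) ^ 2 ≤ 2 * e := by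
  have hn : (0 : ℝ) < Φ.card := by exact_mod_cast hΦ.card_pos
  calc ∑ c ∈ C, (weight N Φ (k⁻¹ • c) - weight N Φ c) ^ 2
      ≤ ∑ c ∈ C, |(classCount N Φ c : ℝ) - classCount N Φ (k⁻¹ • c)| / Φ.card := by
        refine Finset.sum_le_sum fun c _ => ?_
        refine (sqrt_sub_sq_le (by positivity) (by positivity)).trans (le_of_eq ?_)
        rw [← sub_div, abs_div, abs_of_pos hn, abs_sub_comm]
    _ ≤ 2 * e := by
        rw [← Finset.sum_div, div_le_iff₀ hn]
        refine (classCount_drift Φ C k).trans ?_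
        linarith

end Weights

section Steps

variable {A : Type u} [CStarAlgebra A] {G : Type v} [Group G] {α : G →* (A ≃⋆ₐ[ℂ] A)}

/-- The average moves little under the window. -/
lemma average_shift {N : Subgroup G} {Φ : Finset G} (hΦ : Φ.Nonempty) (C : Finset (G ⧸ N))
    (u : G ⧸ N → A) {k : G} (hC : ∀ h ∈ Φ, (h : G ⧸ N) ∈ C)
    (hkC : ∀ h ∈ Φ, ((k * h : G) : G ⧸ N) ∈ C) {t e : ℝ} (ht : 0 ≤ t) (hu : ∀ c ∈ C, ‖u c‖ ≤ 1)
    (hcross : ∀ c ∈ C, ∀ c' ∈ C, c ≠ c' → ‖star (u c) * u c'‖ ≤ 3 * t)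
    (hmove : ∀ h ∈ Φ, ‖α k (u (h : G ⧸ N)) - u (k • (h : G ⧸ N))‖ ≤ t)
    (hk : (Nat.card {h // h ∈ Φ ∧ k * h ∉ Φ} : ℝ) ≤ e * Φ.card) :
    ‖α k (∑ c ∈ C, (weight N Φ c : ℂ) • u c) - ∑ c ∈ C, (weight N Φ c : ℂ) • u c‖
      ≤ (C.card : ℝ) * t + Real.sqrt (2 * e + (C.card : ℝ) ^ 2 * (3 * t)) := by
  classical
  set C₀ := Φ.image fun h : G => (h : G ⧸ N) with hC₀
  have hC₀C : C₀ ⊆ C := fun c hc => by
    obtain ⟨h, hh, rfl⟩ := Finset.mem_image.1 hc; exact hC h hh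
  have hvan : ∀ c, c ∉ C₀ → weight N Φ c = 0 := fun c hc => weight_vanish Φ fun h hh hh' =>
    hc (Finset.mem_image.2 ⟨h, hh, hh'⟩)
  have hkC' : C₀.image (k • ·) ⊆ C := fun c hc => by
    obtain ⟨c', hc', rfl⟩ := Finset.mem_image.1 hc
    obtain ⟨h, hh, rfl⟩ := Finset.mem_image.1 hc'
    rw [MulAction.Quotient.smul_coe, smul_eq_mul]
    exact hkC h hh
  have hR0 : ∑ c ∈ C, (weight N Φ c : ℂ) • u c = ∑ c ∈ C₀, (weight N Φ c : ℂ) • u c :=
    (Finset.sum_subset hC₀C fun c _ hc => by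
      rw [hvan c hc, Complex.ofReal_zero, zero_smul]).symm
  have hshift : ∑ c ∈ C₀, (weight N Φ c : ℂ) • u (k • c)
      = ∑ c ∈ C, (weight N Φ (k⁻¹ • c) : ℂ) • u c := by
    rw [← Finset.sum_subset hkC', Finset.sum_image fun c _ c' _ h => MulAction.injective k h]
    · simp only [inv_smul_smul]
    · intro c _ hc
      rw [hvan _ fun h => hc (Finset.mem_image.2 ⟨_, h, smul_inv_smul k c⟩), Complex.ofReal_zero,
        zero_smul]
  have hd : ∀ c, |weight N Φ (k⁻¹ • c) - weight N Φ c| ≤ 1 := fun c => by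
    have h0 : ∀ c', 0 ≤ weight N Φ c' := fun c' => Real.sqrt_nonneg _
    have h1 : ∀ c', weight N Φ c' ≤ 1 := fun c' => (le_abs_self _).trans (weight_abs Φ c')
    exact abs_sub_le_iff.2 ⟨by linarith [h1 (k⁻¹ • c), h0 c], by linarith [h0 (k⁻¹ • c), h1 c]⟩
  have e1 : α k (∑ c ∈ C, (weight N Φ c : ℂ) • u c) - ∑ c ∈ C, (weight N Φ c : ℂ) • u c
      = ∑ c ∈ C₀, (weight N Φ c : ℂ) • (α k (u c) - u (k • c))
        + ∑ c ∈ C, ((weight N Φ (k⁻¹ • c) - weight N Φ c : ℝ) : ℂ) • u c := by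
    simp only [smul_sub, Finset.sum_sub_distrib, hshift, Complex.ofReal_sub, sub_smul]
    rw [hR0, map_sum]
    simp only [map_smul]
    abel
  rw [e1]
  refine (norm_add_le _ _).trans (add_le_add ?_ ?_)
  · refine (norm_sum_smul_le C₀ (weight N Φ) _ (fun c _ => weight_abs Φ c) fun c hc => ?_).trans
      (mul_le_mul_of_nonneg_right (by exact_mod_cast Finset.card_le_card hC₀C) ht)
    obtain ⟨h, hh, rfl⟩ := Finset.mem_image.1 hc
    exact hmove h hh
  · refine Real.le_sqrt_of_sq_le ((ortho_norm _ (by positivity) (fun c _ => hd c) hu hcross).trans ?_)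
    linarith [weight_drift hΦ C k hk]

/-- Commutators with the translates. -/
lemma translate_central {g : G} {s a : A} {t : ℝ}
    (h : ‖s * α g⁻¹ a - α g⁻¹ a * s‖ ≤ t) : ‖α g s * a - a * α g s‖ ≤ t := by
  rw [← StarAlgEquiv.norm_map (α g), map_sub, map_mul, map_mul, act_inv_apply] at h
  exact h

/-- Translates in one class modulo the kernel nearly agree. -/
lemma translate_move {g h : G} {s : A} {t : ℝ} (hd : ‖α (g⁻¹ * h) s - s‖ ≤ t) :
    ‖α h s - α g s‖ ≤ t := by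
  rw [← StarAlgEquiv.norm_map (α g), map_sub, ← act_mul, mul_inv_cancel_left] at hd
  exact hd

/-- Translates in different classes are nearly orthogonal. -/
lemma translate_cross {g h : G} {s : A} {t : ℝ} (hd : ‖star s * α (g⁻¹ * h) s‖ ≤ t) :
    ‖star (α g s) * α h s‖ ≤ t := by
  rw [← StarAlgEquiv.norm_map (α g), map_mul, map_star, ← act_mul, mul_inv_cancel_left] at hd
  exact hd

end Steps

/-- B4a: the dimension drop relations from one central event and one comparison. -/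
theorem dropPin : DropPin.{u, v} := by
  intro A _ _ G _ α hEvent hCompare T hF hL K S ε₀ hε₀
  classical
  obtain ⟨ε, hε, hε1, hεε⟩ : ∃ ε : ℝ, 0 < ε ∧ ε ≤ 1 ∧ ε ≤ ε₀ :=
    ⟨min ε₀ 1, lt_min hε₀ one_pos, min_le_right _ _, min_le_left _ _⟩
  obtain ⟨Φ, hΦne, hΦ⟩ := hF K (ε ^ 2 / 8) (by positivity)
  set N := kernelSubgroup α with hN
  set C := (Φ ∪ (K ×ˢ Φ).image fun p : G × G => p.1 * p.2).image fun h : G => (h : G ⧸ N) with hC
  have hΦC : ∀ h ∈ Φ, (h : G ⧸ N) ∈ C := fun h hh =>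
    Finset.mem_image_of_mem _ (Finset.mem_union_left _ hh)
  have hKC : ∀ k ∈ K, ∀ h ∈ Φ, ((k * h : G) : G ⧸ N) ∈ C := fun k hk h hh =>
    Finset.mem_image_of_mem _ (Finset.mem_union_right _
      (Finset.mem_image.2 ⟨(k, h), Finset.mem_product.2 ⟨hk, hh⟩, rfl⟩))
  obtain ⟨t, ht, ht1, hm2t, hmt, ht80⟩ : ∃ t : ℝ, 0 < t ∧ t ≤ 1 ∧
      80 * ((C.card : ℝ) ^ 2 * t) ≤ ε ^ 2 ∧ 80 * ((C.card : ℝ) * t) ≤ ε ^ 2 ∧
      80 * t ≤ ε ^ 2 := by
    have hm0 : (0 : ℝ) ≤ C.card := Nat.cast_nonneg _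
    generalize (C.card : ℝ) = m at hm0 ⊢
    refine ⟨ε ^ 2 / (80 * (m + 1) ^ 2), by positivity, ?_, ?_, ?_, ?_⟩
    · rw [div_le_one (by positivity)]; nlinarith
    all_goals
      field_simp
      nlinarith [mul_nonneg (sq_nonneg ε) hm0, mul_nonneg (sq_nonneg ε) (sq_nonneg m)]
  have hεsq : ε ^ 2 ≤ ε := by nlinarith
  set Dker := (K ×ˢ Φ).image fun p : G × G =>
    (p.1 • (p.2 : G ⧸ N)).out⁻¹ * (p.1 * (p.2 : G ⧸ N).out) with hDker
  have hDkerN : ∀ d ∈ Dker, InKernel α d := by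
    intro d hd
    obtain ⟨⟨k, h⟩, -, rfl⟩ := Finset.mem_image.1 hd
    show _ ∈ N
    rw [← QuotientGroup.eq, QuotientGroup.out_eq', ← smul_eq_mul, ← MulAction.Quotient.smul_coe,
      QuotientGroup.out_eq']
  set Δ := C.offDiag.image fun p : (G ⧸ N) × (G ⧸ N) => p.1.out⁻¹ * p.2.out with hΔ
  have hΔN : ∀ d ∈ Δ, ¬ InKernel α d := by
    intro d hd hker
    obtain ⟨⟨c, c'⟩, hcc, rfl⟩ := Finset.mem_image.1 hd
    have : (c.out : G ⧸ N) = (c'.out : G ⧸ N) := QuotientGroup.eq.2 hker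
    rw [QuotientGroup.out_eq', QuotientGroup.out_eq'] at this
    exact (Finset.mem_offDiag.1 hcc).2.2 this
  obtain ⟨x, s, hx, hs, hxc, hxx, hxg, hsc, hsk, hsΔ, hsf, hse⟩ :=
    solution (α := α) hEvent hCompare T hL (K ∪ C.image fun c => c.out) S
      ((C ×ˢ S).image fun p : (G ⧸ N) × A => α p.1.out⁻¹ p.2) Dker Δ hDkerN hΔN ht ht1
  have hu := fun c (hc : c ∈ C) => translate (α := α) hx hs
    (hxg c.out (Finset.mem_union_right _ (Finset.mem_image_of_mem _ hc))) hsf hse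
  have hcross : ∀ c ∈ C, ∀ c' ∈ C, c ≠ c' →
      ‖star (α c.out s) * α c'.out s‖ ≤ 3 * t := fun c hc c' hc' hne =>
    translate_cross
      (hsΔ _ (Finset.mem_image.2 ⟨(c, c'), Finset.mem_offDiag.2 ⟨hc, hc', hne⟩, rfl⟩))
  have hw : ∀ c ∈ C, |weight N Φ c| ≤ 1 := fun c _ => weight_abs Φ c
  set R : A := ∑ c ∈ C, (weight N Φ c : ℂ) • α c.out s with hR
  have hRf := ortho_square (u := fun c : G ⧸ N => α c.out s) (weight N Φ) (by positivity) hw
    (weight_sum hΦne C hΦC) (fun c hc => (hu c hc).2.1) hcross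
  rw [← hR] at hRf
  have hR1 : ‖R‖ ≤ 1 + (C.card : ℝ) ^ 2 * (3 * t) := by
    have h := ortho_norm (u := fun c : G ⧸ N => α c.out s) (weight N Φ) (by positivity) hw
      (fun c hc => (hu c hc).1) hcross
    rw [← hR, weight_sum hΦne C hΦC] at h
    nlinarith [norm_nonneg R, (by positivity : (0 : ℝ) ≤ (C.card : ℝ) ^ 2 * (3 * t))]
  obtain ⟨κ, hκ0, hκ1, hr1, hr2⟩ := normalise (by positivity) (by nlinarith) hR1
  refine ⟨x, (κ : ℂ) • R, hx, hr1, fun b hb => (hxc b hb).trans (by linarith), fun b hb => ?_,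
    hxx.trans (by linarith), ?_, ?_,
    fun g hg => ⟨(hxg g (Finset.mem_union_left _ hg)).trans (by linarith), ?_⟩⟩
  · rw [smul_mul_assoc, mul_smul_comm, ← smul_sub]
    refine (norm_smul_real_le hκ0 hκ1 _).trans ?_
    rw [hR, Finset.mul_sum, Finset.sum_mul, ← Finset.sum_sub_distrib]
    simp only [mul_smul_comm, smul_mul_assoc, ← smul_sub]
    exact (norm_sum_smul_le C _ _ hw fun c hc => translate_central
      (hsc _ (Finset.mem_image.2 ⟨(c, b), Finset.mem_product.2 ⟨hc, hb⟩, rfl⟩))).trans (by linarith)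
  · rw [sub_sub, ← sq2]
    refine (norm_sub_le_norm_sub_add_norm_sub _ (star R * R) _).trans ?_
    linarith
  · rw [mul_smul_comm, ← smul_sub]
    refine (norm_smul_real_le hκ0 hκ1 _).trans ?_
    rw [hR, Finset.mul_sum, ← Finset.sum_sub_distrib]
    simp only [mul_smul_comm, ← smul_sub]
    exact (norm_sum_smul_le C _ _ hw fun c hc => (hu c hc).2.2).trans (by linarith)
  · rw [map_smul, ← smul_sub]
    refine (norm_smul_real_le hκ0 hκ1 _).trans ?_
    refine (average_shift (α := α) (e := ε ^ 2 / 8) hΦne C (fun c : G ⧸ N => α c.out s) hΦC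
      (hKC g hg) ht.le (fun c hc => (hu c hc).1) hcross (fun h hh => ?_) (hΦ g hg)).trans ?_
    · rw [← act_mul]
      exact translate_move (hsk _ (Finset.mem_image.2 ⟨(g, h), Finset.mem_product.2 ⟨hg, hh⟩, rfl⟩))
    · have h2 : Real.sqrt (2 * (ε ^ 2 / 8) + (C.card : ℝ) ^ 2 * (3 * t)) ≤ ε * (7 / 8) :=
        Real.sqrt_le_iff.2 ⟨by positivity, by nlinarith⟩
      linarith

end Vale.Agent.P095.SI
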