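import Vale.Agent.P095.SI.AFTower

/-!
P095, equivariant (SI) step, block B3: the linear algebra in the blocks.
-/

namespace Vale.Agent.P095.SI

open Filter Matrix Tracial
open scoped Topology Matrix

variable {A : Type*} [CStarAlgebra A] (D : MU A)

/-- A weighted partial permutation matrix. -/
def sigMat {n : Type*} [DecidableEq n] (σ : n → Option n) (w : n → ℝ) : Matrix n n ℂ :=
  Matrix.of fun r c => if σ c = some r then (w c : ℂ) else 0

theorem star_sigMat_mul {n : Type*} [DecidableEq n] [Fintype n] {σ : n → Option n}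
    (hσ : ∀ a b r, σ a = some r → σ b = some r → a = b) (w μ : n → ℝ) :
    star (sigMat σ w) * Matrix.diagonal (fun a => (μ a : ℂ)) * sigMat σ w =
      Matrix.diagonal fun c => (((σ c).elim 0 fun r => w c * μ r * w c : ℝ) : ℂ) := by
  ext c c'
  rw [Matrix.mul_apply]
  simp only [Matrix.mul_diagonal]
  rcases h : σ c' with _ | r
  · have h1 : ∀ b, sigMat σ w b c' = 0 := fun b => by simp [sigMat, h]
    simp only [h1, mul_zero, Finset.sum_const_zero]
    rcases eq_or_ne c c' with rfl | hne
    · simp [h]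
    · simp [hne]
  · rw [Finset.sum_eq_single r]
    · rcases eq_or_ne c c' with rfl | hne
      · simp [sigMat, h, Matrix.star_apply]
      · have h2 : σ c ≠ some r := fun h2 => hne (hσ c c' r h2 h)
        simp [sigMat, h, h2, hne, Matrix.star_apply]
    · intro b _ hb
      simp [sigMat, h, Ne.symm hb]
    · simp

theorem sigMat_mul_diagonal_mul {n : Type*} [DecidableEq n] [Fintype n] {σ : n → Option n}
    (hσ : ∀ a b, σ a = some b → σ b = none) (w : n → ℝ) (μ : n → ℂ) :
    sigMat σ w * Matrix.diagonal μ * sigMat σ w = 0 := by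
  ext a d
  rw [Matrix.mul_apply, Matrix.zero_apply]
  refine Finset.sum_eq_zero fun b _ => ?_
  rw [Matrix.mul_diagonal]
  by_cases h : σ d = some b
  · simp [sigMat, hσ d b h]
  · simp [sigMat, h]

theorem sigMat_mul_diagonal_mul_star {n : Type*} [DecidableEq n] [Fintype n] {σ : n → Option n}
    (μ : n → ℝ) :
    sigMat σ (fun _ => 1) * Matrix.diagonal (fun a => (μ a : ℂ)) * star (sigMat σ fun _ => 1) =
      Matrix.diagonal fun r => ((∑ a, if σ a = some r then μ a else 0 : ℝ) : ℂ) := by
  ext r r'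
  rw [Matrix.mul_apply]
  simp only [Matrix.mul_diagonal, Matrix.star_apply]
  rcases eq_or_ne r r' with rfl | hne
  · rw [Matrix.diagonal_apply_eq, Complex.ofReal_sum]
    refine Finset.sum_congr rfl fun a _ => ?_
    by_cases h : σ a = some r <;> simp [sigMat, h]
  · rw [Matrix.diagonal_apply_ne _ hne]
    refine Finset.sum_eq_zero fun a _ => ?_
    by_cases h : σ a = some r <;> by_cases h' : σ a = some r' <;>
      simp [sigMat, h, h', hne, Ne.symm hne]

theorem MU.blockTrace_conjDiag (U : unitary D.Mat) (c : ∀ j, Fin (D.d j + 1) → ℝ) (j : Fin D.m) :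
    blockTrace D j (D.conjDiag U c) = ((∑ a, c j a : ℝ) : ℂ) / ((D.d j : ℂ) + 1) := by
  rw [blockTrace_apply, MU.conjDiag, Pi.mul_apply, Matrix.trace_mul_comm, Pi.mul_apply,
    ← mul_assoc, ← Pi.mul_apply, Unitary.coe_star_mul_self, Pi.one_apply, one_mul]
  simp [MU.diagM, Matrix.trace]

/-- The weights of a positive element in an eigenbasis. -/
def MU.weight (V : unitary D.Mat) (P : D.Mat) (j : Fin D.m) (a : Fin (D.d j + 1)) : ℝ :=
  ((star (V : D.Mat) * (star P * P) * (V : D.Mat)) j a a).re

theorem MU.weight_nonneg (V : unitary D.Mat) (P : D.Mat) (j : Fin D.m) (a : Fin (D.d j + 1)) :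
    0 ≤ D.weight V P j a := by
  have e : star (V : D.Mat) * (star P * P) * (V : D.Mat) = star (P * V) * (P * V) := by
    simp [mul_assoc]
  rw [MU.weight, e, Pi.mul_apply, Pi.star_apply, Matrix.mul_apply, Complex.re_sum]
  refine Finset.sum_nonneg fun b _ => ?_
  rw [Matrix.star_apply, Complex.star_def, ← Complex.normSq_eq_conj_mul_self, Complex.ofReal_re]
  exact Complex.normSq_nonneg _

theorem MU.weight_le (V : unitary D.Mat) (P : D.Mat) (j : Fin D.m) (a : Fin (D.d j + 1)) :
    D.weight V P j a ≤ ‖D.hom P‖ ^ 2 := by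
  refine (Complex.re_le_norm _).trans ((D.norm_entry_le _ j a a).trans ?_)
  have hu : D.hom (V : D.Mat) ∈ unitary A := Unitary.map_mem D.hom V.2
  rw [map_mul, map_mul, map_mul, map_star, map_star, CStarRing.norm_mul_mem_unitary _ hu,
    CStarRing.norm_mem_unitary_mul _ (Unitary.star_mem hu), CStarRing.norm_star_mul_self, sq]

theorem MU.re_blockTrace_mul (V : unitary D.Mat) (P : D.Mat) (c : ∀ j, Fin (D.d j + 1) → ℝ)
    (j : Fin D.m) :
    (blockTrace D j (star P * P * D.conjDiag V c)).re =
      (∑ a, D.weight V P j a * c j a) / ((D.d j : ℝ) + 1) := by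
  have e : (star P * P * D.conjDiag V c) j =
      (star P * P * (V : D.Mat)) j * D.diagM c j * star ((V : D.Mat) j) := by
    simp [MU.conjDiag, mul_assoc]
  rw [blockTrace_apply, e, Matrix.trace_mul_comm, ← mul_assoc,
    show ((D.d j : ℂ) + 1) = (((D.d j : ℝ) + 1 : ℝ) : ℂ) by simp, Complex.div_ofReal_re]
  congr 1
  rw [Matrix.trace, Complex.re_sum]
  refine Finset.sum_congr rfl fun a _ => ?_
  rw [Matrix.diag_apply, MU.diagM, Matrix.mul_diagonal]
  simp [MU.weight, mul_assoc]

/-- From trace inequalities to a comparison of ranks. -/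
theorem card_le_card_of_sums {n : Type*} [Fintype n] (ω μ lam : n → ℝ) {γ ν ε : ℝ}
    (hγ : 0 < γ) (hε : 0 < ε) (hε1 : ε ≤ 1) (hν : 0 ≤ ν) (hνγ : 1000 * ν ≤ ε ^ 2 * γ) (hν1 : ν ≤ 1)
    (hω : ∀ a, 0 ≤ ω a ∧ ω a ≤ 2) (hμ : ∀ a, -ν ≤ μ a ∧ μ a ≤ 1 + ν)
    (h1 : γ / 3 * Fintype.card n ≤ ∑ a, ω a * μ a)
    (h2 : ∑ a, (ω a * μ a - ω a * (μ a * μ a)) ≤ 3 * ν * Fintype.card n)
    (h3 : ∑ a, lam a * lam a ≤ 3 * ν * Fintype.card n) :
    Fintype.card {a // ε < lam a} ≤ Fintype.card {a // 1 - ε < μ a} := by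
  classical
  have hpt : ∀ a, ω a * μ a ≤ (if 1 - ε < μ a then (4 : ℝ) else 0) +
      (ω a * μ a - ω a * (μ a * μ a) + 4 * ν) / ε := by
    intro a
    have h4 : -(2 * ν) ≤ μ a - μ a * μ a := by
      rcases le_total (μ a) 0 with h | h
      · nlinarith [(hμ a).1]
      · nlinarith [(hμ a).2]
    have h5 : 0 ≤ ω a * μ a - ω a * (μ a * μ a) + 4 * ν := by
      nlinarith [(hω a).1, (hω a).2]
    by_cases h : 1 - ε < μ a
    · rw [if_pos h]
      have : ω a * μ a ≤ 4 := by nlinarith [(hω a).1, (hω a).2, (hμ a).2]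
      have := div_nonneg h5 hε.le
      linarith
    · rw [if_neg h, zero_add, le_div_iff₀ hε]
      rcases le_total (μ a) 0 with h' | h'
      · nlinarith [(hω a).1, mul_nonneg (hω a).1 (neg_nonneg.2 h')]
      · nlinarith [mul_nonneg (hω a).1 h']
  have hP := Finset.sum_le_sum fun a (_ : a ∈ Finset.univ) => hpt a
  rw [Finset.sum_add_distrib, ← Finset.sum_div, Finset.sum_add_distrib, ← Finset.sum_filter,
    Finset.sum_const, Finset.sum_const, nsmul_eq_mul, nsmul_eq_mul, Finset.card_univ] at hP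
  have hP' : γ / 6 * Fintype.card n ≤ 4 * Fintype.card {a // 1 - ε < μ a} := by
    rw [Fintype.card_subtype]
    have h7 : (∑ a, (ω a * μ a - ω a * (μ a * μ a)) + Fintype.card n * (4 * ν)) / ε
        ≤ γ / 6 * Fintype.card n := by
      rw [div_le_iff₀ hε]
      nlinarith [mul_le_mul_of_nonneg_right
        (show 7 * ν ≤ γ / 6 * ε by nlinarith) (Nat.cast_nonneg (Fintype.card n) (α := ℝ))]
    linarith
  have hQ : ε ^ 2 * Fintype.card {a // ε < lam a} ≤ 3 * ν * Fintype.card n := by
    refine le_trans ?_ h3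
    rw [Fintype.card_subtype, mul_comm, ← nsmul_eq_mul, ← Finset.sum_const, Finset.sum_filter]
    refine Finset.sum_le_sum fun a _ => ?_
    split
    · nlinarith
    · exact mul_self_nonneg _
  have h8 : (Fintype.card {a // ε < lam a} : ℝ) ≤ Fintype.card {a // 1 - ε < μ a} := by
    refine le_of_mul_le_mul_left ?_ (pow_pos hε 2)
    nlinarith [mul_le_mul_of_nonneg_left hP' (sq_nonneg ε),
      mul_le_mul_of_nonneg_right (show 72 * ν ≤ γ * ε ^ 2 by nlinarith)
        (Nat.cast_nonneg (Fintype.card n) (α := ℝ))]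
  exact_mod_cast h8

/-- A factor of a positive part supported where another element is almost one. -/
theorem MU.exists_factor (U V : unitary D.Mat) (lam μ : ∀ j, Fin (D.d j + 1) → ℝ) {ε : ℝ}
    (hε : 0 < ε) (hε1 : ε ≤ 1) (hlam : ∀ j a, -ε ≤ lam j a ∧ lam j a ≤ 4)
    (hμ : ∀ j a, μ j a ≤ 1 + ε)
    (hcard : ∀ j, Fintype.card {a // ε < lam j a} ≤ Fintype.card {a // 1 - ε < μ j a}) :
    ∃ S : D.Mat, ‖star (D.hom S) * D.hom S - D.hom (D.conjDiag U lam)‖ ≤ ε ∧
      ‖D.hom S‖ ≤ 2 ∧ ‖(1 - D.hom (D.conjDiag V μ)) * D.hom S‖ ≤ 2 * ε := by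
  classical
  let f := fun j => (Function.Embedding.nonempty_of_card_le (hcard j)).some
  let σ : ∀ j, Fin (D.d j + 1) → Option (Fin (D.d j + 1)) := fun j a =>
    if h : ε < lam j a then some (f j ⟨a, h⟩).1 else none
  have hσ : ∀ j a b r, σ j a = some r → σ j b = some r → a = b := by
    intro j a b r ha hb
    simp only [σ] at ha hb
    split at ha <;> split at hb <;> try simp at ha hb
    exact congrArg Subtype.val ((f j).injective (Subtype.ext (ha.trans hb.symm)))
  have hσμ : ∀ j a r, σ j a = some r → 1 - ε < μ j r := by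
    intro j a r ha
    simp only [σ] at ha
    split at ha <;> try simp at ha
    subst ha
    exact (f j ⟨a, ‹_›⟩).2
  let M : D.Mat := fun j => sigMat (σ j) fun a => Real.sqrt (lam j a)
  have key : ∀ ν : ∀ j, Fin (D.d j + 1) → ℝ,
      star ((V : D.Mat) * M * star (U : D.Mat)) * D.conjDiag V ν *
          ((V : D.Mat) * M * star (U : D.Mat)) =
        D.conjDiag U fun j a => (σ j a).elim 0 fun r => lam j a * ν j r := by
    intro ν
    have e : star M * D.diagM ν * M =
        D.diagM fun j a => (σ j a).elim 0 fun r => lam j a * ν j r := by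
      funext j
      simp only [MU.diagM, Pi.mul_apply, Pi.star_apply, M]
      rw [star_sigMat_mul (hσ j)]
      congr 1
      funext a
      rcases h : σ j a with _ | r
      · simp
      · have : ε < lam j a := by
          simp only [σ] at h
          split at h
          · assumption
          · simp at h
        simp only [Option.elim_some]
        rw [mul_comm (Real.sqrt _) (ν j r), mul_assoc,
          Real.mul_self_sqrt (hε.le.trans this.le), mul_comm]
    rw [MU.conjDiag, MU.conjDiag, ← e, star_mul, star_mul, star_star]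
    simp only [mul_assoc]
    rw [← mul_assoc (star (V : D.Mat)) (V : D.Mat), Unitary.coe_star_mul_self, one_mul,
      ← mul_assoc (star (V : D.Mat)) (V : D.Mat), Unitary.coe_star_mul_self, one_mul]
  refine ⟨(V : D.Mat) * M * star (U : D.Mat), ?_⟩
  set S := (V : D.Mat) * M * star (U : D.Mat)
  have hone : ∀ W : unitary D.Mat, D.conjDiag W (fun _ _ => (1 : ℝ)) = 1 := fun W => by
    rw [D.conjDiag_const]
    simp
  have hS1 : star (D.hom S) * D.hom S =
      D.hom (D.conjDiag U fun j a => (σ j a).elim 0 fun _ => lam j a) := by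
    have h := key fun _ _ => 1
    rw [hone V, mul_one] at h
    rw [← map_star, ← map_mul, h]
    simp
  have h1 : ‖star (D.hom S) * D.hom S - D.hom (D.conjDiag U lam)‖ ≤ ε := by
    rw [hS1, ← map_sub, D.conjDiag_sub]
    refine D.norm_conjDiag_le U _ hε.le fun j a => ?_
    by_cases h : ε < lam j a
    · simp [σ, h, hε.le]
    · simp only [σ, h, dite_false, Option.elim_none, zero_sub, abs_neg, abs_le]
      exact ⟨(hlam j a).1, not_lt.1 h⟩
  have h2 : ‖D.hom S‖ ≤ 2 := by
    have h := D.norm_conjDiag_le U (fun j a => (σ j a).elim 0 fun _ => lam j a)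
      (show (0 : ℝ) ≤ 4 by norm_num) fun j a => by
        by_cases h : ε < lam j a
        · simp only [σ, h, dite_true, Option.elim_some, abs_le]
          exact ⟨by linarith, (hlam j a).2⟩
        · simp [σ, h]
    rw [← hS1, CStarRing.norm_star_mul_self] at h
    nlinarith [norm_nonneg (D.hom S)]
  refine ⟨h1, h2, ?_⟩
  have e : star ((1 - D.hom (D.conjDiag V μ)) * D.hom S) *
      ((1 - D.hom (D.conjDiag V μ)) * D.hom S) =
      D.hom (D.conjDiag U fun j a =>
        (σ j a).elim 0 fun r => lam j a * ((1 - μ j r) * (1 - μ j r))) := by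
    have h := key fun j r => (1 - μ j r) * (1 - μ j r)
    rw [← D.conjDiag_mul, ← D.conjDiag_sub V (fun _ _ => (1 : ℝ)) μ, hone V] at h
    rw [← h]
    simp only [map_mul, map_sub, map_one, map_star, star_mul, star_sub, star_one]
    rw [← map_star D.hom (D.conjDiag V μ), D.star_conjDiag]
    simp only [mul_assoc]
  have h := D.norm_conjDiag_le U
    (fun j a => (σ j a).elim 0 fun r => lam j a * ((1 - μ j r) * (1 - μ j r)))
    (show (0 : ℝ) ≤ 4 * ε ^ 2 by positivity) fun j a => by
      rcases h : σ j a with _ | r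
      · simp only [Option.elim_none, abs_zero]
        positivity
      · simp only [Option.elim_some, abs_mul]
        have ha : |lam j a| ≤ 4 := abs_le.2 ⟨by linarith [(hlam j a).1], (hlam j a).2⟩
        have hb : |1 - μ j r| ≤ ε :=
          abs_le.2 ⟨by linarith [hμ j r], by linarith [hσμ j a r h]⟩
        calc |lam j a| * (|1 - μ j r| * |1 - μ j r|) ≤ 4 * (ε * ε) := by gcongr
          _ = 4 * ε ^ 2 := by ring
  rw [← e, CStarRing.norm_star_mul_self] at h
  nlinarith [norm_nonneg ((1 - D.hom (D.conjDiag V μ)) * D.hom S)]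

end Vale.Agent.P095.SI
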