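import Vale.Agent.P095.SI.Pins
import Vale.Agent.P095.SI.AFBlock

/-!
P095, equivariant (SI) step, block B3a: central sequences of a simple infinite-dimensional AF algebra
have no characters.
-/

namespace Vale.Agent.P095.SI

open Filter Matrix Tracial Vale.Agent.P101 Vale.Agent.P095
open scoped Topology BoundedContinuousFunction

universe u

noncomputable local instance noCharCStar {A : Type u} [CStarAlgebra A] (w : Ultrafilter ℕ) :
    CStarAlgebra (centralSeq (w : Filter ℕ) A) :=
  StarSubalgebra.cstarAlgebra _ (h_closed := isClosed_centralSeq w)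

theorem exists_pairs {n : Type*} [Fintype n] [DecidableEq n] (R : Finset n) (hR : 2 ≤ R.card) :
    ∃ σ τ : n → Option n,
      (∀ a b r, σ a = some r → σ b = some r → a = b) ∧
      (∀ a b r, τ a = some r → τ b = some r → a = b) ∧
      (∀ a b, σ a = some b → σ b = none) ∧ (∀ a b, τ a = some b → τ b = none) ∧
      (∀ a r, σ a = some r → a ∈ R ∧ r ∈ R) ∧ (∀ a r, τ a = some r → a ∈ R ∧ r ∈ R) ∧
      ∀ a, (if a ∈ R then (1 : ℝ) else 0) = ((σ a).elim 0 fun _ => 1)
        + (∑ b, if σ b = some a then (1 : ℝ) else 0) + ((τ a).elim 0 fun _ => 1) := by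
  classical
  obtain ⟨R₁, hR₁, hc⟩ := Finset.exists_subset_card_eq (s := R) (n := R.card / 2) (Nat.div_le_self _ _)
  have hc2 : (R \ R₁).card = R.card - R.card / 2 := by
    rw [Finset.card_sdiff_of_subset hR₁, hc]
  obtain ⟨f⟩ : Nonempty (R₁ ↪ (R \ R₁ : Finset n)) :=
    Function.Embedding.nonempty_of_card_le (by simp only [Fintype.card_coe]; omega)
  let R₃ := (R \ R₁) \ Finset.univ.image fun a : R₁ => (f a).1
  have hc3 : R₃.card ≤ R₁.card := by
    have : (Finset.univ.image fun a : R₁ => (f a).1).card = R₁.card := by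
      rw [Finset.card_image_of_injective _ (fun a b h => f.injective (Subtype.ext h)),
        Finset.card_univ, Fintype.card_coe]
    have h2 : (Finset.univ.image fun a : R₁ => (f a).1) ⊆ R \ R₁ := fun x hx => by
      obtain ⟨a, -, rfl⟩ := Finset.mem_image.1 hx
      exact (f a).2
    simp only [R₃, Finset.card_sdiff_of_subset h2, this]
    omega
  obtain ⟨g⟩ : Nonempty (R₃ ↪ R₁) :=
    Function.Embedding.nonempty_of_card_le (by simpa only [Fintype.card_coe] using hc3)
  let σ : n → Option n := fun a => if h : a ∈ R₁ then some (f ⟨a, h⟩).1 else none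
  let τ : n → Option n := fun a => if h : a ∈ R₃ then some (g ⟨a, h⟩).1 else none
  have hσ : ∀ a r, σ a = some r → ∃ h : a ∈ R₁, (f ⟨a, h⟩).1 = r := fun a r h => by
    simp only [σ] at h
    split at h
    · exact ⟨_, Option.some_inj.1 h⟩
    · simp at h
  have hτ : ∀ a r, τ a = some r → ∃ h : a ∈ R₃, (g ⟨a, h⟩).1 = r := fun a r h => by
    simp only [τ] at h
    split at h
    · exact ⟨_, Option.some_inj.1 h⟩
    · simp at h
  refine ⟨σ, τ, ?_, ?_, ?_, ?_, ?_, ?_, ?_⟩
  · intro a b r ha hb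
    obtain ⟨h, ha⟩ := hσ a r ha
    obtain ⟨h', hb⟩ := hσ b r hb
    exact congrArg Subtype.val (f.injective (Subtype.ext (ha.trans hb.symm)))
  · intro a b r ha hb
    obtain ⟨h, ha⟩ := hτ a r ha
    obtain ⟨h', hb⟩ := hτ b r hb
    exact congrArg Subtype.val (g.injective (Subtype.ext (ha.trans hb.symm)))
  · intro a b ha
    obtain ⟨h, rfl⟩ := hσ a b ha
    exact dif_neg (Finset.mem_sdiff.1 (f ⟨a, h⟩).2).2
  · intro a b ha
    obtain ⟨h, rfl⟩ := hτ a b ha
    refine dif_neg fun h' => ?_
    exact (Finset.mem_sdiff.1 (Finset.mem_sdiff.1 h').1).2 (g ⟨a, h⟩).2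
  · intro a b ha
    obtain ⟨h, rfl⟩ := hσ a b ha
    exact ⟨hR₁ h, (Finset.mem_sdiff.1 (f ⟨a, h⟩).2).1⟩
  · intro a b ha
    obtain ⟨h, rfl⟩ := hτ a b ha
    exact ⟨(Finset.mem_sdiff.1 (Finset.mem_sdiff.1 h).1).1, hR₁ (g ⟨a, h⟩).2⟩
  intro a
  by_cases h1 : a ∈ R₁
  · have h3 : a ∉ R₃ := fun h => (Finset.mem_sdiff.1 (Finset.mem_sdiff.1 h).1).2 h1
    have h2 : ∀ b, σ b ≠ some a := fun b hb => by
      obtain ⟨h, he⟩ := hσ b a hb
      exact (Finset.mem_sdiff.1 (f ⟨b, h⟩).2).2 (he ▸ h1)
    have hsum0 : (∑ b, if σ b = some a then (1 : ℝ) else 0) = 0 :=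
      Finset.sum_eq_zero fun b _ => if_neg (h2 b)
    rw [hsum0, if_pos (hR₁ h1), show σ a = some (f ⟨a, h1⟩).1 from dif_pos h1,
      show τ a = none from dif_neg h3]
    simp
  by_cases h2 : ∃ b, σ b = some a
  · obtain ⟨b, hb⟩ := h2
    obtain ⟨hbR, hba⟩ := hσ b a hb
    have h3 : a ∉ R₃ := fun h => (Finset.mem_sdiff.1 h).2
      (Finset.mem_image.2 ⟨⟨b, hbR⟩, Finset.mem_univ _, hba⟩)
    have hsum : (∑ b', if σ b' = some a then (1 : ℝ) else 0) = 1 := by
      rw [Finset.sum_eq_single b (fun b' _ hne => if_neg fun hb' => hne ?_) (by simp), if_pos hb]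
      obtain ⟨h', he⟩ := hσ b' a hb'
      exact congrArg Subtype.val (f.injective (Subtype.ext (he.trans hba.symm)) :
        (⟨b', h'⟩ : R₁) = ⟨b, hbR⟩)
    rw [hsum, show σ a = none from dif_neg h1, show τ a = none from dif_neg h3,
      if_pos (hba ▸ (Finset.mem_sdiff.1 (f ⟨b, hbR⟩).2).1)]
    simp
  · have hsum : (∑ b', if σ b' = some a then (1 : ℝ) else 0) = 0 :=
      Finset.sum_eq_zero fun b' _ => if_neg fun hb' => h2 ⟨b', hb'⟩
    rw [hsum, show σ a = none from dif_neg h1]
    by_cases h : a ∈ R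
    · have h3 : a ∈ R₃ := by
        refine Finset.mem_sdiff.2 ⟨Finset.mem_sdiff.2 ⟨h, h1⟩, fun hh => h2 ?_⟩
        obtain ⟨b, -, hb⟩ := Finset.mem_image.1 hh
        exact ⟨b.1, (dif_pos b.2).trans (congrArg some hb)⟩
      rw [if_pos h, show τ a = some (g ⟨a, h3⟩).1 from dif_pos h3]
      simp
    · have h3 : a ∉ R₃ := fun hh => h (Finset.mem_sdiff.1 (Finset.mem_sdiff.1 hh).1).1
      rw [if_neg h, show τ a = none from dif_neg h3]
      simp

/-- A corner projection as a matrix of a later step. -/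
theorem AFTower.exists_corner {A : Type u} [CStarAlgebra A] (T : AFTower A) {k L : ℕ} (h : k ≤ L)
    (i : Fin (T.D k).m) :
    ∃ Z : (T.D L).Mat, (T.D L).hom Z = (T.D k).e i 0 0 ∧ star Z = Z ∧ Z * Z = Z := by
  obtain ⟨Z, hZ⟩ : (T.D k).e i 0 0 ∈ Set.range (T.D L).hom :=
    (T.D L).alg_eq ▸ T.alg_mono h ((T.D k).e_mem_alg i 0 0)
  refine ⟨Z, hZ, (T.D L).hom_injective ?_, (T.D L).hom_injective ?_⟩
  · rw [map_star, hZ, (T.D k).star_e]
  · rw [map_mul, hZ, (T.D k).mul_same, if_pos rfl]

/-- Two square-zero contractions in the commutant of a step whose squares add up to one. -/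
theorem AFTower.exists_square_zero {A : Type u} [CStarAlgebra A] [IsSimpleRing A] (T : AFTower A)
    (hA : ¬ FiniteDimensional ℂ A) (k : ℕ) :
    ∃ x y : A, ‖x‖ ≤ 1 ∧ ‖y‖ ≤ 1 ∧ x * x = 0 ∧ y * y = 0 ∧ (T.D k).Commutes x ∧
      (T.D k).Commutes y ∧ star x * x + x * star x + star y * y = 1 := by
  let := CStarAlgebra.spectralOrder A
  have := CStarAlgebra.spectralOrderedRing A
  set D := T.D k
  have hz : ∀ i, D.e i 0 0 ≠ 0 := D.ne_zero
  choose γ hγ hγτ using fun i => exists_pos_le_tsq (hz i)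
  choose N hN using fun i => exists_nat_gt (4 / γ i)
  obtain ⟨L, hL⟩ := ((eventually_ge_atTop k).and
    ((eventually_all.2 fun i => (T.eventually_trace (fun _ : Unit => D.e i 0 0)
      (half_pos (hγ i))).and (T.eventually_large hA (N i))))).exists
  obtain ⟨hkL, hL⟩ := hL
  set DL := T.D L
  choose Z hZ hZs hZi using T.exists_corner hkL
  choose U c hc using fun i => DL.exists_conjDiag (hZs i)
  have hidem : ∀ i j a, c i j a = 0 ∨ c i j a = 1 := by
    intro i j a
    have h0 : DL.conjDiag (U i) (fun j a => c i j a * c i j a - c i j a) = 0 := by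
      rw [← DL.conjDiag_sub, ← DL.conjDiag_mul, ← hc i, hZi, sub_self]
    have h1 := DL.abs_le_norm_conjDiag (U i) (fun j a => c i j a * c i j a - c i j a) j a
    rw [h0, map_zero, norm_zero, abs_nonpos_iff] at h1
    rcases mul_eq_zero.1 (show c i j a * (c i j a - 1) = 0 by linarith) with h | h
    · exact Or.inl h
    · exact Or.inr (by linarith)
  let R : ∀ i j, Finset (Fin (DL.d j + 1)) := fun i j => Finset.univ.filter fun a => c i j a = 1
  have hR : ∀ i j, 2 ≤ (R i j).card := by
    intro i j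
    obtain ⟨τ, hτ, hτj⟩ := (hL i).1 j
    have h := hτj () (Z i)
    rw [hZ, sub_self, norm_zero, zero_add, hc i, DL.blockTrace_conjDiag] at h
    have h1 : γ i ≤ (τ (D.e i 0 0)).re := by
      have := hγτ i τ hτ
      rwa [tsq, D.star_e, D.mul_same, if_pos rfl] at this
    have h2 : (∑ a, c i j a) = (R i j).card := by
      rw [Finset.card_filter, Nat.cast_sum]
      refine Finset.sum_congr rfl fun a _ => ?_
      rcases hidem i j a with h | h <;> simp [h]
    have h3 := (Complex.abs_re_le_norm _).trans h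
    rw [h2, show ((DL.d j : ℂ) + 1) = (((DL.d j : ℝ) + 1 : ℝ) : ℂ) by simp, ← Complex.ofReal_div,
      Complex.sub_re, Complex.ofReal_re, abs_le] at h3
    have h4 : γ i / 2 * ((DL.d j : ℝ) + 1) ≤ (R i j).card := by
      rw [← le_div_iff₀ (by positivity)]
      linarith [h3.1]
    have h5 : 4 / γ i < (DL.d j : ℝ) + 1 := by
      have : (N i : ℝ) ≤ DL.d j := by exact_mod_cast (hL i).2 j
      linarith [hN i]
    rw [div_lt_iff₀ (hγ i)] at h5
    have h6 : (2 : ℝ) ≤ (R i j).card := by nlinarith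
    exact_mod_cast h6
  choose σ τ hσi hτi hσ0 hτ0 hσR hτR hsum using fun i j => exists_pairs (R i j) (hR i j)
  let conj : ∀ i, DL.Mat → DL.Mat := fun i M => (U i : DL.Mat) * M * star (U i : DL.Mat)
  let X : Fin D.m → DL.Mat := fun i => conj i fun j => sigMat (σ i j) fun _ => 1
  let Y : Fin D.m → DL.Mat := fun i => conj i fun j => sigMat (τ i j) fun _ => 1
  have hconj : ∀ i (M N P : DL.Mat), conj i M * conj i N * conj i P = conj i (M * N * P) := by
    intro i M N P
    simp only [conj, mul_assoc]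
    rw [← mul_assoc (star (U i : DL.Mat)) (U i : DL.Mat), Unitary.coe_star_mul_self, one_mul,
      ← mul_assoc (star (U i : DL.Mat)) (U i : DL.Mat), Unitary.coe_star_mul_self, one_mul]
  have hstar : ∀ i M, star (conj i M) = conj i (star M) := fun i M => by
    simp [conj, star_mul, mul_assoc]
  have hZc : ∀ i, Z i = conj i (DL.diagM (c i)) := hc
  have hzero : ∀ i (ρ : ∀ j, Fin (DL.d j + 1) → Option (Fin (DL.d j + 1))),
      (∀ j a b, ρ j a = some b → ρ j b = none) →
      conj i (fun j => sigMat (ρ j) fun _ => 1) * Z i *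
        conj i (fun j => sigMat (ρ j) fun _ => 1) = 0 := by
    intro i ρ hρ
    rw [hZc, hconj]
    have : (fun j => sigMat (ρ j) fun _ => (1 : ℝ)) * DL.diagM (c i) *
        (fun j => sigMat (ρ j) fun _ => 1) = (0 : DL.Mat) := funext fun j =>
      sigMat_mul_diagonal_mul (hρ j) _ _
    rw [this]
    simp [conj]
  have hrel : ∀ i, star (X i) * Z i * X i + X i * Z i * star (X i) + star (Y i) * Z i * Y i
      = Z i := by
    intro i
    simp only [X, Y, hstar, hZc i, hconj]
    simp only [conj, ← add_mul, ← mul_add]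
    congr 2
    funext j
    simp only [Pi.add_apply, Pi.mul_apply, Pi.star_apply, MU.diagM]
    rw [star_sigMat_mul (hσi i j), sigMat_mul_diagonal_mul_star, star_sigMat_mul (hτi i j),
      Matrix.diagonal_add, Matrix.diagonal_add]
    congr 1
    funext a
    have hc1 : ∀ a, a ∈ R i j → c i j a = 1 := fun a ha => (Finset.mem_filter.1 ha).2
    have e := hsum i j a
    have e1 : c i j a = if a ∈ R i j then 1 else 0 := by
      rcases hidem i j a with h | h <;> simp [R, h]
    rw [← e1] at e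
    rw [← Complex.ofReal_add, ← Complex.ofReal_add, e]
    congr 2
    · congr 1
      · rcases h : σ i j a with _ | r
        · simp
        · simp [hc1 r (hσR i j a r h).2]
      · refine Finset.sum_congr rfl fun b _ => ?_
        split
        · rw [hc1 b (hσR i j b a ‹_›).1]
        · rfl
    · rcases h : τ i j a with _ | r
      · simp
      · simp [hc1 r (hτR i j a r h).2]
  set x := D.dsum fun i => DL.hom (X i)
  set y := D.dsum fun i => DL.hom (Y i)
  have hone : star x * x + x * star x + star y * y = 1 := by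
    simp only [x, y, D.star_dsum, D.dsum_mul_dsum, D.dsum_add]
    have : ∀ i, star (DL.hom (X i)) * D.e i 0 0 * DL.hom (X i) +
        DL.hom (X i) * D.e i 0 0 * star (DL.hom (X i)) +
        star (DL.hom (Y i)) * D.e i 0 0 * DL.hom (Y i) = D.e i 0 0 := fun i => by
      rw [show D.e i 0 0 = DL.hom (Z i) from (hZ i).symm]
      simp only [← map_star, ← map_mul, ← map_add, hrel i]
    simp only [this]
    conv_rhs => rw [← D.dsum_one, ← D.dsum_corner]
    simp [D.mul_same]
  have hsq : x * x = 0 ∧ y * y = 0 := by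
    have e1 : ∀ i, DL.hom (X i) * D.e i 0 0 * DL.hom (X i) = 0 := fun i => by
      rw [show D.e i 0 0 = DL.hom (Z i) from (hZ i).symm, ← map_mul, ← map_mul,
        hzero i _ (hσ0 i), map_zero]
    have e2 : ∀ i, DL.hom (Y i) * D.e i 0 0 * DL.hom (Y i) = 0 := fun i => by
      rw [show D.e i 0 0 = DL.hom (Z i) from (hZ i).symm, ← map_mul, ← map_mul,
        hzero i _ (hτ0 i), map_zero]
    constructor
    · simp only [x, D.dsum_mul_dsum, e1]
      simp [MU.dsum]
    · simp only [y, D.dsum_mul_dsum, e2]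
      simp [MU.dsum]
  have hn : ∀ a : A, star a * a ≤ 1 → ‖a‖ ≤ 1 := fun a ha => by
    have := CStarAlgebra.norm_le_norm_of_nonneg_of_le (star_mul_self_nonneg a) ha
    rw [CStarRing.norm_star_mul_self, norm_one] at this
    nlinarith [norm_nonneg a]
  exact ⟨x, y,
    hn x (hone ▸ (le_add_of_nonneg_right (mul_star_self_nonneg x)).trans
      (le_add_of_nonneg_right (star_mul_self_nonneg y))),
    hn y (hone ▸ le_add_of_nonneg_left (add_nonneg (star_mul_self_nonneg x)
      (mul_star_self_nonneg x))),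
    hsq.1, hsq.2, D.dsum_commutes _, D.dsum_commutes _, hone⟩

theorem tendsto_comm_of_commutes {A : Type u} [CStarAlgebra A] (T : AFTower A) (f : ℕ →ᵇ A)
    (hf : ∀ n, (T.D n).Commutes (f n)) (a : A) :
    Tendsto (fun n => f n * a - a * f n) atTop (𝓝 0) := by
  refine Metric.tendsto_atTop.2 fun ε hε => ?_
  obtain ⟨k, y, hy, hay⟩ := T.dense a (ε / (4 * (‖f‖ + 1))) (by positivity)
  refine ⟨k, fun n hn => ?_⟩
  have hc : Commute (f n) y := by
    refine Submodule.span_induction ?_ (Commute.zero_right _) (fun _ _ _ _ h h' => h.add_right h')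
      (fun c _ _ h => h.smul_right c) (T.alg_mono hn hy)
    rintro _ ⟨i, a, b, rfl⟩
    exact hf n i a b
  rw [dist_zero_right]
  have e : f n * a - a * f n = f n * (a - y) - (a - y) * f n := by
    rw [mul_sub, sub_mul, hc.eq]
    abel
  have h5 : ‖f‖ * (ε / (4 * (‖f‖ + 1))) ≤ ε / 4 := by
    rw [mul_div_assoc', div_le_div_iff₀ (by positivity) (by norm_num)]
    nlinarith [norm_nonneg f]
  rw [e]
  refine lt_of_le_of_lt ((norm_sub_le _ _).trans (add_le_add (norm_mul_le _ _) (norm_mul_le _ _))) ?_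
  nlinarith [mul_le_mul (f.norm_coe_le_norm n) hay (norm_nonneg _) (norm_nonneg f)]

theorem noCharPin : NoCharPin.{u} := by
  rintro A _ _ hA T w hw ⟨χ, -⟩
  choose x y hx hy hxx hyy hxc hyc hone using T.exists_square_zero hA
  let X₀ := BoundedContinuousFunction.ofNormedAddCommGroupDiscrete x 1 hx
  let Y₀ := BoundedContinuousFunction.ofNormedAddCommGroupDiscrete y 1 hy
  have hw' : (w : Filter ℕ) ≤ atTop := hw.trans_eq Nat.cofinite_eq_atTop
  let X : centralSeq (w : Filter ℕ) A :=
    ⟨X₀, fun a => (tendsto_comm_of_commutes T X₀ hxc a).mono_left hw'⟩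
  let Y : centralSeq (w : Filter ℕ) A :=
    ⟨Y₀, fun a => (tendsto_comm_of_commutes T Y₀ hyc a).mono_left hw'⟩
  have h1 : X * X = 0 := Subtype.ext (BoundedContinuousFunction.ext hxx)
  have h2 : Y * Y = 0 := Subtype.ext (BoundedContinuousFunction.ext hyy)
  have h3 : star X * X + X * star X + star Y * Y = 1 :=
    Subtype.ext (BoundedContinuousFunction.ext hone)
  have hX : χ X = 0 := by
    have := congrArg χ h1
    rw [map_mul, map_zero] at this
    exact mul_self_eq_zero.1 this
  have hY : χ Y = 0 := by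
    have := congrArg χ h2
    rw [map_mul, map_zero] at this
    exact mul_self_eq_zero.1 this
  have h4 := congrArg χ h3
  simp [hX, hY] at h4

end Vale.Agent.P095.SI
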