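import Vale.Agent.P095.SI.Pins
import Vale.Agent.P095.SI.NoCharacter

/-!
P095, equivariant (SI) step, block B3b: comparison in a simple AF algebra.
-/

namespace Vale.Agent.P095.SI

open Filter Matrix Tracial
open scoped Topology

universe u

section Order

variable {A : Type*} [CStarAlgebra A] [PartialOrder A] [StarOrderedRing A]

theorem norm_sub_mid_le {a : A} {l u : ℝ} (hlu : l ≤ u) (hl : algebraMap ℝ A l ≤ a)
    (hu : a ≤ algebraMap ℝ A u) : ‖a - algebraMap ℝ A ((l + u) / 2)‖ ≤ (u - l) / 2 := by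
  set d := a - algebraMap ℝ A ((l + u) / 2)
  set r := (u - l) / 2
  have h1 : a - algebraMap ℝ A l = algebraMap ℝ A r + d := by
    rw [show l = (l + u) / 2 - r by simp [r]; ring, map_sub]
    simp only [d, r]
    abel
  have h2 : algebraMap ℝ A u - a = algebraMap ℝ A r - d := by
    rw [show u = (l + u) / 2 + r by simp [r]; ring, map_add]
    simp only [d, r]
    abel
  have hd : IsSelfAdjoint d := by
    have ha : IsSelfAdjoint a := by
      have := (IsSelfAdjoint.of_nonneg (sub_nonneg.2 hl)).add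
        (IsSelfAdjoint.algebraMap A (IsSelfAdjoint.all l))
      simpa using this
    exact ha.sub (IsSelfAdjoint.algebraMap A (IsSelfAdjoint.all _))
  have hX : 0 ≤ algebraMap ℝ A r + d := h1 ▸ sub_nonneg.2 hl
  have hY : 0 ≤ algebraMap ℝ A r - d := h2 ▸ sub_nonneg.2 hu
  have hc : Commute (algebraMap ℝ A r) d := Algebra.commute_algebraMap_left r d
  have h3 : 0 ≤ (algebraMap ℝ A r + d) * (algebraMap ℝ A r - d) :=
    Commute.mul_nonneg hX hY (((Commute.refl _).sub_right hc).add_left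
      (hc.symm.sub_right (Commute.refl _)))
  have h4 : star d * d ≤ algebraMap ℝ A (r * r) := by
    rw [hd.star_eq, map_mul, ← sub_nonneg]
    refine h3.trans_eq ?_
    clear_value d
    rw [add_mul, mul_sub, mul_sub, hc.eq]
    abel
  have h5 := CStarAlgebra.norm_le_norm_of_nonneg_of_le (star_mul_self_nonneg d) h4
  rw [CStarRing.norm_star_mul_self] at h5
  have hr : 0 ≤ r := by simp only [r]; linarith
  have h6 : ‖algebraMap ℝ A (r * r)‖ ≤ r * r := by
    rcases subsingleton_or_nontrivial A with hs | hn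
    · simp [Subsingleton.elim (algebraMap ℝ A (r * r)) 0, mul_self_nonneg]
    · rw [norm_algebraMap', Real.norm_of_nonneg (mul_self_nonneg r)]
  nlinarith [norm_nonneg d]

theorem norm_one_sub_mul_sq_le {c : A} (s : A) (h0 : 0 ≤ c) (h1 : c ≤ 1) :
    ‖(1 - c) * s‖ ^ 2 ≤ ‖star s * (1 - c) * s‖ := by
  have hd : 0 ≤ (1 - c) * c :=
    Commute.mul_nonneg (sub_nonneg.2 h1) h0 ((Commute.one_left c).sub_left (Commute.refl c))
  have h2 : (1 - c) * (1 - c) ≤ 1 - c := by
    rw [mul_sub (1 - c), mul_one]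
    exact sub_le_self _ hd
  have hs : star ((1 - c) * s) * ((1 - c) * s) = star s * ((1 - c) * (1 - c)) * s := by
    rw [star_mul, (IsSelfAdjoint.of_nonneg (sub_nonneg.2 h1)).star_eq]
    simp only [mul_assoc]
  have h3 := star_left_conjugate_le_conjugate h2 s
  rw [← hs] at h3
  have h4 := CStarAlgebra.norm_le_norm_of_nonneg_of_le (star_mul_self_nonneg _) h3
  rwa [CStarRing.norm_star_mul_self, ← sq] at h4

theorem star_mul_self_le_one {a : A} (ha : ‖a‖ ≤ 1) : star a * a ≤ 1 := by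
  refine (IsSelfAdjoint.star_mul_self a).le_algebraMap_norm_self.trans ?_
  rw [← map_one (algebraMap ℝ A)]
  refine algebraMap_mono A ?_
  rw [CStarRing.norm_star_mul_self]
  nlinarith [norm_nonneg a]

theorem norm_sq2_le {x : A} {δ : ℝ} (hx : ‖x‖ ≤ 1) (hxx : ‖x * x‖ ≤ δ) :
    ‖sq2 x‖ ≤ 1 + 2 * δ := by
  set a := star x * x
  set b := x * star x
  have ha : 0 ≤ a := star_mul_self_nonneg x
  have hb : 0 ≤ b := mul_star_self_nonneg x
  have ha1 : a ≤ 1 := star_mul_self_le_one hx
  have hb1 : b ≤ 1 := by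
    simpa [b] using star_mul_self_le_one (a := star x) (by rwa [norm_star])
  have sqle : ∀ c : A, 0 ≤ c → c ≤ 1 → c * c ≤ c := fun c h0 h1 => by
    have := Commute.mul_nonneg h0 (sub_nonneg.2 h1) ((Commute.one_right c).sub_right (Commute.refl c))
    rwa [mul_sub, mul_one, sub_nonneg] at this
  have hab : ‖a * b‖ ≤ δ := by
    calc ‖a * b‖ = ‖star x * (x * x) * star x‖ := by simp [a, b, mul_assoc]
      _ ≤ ‖star x * (x * x)‖ * ‖star x‖ := norm_mul_le _ _
      _ ≤ ‖star x‖ * ‖x * x‖ * ‖star x‖ := by gcongr; exact norm_mul_le _ _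
      _ ≤ δ := by
          rw [norm_star]
          nlinarith [norm_nonneg x, norm_nonneg (x * x), mul_le_one₀ hx (norm_nonneg x) hx]
  have hba : ‖b * a‖ ≤ δ := by
    calc ‖b * a‖ = ‖star (a * b)‖ := by
          rw [star_mul, (IsSelfAdjoint.of_nonneg ha).star_eq, (IsSelfAdjoint.of_nonneg hb).star_eq]
      _ ≤ δ := by rwa [norm_star]
  have h1 : ‖a * a + b * b‖ ≤ ‖sq2 x‖ := by
    refine CStarAlgebra.norm_le_norm_of_nonneg_of_le ?_ (add_le_add (sqle a ha ha1) (sqle b hb hb1))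
    exact add_nonneg ((IsSelfAdjoint.of_nonneg ha).mul_self_nonneg)
      ((IsSelfAdjoint.of_nonneg hb).mul_self_nonneg)
  have h2 : ‖sq2 x‖ * ‖sq2 x‖ ≤ ‖sq2 x‖ + 2 * δ := by
    have hs : star (sq2 x) = sq2 x := (IsSelfAdjoint.of_nonneg (add_nonneg ha hb)).star_eq
    rw [← CStarRing.norm_star_mul_self, hs]
    calc ‖sq2 x * sq2 x‖ = ‖(a * a + b * b) + a * b + b * a‖ := by
          rw [show sq2 x = a + b from rfl, add_mul, mul_add, mul_add]
          congr 1
          abel
      _ ≤ ‖a * a + b * b‖ + ‖a * b‖ + ‖b * a‖ :=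
          (norm_add_le _ _).trans (add_le_add (norm_add_le _ _) le_rfl)
      _ ≤ _ := by linarith
  nlinarith [norm_nonneg (sq2 x), (norm_nonneg (x * x)).trans hxx]

end Order

section Traces

variable {A : Type*} [CStarAlgebra A] {τ : A → ℂ}

theorem re_trace_le {B : A} (hτ : IsTraceOn (⊤ : StarSubalgebra ℂ A) τ) {v : A} (hv : ‖v‖ ≤ 1)
    [PartialOrder A] [StarOrderedRing A] (hB : 0 ≤ B) :
    (τ (star v * v * B)).re ≤ (τ B).re := by
  set h := CFC.sqrt B
  have hh : star h = h := (IsSelfAdjoint.of_nonneg (CFC.sqrt_nonneg B)).star_eq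
  have hB' : h * h = B := CFC.sqrt_mul_sqrt_self B hB
  have e : τ (star v * v * B) = τ (star (v * h) * (v * h)) := by
    rw [← hB', ← mul_assoc, hτ.tracial (star v * v * h) trivial h trivial, star_mul, hh]
    simp only [mul_assoc]
  rw [e, show τ B = τ (star h * h) by rw [hh, hB']]
  exact (hτ.tsq_mul_le (B := ⊤) isClosed_univ (a := v) (x := h) trivial trivial).trans
    (mul_le_of_le_one_left (hτ.tsq_nonneg trivial) (pow_le_one₀ (norm_nonneg v) hv))

theorem re_trace_sub_le (hτ : IsTraceOn (⊤ : StarSubalgebra ℂ A) τ) {a b : A} {r : ℝ}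
    (h : ‖a - b‖ ≤ r) : |(τ a).re - (τ b).re| ≤ r := by
  rw [← Complex.sub_re, ← hτ.map_sub trivial trivial]
  exact (Complex.abs_re_le_norm _).trans ((hτ.norm_le isClosed_univ trivial).trans h)

/-- The three trace inequalities behind the comparison. -/
theorem trace_estimates [PartialOrder A] [StarOrderedRing A]
    (hτ : IsTraceOn (⊤ : StarSubalgebra ℂ A) τ) {x p z v : A} {δ γ : ℝ} (hx : ‖x‖ ≤ 1)
    (hv : ‖v‖ ≤ 1) (hz : star z = z ∧ z * z = z ∧ ‖z‖ ≤ 1) (hp : star p = p ∧ ‖p‖ ≤ 1)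
    (hzv : z * star v = star v) (hpv : p * star v = star v) (hpz : p * z = z * p) (hS : ∀ a ∈ ({p, z, star v * v} : Set A),
      ‖x * a - a * x‖ ≤ δ ∧ ‖star x * a - a * star x‖ ≤ δ)
    (hsmall : TraceSmall x δ) (hγ : γ ≤ tsq τ v) :
    let w := star v * v
    let B := z * (p * (star x * x) * p) * z
    let F := z * (1 - sq2 x) * z
    γ / 2 - Real.sqrt δ - δ ≤ (τ (w * B)).re ∧ (τ (w * B - w * (B * B))).re ≤ 7 * δ ∧
      (τ (F * F)).re ≤ δ := by
  intro w B F
  have hB : IsClosed ((⊤ : StarSubalgebra ℂ A) : Set A) := isClosed_univ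
  set e := star x * x with he
  set b := p * e * p with hb
  have hzw : z * w = w := by simp only [w, ← mul_assoc, hzv]
  have hpw : p * w = w := by simp only [w, ← mul_assoc, hpv]
  have hws : star w = w := by simp [w]
  have hwz : w * z = w := by
    calc w * z = star (z * w) := by rw [star_mul, hws, hz.1]
      _ = w := by rw [hzw, hws]
  have hwp : w * p = w := by
    calc w * p = star (p * w) := by rw [star_mul, hws, hp.1]
      _ = w := by rw [hpw, hws]
  have hwn : ‖w‖ ≤ 1 := by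
    rw [CStarRing.norm_star_mul_self]
    exact mul_le_one₀ hv (norm_nonneg v) hv
  have hen : ‖e‖ ≤ 1 := by
    rw [he, CStarRing.norm_star_mul_self]
    exact mul_le_one₀ hx (norm_nonneg x) hx
  have hbn : ‖b‖ ≤ 1 :=
    (norm_mul_le _ _).trans (mul_le_one₀ ((norm_mul_le _ _).trans
      (mul_le_one₀ hp.2 (norm_nonneg _) hen)) (norm_nonneg _) hp.2)
  obtain ⟨hf, hee⟩ := hsmall τ hτ
  have cz := hS z (by simp)
  have cp := hS p (by simp)
  have cw := hS w (by simp [w])
  have hcomm : ∀ a, ‖x * a - a * x‖ ≤ δ ∧ ‖star x * a - a * star x‖ ≤ δ →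
      ‖e * a - a * e‖ ≤ 2 * δ := by
    intro a ha
    have : e * a - a * e = star x * (x * a - a * x) + (star x * a - a * star x) * x := by
      rw [he]; noncomm_ring
    rw [this]
    refine (norm_add_le _ _).trans ?_
    have h1 := (norm_mul_le (star x) (x * a - a * x)).trans
      (mul_le_mul (by rwa [norm_star]) ha.1 (norm_nonneg _) zero_le_one)
    have h2 := (norm_mul_le (star x * a - a * star x) x).trans
      (mul_le_mul ha.2 hx (norm_nonneg _) ((norm_nonneg _).trans ha.2))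
    linarith
  have h1 : τ (w * B) = τ (w * e) := by
    calc τ (w * B) = τ (w * z * (p * e * p) * z) := by simp only [B, he, mul_assoc]
      _ = τ (z * (w * z * (p * e * p))) := hτ.tracial _ trivial _ trivial
      _ = τ (w * p * e * p) := by rw [hwz, ← mul_assoc z, hzw]; simp only [mul_assoc]
      _ = τ (p * (w * p * e)) := hτ.tracial _ trivial _ trivial
      _ = τ (w * e) := by rw [hwp, ← mul_assoc, hpw]
  refine ⟨?_, ?_, ?_⟩
  · have h2 : τ w = τ (w * (1 - sq2 x)) + τ (w * e) + τ (w * (x * star x)) := by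
      rw [← hτ.add _ trivial _ trivial, ← hτ.add _ trivial _ trivial]
      congr 1
      rw [sq2, he]
      noncomm_ring
    have h3 : (τ (w * (1 - sq2 x))).re ≤ Real.sqrt δ := by
      refine (Complex.re_le_norm _).trans (Real.le_sqrt_of_sq_le ?_)
      have h4 := hτ.cauchy_schwarz hB (x := star w) (y := 1 - sq2 x) trivial trivial
      rw [star_star] at h4
      refine h4.trans ((mul_le_of_le_one_left (hτ.tsq_nonneg trivial) ?_).trans hf)
      refine (hτ.tsq_le_norm_sq hB trivial).trans (pow_le_one₀ (norm_nonneg _) ?_)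
      rwa [norm_star]
    have h4 : (τ (w * (x * star x))).re ≤ (τ (w * e)).re + δ := by
      have e1 : τ (w * (x * star x)) = τ (star x * (w * x)) := by
        rw [← mul_assoc, hτ.tracial (w * x) trivial (star x) trivial]
      have h5 : ‖star x * (w * x) - w * e‖ ≤ δ := by
        rw [show star x * (w * x) - w * e = (star x * w - w * star x) * x by rw [he]; noncomm_ring]
        exact (norm_mul_le _ _).trans ((mul_le_of_le_one_right (norm_nonneg _) hx).trans cw.2)
      rw [e1]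
      linarith [(abs_le.1 (re_trace_sub_le hτ h5)).2]
    have h6 : γ ≤ (τ w).re := hγ
    have h7 := congrArg Complex.re h2
    rw [Complex.add_re, Complex.add_re] at h7
    rw [h1]
    linarith [Real.sqrt_nonneg δ, (norm_nonneg _).trans cw.1]
  · have hzb : ‖z * b - b * z‖ ≤ 2 * δ := by
      have : z * b - b * z = p * (z * e - e * z) * p := by
        rw [hb, mul_sub, sub_mul]
        simp only [← mul_assoc]
        rw [← hpz]
        simp only [mul_assoc]
        rw [← hpz]
      rw [this]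
      exact (norm_mul_le _ _).trans ((mul_le_of_le_one_right (norm_nonneg _) hp.2).trans
        ((norm_mul_le _ _).trans ((mul_le_of_le_one_left (norm_nonneg _) hp.2).trans
          (by rw [norm_sub_rev]; exact hcomm z cz))))
    have h2 : τ (w * (B * B)) = τ (w * (b * (z * b))) := by
      calc τ (w * (B * B)) = τ (w * z * b * (z * z) * b * z) := by
            simp only [B, hb, he, mul_assoc]
        _ = τ (z * (w * b * z * b)) := by rw [hwz, hz.2.1]; exact hτ.tracial _ trivial _ trivial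
        _ = τ (w * (b * (z * b))) := by simp only [← mul_assoc, hzw]
    have h3 : ‖w * (b * (z * b)) - w * (b * b) * z‖ ≤ 2 * δ := by
      rw [show w * (b * (z * b)) - w * (b * b) * z = w * b * (z * b - b * z) by noncomm_ring]
      exact (norm_mul_le _ _).trans ((mul_le_of_le_one_left (norm_nonneg _)
        ((norm_mul_le _ _).trans (mul_le_one₀ hwn (norm_nonneg _) hbn))).trans hzb)
    have h4 : τ (w * (b * b) * z) = τ (w * e * (p * p) * e) := by
      calc τ (w * (b * b) * z) = τ (z * (w * (b * b))) := hτ.tracial _ trivial _ trivial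
        _ = τ (w * p * e * (p * p) * e * p) := by
            rw [← mul_assoc, hzw]; simp only [hb, mul_assoc]
        _ = τ (p * (w * p * e * (p * p) * e)) := hτ.tracial _ trivial _ trivial
        _ = τ (w * e * (p * p) * e) := by rw [hwp]; simp only [← mul_assoc, hpw]
    have h5 : ‖w * e * (p * p) * e - w * (e * e)‖ ≤ 4 * δ := by
      have e1 : w * (e * e) = w * (p * p) * e * e := by
        simp only [← mul_assoc, hwp]
      have e2 : w * e * (p * p) * e - w * (p * p) * e * e =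
          w * ((e * p - p * e) * p + p * (e * p - p * e)) * e := by noncomm_ring
      rw [e1, e2]
      refine (norm_mul_le _ _).trans ((mul_le_of_le_one_right (norm_nonneg _) hen).trans
        ((norm_mul_le _ _).trans ((mul_le_of_le_one_left (norm_nonneg _) hwn).trans
          ((norm_add_le _ _).trans ?_))))
      have a1 := (norm_mul_le (e * p - p * e) p).trans
        (mul_le_of_le_one_right (norm_nonneg _) hp.2)
      have a2 := (norm_mul_le p (e * p - p * e)).trans
        (mul_le_of_le_one_left (norm_nonneg _) hp.2)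
      linarith [hcomm p cp]
    have h6 : (τ (w * (e - e * e))).re ≤ δ := by
      refine (re_trace_le hτ hv ?_).trans ?_
      · rw [show e - e * e = e * (1 - e) by rw [mul_sub, mul_one]]
        exact Commute.mul_nonneg (star_mul_self_nonneg x)
          (sub_nonneg.2 (star_mul_self_le_one hx))
          ((Commute.one_right e).sub_right (Commute.refl e))
      · rwa [show e - e * e = e * (1 - e) by rw [mul_sub, mul_one]]
    rw [hτ.map_sub trivial trivial, Complex.sub_re, h1, h2]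
    rw [mul_sub, hτ.map_sub trivial trivial, Complex.sub_re] at h6
    have a3 := (abs_le.1 (re_trace_sub_le hτ h3)).1
    have a5 := (abs_le.1 (re_trace_sub_le hτ h5)).1
    rw [h4] at a3
    linarith
  · have e1 : τ (F * F) = τ (star F * F) := by
      congr 1
      simp [F, sq2, star_sub, hz.1, mul_assoc]
    rw [e1]
    have a1 := hτ.tsq_mul_right_le hB (a := z) (x := z * (1 - sq2 x)) trivial trivial
    have a2 := hτ.tsq_mul_le hB (a := z) (x := 1 - sq2 x) trivial trivial
    have hz2 : ‖z‖ ^ 2 ≤ 1 := pow_le_one₀ (norm_nonneg _) hz.2.2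
    refine le_trans a1 ?_
    refine (mul_le_of_le_one_left (hτ.tsq_nonneg trivial) hz2).trans (a2.trans ?_)
    exact (mul_le_of_le_one_left (hτ.tsq_nonneg trivial) hz2).trans hf

end Traces

section Factor

variable {A : Type*} [CStarAlgebra A] (D : MU A)

/-- One corner: a factor of the positive part of `f` supported where `b` is almost one. -/
theorem exists_corner_factor {z b f : A} {Z P Bm Fm : D.Mat} {ε γ ν : ℝ} (hε : 0 < ε)
    (hε1 : ε ≤ 1) (hγ : 0 < γ) (hν : 0 ≤ ν) (hν1 : ν ≤ ε / 4) (hνγ : 1000 * ν ≤ ε ^ 2 * γ)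
    (hZ : D.hom Z = z) (hz : star z = z ∧ z * z = z ∧ ‖z‖ ≤ 1) (hz1 : ‖1 - z‖ ≤ 1)
    (hBs : IsSelfAdjoint Bm) (hFs : IsSelfAdjoint Fm) (hZB : Z * Bm = Bm)
    (hB : ‖D.hom Bm - z * b * z‖ ≤ ν) (hF : ‖D.hom Fm - z * f * z‖ ≤ ν)
    (hb : ‖z * b * z - algebraMap ℝ A (1 / 2)‖ ≤ 1 / 2)
    (hf : ‖z * f * z - algebraMap ℝ A (1 / 2)‖ ≤ 1 / 2 + ν) (hP : ‖D.hom P‖ ^ 2 ≤ 2)
    (h1 : ∀ j, γ / 3 ≤ (blockTrace D j (star P * P * Bm)).re)
    (h2 : ∀ j, (blockTrace D j (star P * P * Bm - star P * P * (Bm * Bm))).re ≤ 3 * ν)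
    (h3 : ∀ j, (blockTrace D j (Fm * Fm)).re ≤ 3 * ν) :
    ∃ S : A, ‖S‖ ≤ 2 ∧ ‖z * (star S * z * S - f) * z‖ ≤ 7 * ε ∧
      ‖z * ((1 - b) * z * S) * z‖ ≤ 5 * ε := by
  classical
  obtain ⟨V, μ, rfl⟩ := D.exists_conjDiag hBs
  obtain ⟨U, lam, rfl⟩ := D.exists_conjDiag hFs
  have hsub : ∀ (W : unitary D.Mat) (c : ∀ j, Fin (D.d j + 1) → ℝ) (j a) (r : ℝ) (y : A),
      ‖D.hom (D.conjDiag W c) - y‖ ≤ ν → ‖y - algebraMap ℝ A (1 / 2)‖ ≤ r →
        |c j a - 1 / 2| ≤ ν + r := by
    intro W c j a r y hy hy2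
    have h := D.abs_le_norm_conjDiag W (fun j a => c j a - 1 / 2) j a
    rw [← D.conjDiag_sub W c fun _ _ => (1 : ℝ) / 2, D.conjDiag_const, map_sub, map_smul,
      map_one] at h
    refine h.trans ?_
    rw [show ((1 / 2 : ℝ) : ℂ) • (1 : A) = algebraMap ℝ A (1 / 2) by
      rw [Algebra.algebraMap_eq_smul_one]; exact Complex.coe_smul _ _]
    exact (norm_sub_le_norm_sub_add_norm_sub _ y _).trans (add_le_add hy hy2)
  have hμb : ∀ j a, -ν ≤ μ j a ∧ μ j a ≤ 1 + ν := fun j a => by
    have := abs_le.1 (hsub V μ j a _ _ hB hb)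
    constructor <;> linarith [this.1, this.2]
  have hlb : ∀ j a, -(2 * ν) ≤ lam j a ∧ lam j a ≤ 1 + 2 * ν := fun j a => by
    have := abs_le.1 (hsub U lam j a _ _ hF hf)
    constructor <;> linarith [this.1, this.2]
  have hcard : ∀ j, Fintype.card {a // ε < lam j a} ≤ Fintype.card {a // 1 - ε < μ j a} := by
    intro j
    have hn : (0 : ℝ) < (D.d j : ℝ) + 1 := by positivity
    refine card_le_card_of_sums (D.weight V P j) (μ j) (lam j) hγ hε hε1 hν hνγ (by linarith)
      (fun a => ⟨D.weight_nonneg V P j a, (D.weight_le V P j a).trans hP⟩) (hμb j) ?_ ?_ ?_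
    · have := h1 j
      rw [D.re_blockTrace_mul, le_div_iff₀ hn] at this
      simpa using this
    · have := h2 j
      rw [map_sub, Complex.sub_re, D.conjDiag_mul, D.re_blockTrace_mul, D.re_blockTrace_mul,
        ← sub_div, ← Finset.sum_sub_distrib, div_le_iff₀ hn] at this
      simpa using this
    · have := h3 j
      rw [D.conjDiag_mul, D.blockTrace_conjDiag,
        show ((D.d j : ℂ) + 1) = (((D.d j : ℝ) + 1 : ℝ) : ℂ) by simp, ← Complex.ofReal_div,
        Complex.ofReal_re, div_le_iff₀ hn] at this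
      simpa using this
  obtain ⟨S₀, hS1, hS2, hS3⟩ := D.exists_factor U V lam μ hε hε1
    (fun j a => ⟨by linarith [(hlb j a).1], by linarith [(hlb j a).2]⟩)
    (fun j a => by linarith [(hμb j a).2]) hcard
  set S := D.hom S₀
  set Bh := D.hom (D.conjDiag V μ) with hBh
  set Fh := D.hom (D.conjDiag U lam)
  have hzB : z * Bh = Bh := by rw [← hZ, hBh, ← map_mul, hZB]
  have hout : ‖(1 - z) * S‖ ≤ 2 * ε := by
    have e : (1 - z) * S = (1 - z) * ((1 - Bh) * S) := by
      rw [← mul_assoc, mul_sub, mul_one, sub_mul 1 z Bh, one_mul, hzB, sub_self, sub_zero]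
    rw [e]
    exact (norm_mul_le _ _).trans ((mul_le_of_le_one_left (norm_nonneg _) hz1).trans hS3)
  have hzz : ∀ y : A, ‖z * y * z‖ ≤ ‖y‖ := fun y =>
    (norm_mul_le _ _).trans ((mul_le_of_le_one_right (norm_nonneg _) hz.2.2).trans
      ((norm_mul_le _ _).trans (mul_le_of_le_one_left (norm_nonneg _) hz.2.2)))
  refine ⟨S, hS2, ?_, ?_⟩
  · have hp : star (1 - z) * (1 - z) = 1 - z := by
      rw [star_sub, star_one, hz.1, sub_mul, mul_sub, one_mul, one_mul, mul_sub, mul_one, hz.2.1,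
        sub_self, sub_zero]
    have hzfz : z * (z * f * z) * z = z * f * z := by
      calc z * (z * f * z) * z = (z * z) * f * (z * z) := by noncomm_ring
        _ = z * f * z := by rw [hz.2.1]
    have e : z * (star S * z * S - f) * z = z * (star S * S - Fh) * z
        - z * (star ((1 - z) * S) * ((1 - z) * S)) * z
        + z * (Fh - z * f * z) * z := by
      have h4 : star ((1 - z) * S) * ((1 - z) * S) = star S * (1 - z) * S := by
        rw [star_mul, mul_assoc (star S), ← mul_assoc (star (1 - z)), hp, ← mul_assoc]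
      rw [h4, mul_sub z Fh, sub_mul (z * Fh), hzfz]
      noncomm_ring
    have a1 := (hzz (star S * S - Fh)).trans hS1
    have a2 : ‖z * (star ((1 - z) * S) * ((1 - z) * S)) * z‖ ≤ 2 * ε * (2 * ε) := by
      refine (hzz _).trans ?_
      rw [CStarRing.norm_star_mul_self]
      exact mul_self_le_mul_self (norm_nonneg _) hout
    have a3 := (hzz (Fh - z * f * z)).trans hF
    rw [e]
    refine (norm_add_le _ _).trans ((add_le_add (norm_sub_le _ _) le_rfl).trans ?_)
    nlinarith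
  · have e : z * ((1 - b) * z * S) * z
        = z * ((1 - Bh) * S) * z + z * ((Bh - z * b * z) * S) * z := by
      have h1' : z * (z * b * z) = z * b * z := by rw [← mul_assoc, ← mul_assoc, hz.2.1]
      have h2' : z * ((1 - b) * z) = z - z * b * z := by
        rw [sub_mul, one_mul, mul_sub, hz.2.1, mul_assoc]
      rw [← add_mul, ← mul_add, ← add_mul,
        show (1 : A) - Bh + (Bh - z * b * z) = 1 - z * b * z by abel]
      rw [← mul_assoc z ((1 - b) * z) S, h2', ← mul_assoc z (1 - z * b * z) S, mul_sub z 1,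
        mul_one, h1']
    rw [e]
    refine (norm_add_le _ _).trans ?_
    have a1 := (hzz ((1 - Bh) * S)).trans hS3
    have a2 := (hzz ((Bh - z * b * z) * S)).trans
      ((norm_mul_le _ _).trans (mul_le_mul hB hS2 (norm_nonneg _) hν))
    linarith

end Factor

theorem norm_comm_squares {A : Type*} [CStarAlgebra A] {x a : A} {δ : ℝ} (hx : ‖x‖ ≤ 1)
    (c1 : ‖x * a - a * x‖ ≤ δ) (c2 : ‖star x * a - a * star x‖ ≤ δ) :
    ‖star x * x * a - a * (star x * x)‖ ≤ 2 * δ ∧
      ‖x * star x * a - a * (x * star x)‖ ≤ 2 * δ := by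
  have hδ : 0 ≤ δ := (norm_nonneg _).trans c1
  constructor
  · rw [show star x * x * a - a * (star x * x)
        = star x * (x * a - a * x) + (star x * a - a * star x) * x by noncomm_ring]
    refine (norm_add_le _ _).trans ?_
    have h1 := (norm_mul_le (star x) (x * a - a * x)).trans
      (mul_le_mul (by rwa [norm_star]) c1 (norm_nonneg _) zero_le_one)
    have h2 := (norm_mul_le (star x * a - a * star x) x).trans
      (mul_le_mul c2 hx (norm_nonneg _) hδ)
    linarith
  · rw [show x * star x * a - a * (x * star x)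
        = x * (star x * a - a * star x) + (x * a - a * x) * star x by noncomm_ring]
    refine (norm_add_le _ _).trans ?_
    have h1 := (norm_mul_le x (star x * a - a * star x)).trans
      (mul_le_mul hx c2 (norm_nonneg _) zero_le_one)
    have h2 := (norm_mul_le (x * a - a * x) (star x)).trans
      (mul_le_mul c1 (show ‖star x‖ ≤ 1 by rwa [norm_star]) (norm_nonneg _) hδ)
    linarith

/-- All corners at once, in one far step of the tower. -/
theorem exists_corner_factors {A : Type*} [CStarAlgebra A] [Nontrivial A] (T : AFTower A) (k : ℕ)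
    (v : Fin (T.D k).m → A) (b f : A) {ε γ ν δ : ℝ} (hε : 0 < ε) (hεone : ε ≤ 1) (hγ : 0 < γ)
    (hν : 0 < ν) (hν1 : ν ≤ ε / 4) (hνdef : ν = ε ^ 2 * γ / 1000) (hνγ : ν ≤ γ / 1000)
    (hδ : 0 < δ) (hδν : δ ≤ ν ^ 2 / 100) (hδν' : δ ≤ ν / 100)
    (hbs : star b = b) (hfs : star f = f) (hvn : ∀ i, ‖v i‖ = 1)
    (hz : ∀ i, star ((T.D k).e i 0 0) = (T.D k).e i 0 0 ∧
      (T.D k).e i 0 0 * (T.D k).e i 0 0 = (T.D k).e i 0 0 ∧ ‖(T.D k).e i 0 0‖ ≤ 1)
    (hz1n : ∀ i, ‖(1 : A) - (T.D k).e i 0 0‖ ≤ 1)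
    (hzb : ∀ i, ‖(T.D k).e i 0 0 * b * (T.D k).e i 0 0 - algebraMap ℝ A (1 / 2)‖ ≤ 1 / 2)
    (hzf : ∀ i, ‖(T.D k).e i 0 0 * f * (T.D k).e i 0 0 - algebraMap ℝ A (1 / 2)‖ ≤ 1 / 2 + ν)
    (htr : ∀ i (τ : A → ℂ), IsTraceOn (⊤ : StarSubalgebra ℂ A) τ →
      let B := (T.D k).e i 0 0 * b * (T.D k).e i 0 0
      let F := (T.D k).e i 0 0 * f * (T.D k).e i 0 0
      γ / 2 - Real.sqrt δ - δ ≤ (τ (star (v i) * v i * B)).re ∧
        (τ (star (v i) * v i * B - star (v i) * v i * (B * B))).re ≤ 7 * δ ∧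
        (τ (F * F)).re ≤ δ) :
    ∀ i, ∃ Si : A, ‖Si‖ ≤ 2 ∧
      ‖(T.D k).e i 0 0 * (star Si * (T.D k).e i 0 0 * Si - f) * (T.D k).e i 0 0‖ ≤ 7 * ε ∧
      ‖(T.D k).e i 0 0 * ((1 - b) * (T.D k).e i 0 0 * Si) * (T.D k).e i 0 0‖ ≤ 5 * ε := by
  classical
  let B₀ := fun i => (T.D k).e i 0 0 * b * (T.D k).e i 0 0
  let F₀ := fun i => (T.D k).e i 0 0 * f * (T.D k).e i 0 0
  let y : Fin (T.D k).m × Fin 3 → A := fun it =>
    ![star (v it.1) * v it.1 * B₀ it.1,
      star (v it.1) * v it.1 * B₀ it.1 - star (v it.1) * v it.1 * (B₀ it.1 * B₀ it.1),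
      F₀ it.1 * F₀ it.1] it.2
  have hZex : ∀ (L : ℕ) (i : Fin (T.D k).m), ∃ Z : (T.D L).Mat,
      k ≤ L → (T.D L).hom Z = (T.D k).e i 0 0 ∧ star Z = Z ∧ Z * Z = Z := by
    intro L i
    rcases le_or_gt k L with h | h
    · obtain ⟨Z, hZ⟩ := T.exists_corner h i
      exact ⟨Z, fun _ => hZ⟩
    · exact ⟨0, fun h' => absurd h' (not_le.2 h)⟩
  choose Z hZ using hZex
  choose Mv hMv using fun i => T.exists_approx (v i)
  obtain ⟨Mb, hMb⟩ := T.exists_approx b
  obtain ⟨Mf, hMf⟩ := T.exists_approx f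
  let Bm : ∀ (L : ℕ), Fin (T.D k).m → (T.D L).Mat := fun L i =>
    Z L i * ((1 / 2 : ℂ) • (Mb L + star (Mb L))) * Z L i
  let Fm : ∀ (L : ℕ), Fin (T.D k).m → (T.D L).Mat := fun L i =>
    Z L i * ((1 / 2 : ℂ) • (Mf L + star (Mf L))) * Z L i
  let M : ∀ (L : ℕ), Fin (T.D k).m × Fin 3 → (T.D L).Mat := fun L it =>
    ![star (Mv it.1 L) * Mv it.1 L * Bm L it.1,
      star (Mv it.1 L) * Mv it.1 L * Bm L it.1 -
        star (Mv it.1 L) * Mv it.1 L * (Bm L it.1 * Bm L it.1),
      Fm L it.1 * Fm L it.1] it.2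
  have hZt : ∀ i, Tendsto (fun L => (T.D L).hom (Z L i)) atTop (𝓝 ((T.D k).e i 0 0)) := fun i =>
    tendsto_const_nhds.congr' ((eventually_ge_atTop k).mono fun L hL => ((hZ L i hL).1).symm)
  have hsym : ∀ (c : A) (Mc : ∀ L, (T.D L).Mat), star c = c →
      Tendsto (fun L => (T.D L).hom (Mc L)) atTop (𝓝 c) →
      Tendsto (fun L => (T.D L).hom ((1 / 2 : ℂ) • (Mc L + star (Mc L)))) atTop (𝓝 c) := by
    intro c Mc hc h
    have h2 := (h.add h.star).const_smul (1 / 2 : ℂ)
    rw [hc, ← two_smul ℂ c, smul_smul, one_div, inv_mul_cancel₀ two_ne_zero, one_smul,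
      ← one_div] at h2
    simpa [map_add, map_star, map_smul] using h2
  have hBt : ∀ i, Tendsto (fun L => (T.D L).hom (Bm L i)) atTop
      (𝓝 ((T.D k).e i 0 0 * b * (T.D k).e i 0 0)) := fun i => by
    have h := ((hZt i).mul (hsym b Mb hbs hMb)).mul (hZt i)
    simpa only [Bm, map_mul] using h
  have hFt : ∀ i, Tendsto (fun L => (T.D L).hom (Fm L i)) atTop
      (𝓝 ((T.D k).e i 0 0 * f * (T.D k).e i 0 0)) := fun i => by
    have h := ((hZt i).mul (hsym f Mf hfs hMf)).mul (hZt i)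
    simpa only [Fm, map_mul] using h
  have hMt : ∀ it, Tendsto (fun L => (T.D L).hom (M L it)) atTop (𝓝 (y it)) := by
    rintro ⟨i, t⟩
    have hw : Tendsto (fun L => (T.D L).hom (star (Mv i L) * Mv i L)) atTop
        (𝓝 (star (v i) * v i)) := by
      simpa only [map_mul, map_star] using (hMv i).star.mul (hMv i)
    fin_cases t
    · refine (hw.mul (hBt i)).congr fun L => ?_
      exact (map_mul (T.D L).hom _ _).symm
    · refine ((hw.mul (hBt i)).sub (hw.mul ((hBt i).mul (hBt i)))).congr fun L => ?_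
      simp only [← map_mul, ← map_sub]
      rfl
    · refine ((hFt i).mul (hFt i)).congr fun L => ?_
      exact (map_mul (T.D L).hom _ _).symm
  obtain ⟨L, hkL, hLtr, hLM, hLB, hLF, hLP⟩ := ((eventually_ge_atTop k).and
    ((T.eventually_trace y hν).and
    ((eventually_all.2 fun it => Metric.tendsto_nhds.1 (hMt it) ν hν).and
    ((eventually_all.2 fun i => Metric.tendsto_nhds.1 (hBt i) ν hν).and
    ((eventually_all.2 fun i => Metric.tendsto_nhds.1 (hFt i) ν hν).and
    (eventually_all.2 fun i => (hMv i).norm.eventually_le_const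
      (show ‖v i‖ < 7 / 5 by rw [hvn i]; norm_num))))))).exists
  have hfac : ∀ i, ∃ Si : A, ‖Si‖ ≤ 2 ∧
      ‖(T.D k).e i 0 0 * (star Si * (T.D k).e i 0 0 * Si - f) * (T.D k).e i 0 0‖ ≤ 7 * ε ∧
      ‖(T.D k).e i 0 0 * ((1 - b) * (T.D k).e i 0 0 * Si) * (T.D k).e i 0 0‖ ≤ 5 * ε := by
    intro i
    have hs := Real.sq_sqrt hδ.le
    have hsd : Real.sqrt δ ≤ ν / 10 := by
      rw [Real.sqrt_le_left (by positivity)]
      linarith [show (ν / 10) ^ 2 = ν ^ 2 / 100 by ring]
    obtain ⟨hZ1, hZ2, hZ3⟩ := hZ L i hkL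
    have hsa : ∀ Mc : (T.D L).Mat,
        IsSelfAdjoint (Z L i * ((1 / 2 : ℂ) • (Mc + star Mc)) * Z L i) := fun Mc => by
      rw [isSelfAdjoint_iff]
      simp [star_mul, hZ2, mul_assoc, add_comm]
    have hbt : ∀ (t : Fin 3) (j : Fin (T.D L).m), ∃ τ, IsTraceOn (⊤ : StarSubalgebra ℂ A) τ ∧
        |(blockTrace (T.D L) j (M L (i, t))).re - (τ (y (i, t))).re| ≤ 2 * ν := by
      intro t j
      obtain ⟨τ, hτ, hj⟩ := hLtr j
      refine ⟨τ, hτ, ?_⟩
      rw [← Complex.sub_re]
      refine (Complex.abs_re_le_norm _).trans ((hj (i, t) _).trans ?_)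
      have := hLM (i, t)
      rw [dist_eq_norm] at this
      linarith
    refine exists_corner_factor (T.D L) (P := Mv i L) (Bm := Bm L i) (Fm := Fm L i) hε
      hεone hγ hν.le hν1 (by rw [hνdef]; linarith) hZ1 (hz i) (hz1n i) (hsa _) (hsa _) ?_
      ?_ ?_ (hzb i) (hzf i) ?_ ?_ ?_ ?_
    · simp only [Bm, ← mul_assoc, hZ3]
    · exact le_of_lt (by simpa [dist_eq_norm] using hLB i)
    · exact le_of_lt (by simpa [dist_eq_norm] using hLF i)
    · nlinarith [hLP i, norm_nonneg ((T.D L).hom (Mv i L))]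
    · intro j
      obtain ⟨τ, hτ, hd⟩ := hbt 0 j
      have he := (htr i τ hτ).1
      simp only [M, y, B₀, F₀, Matrix.cons_val_zero] at hd
      linarith [(abs_le.1 hd).1]
    · intro j
      obtain ⟨τ, hτ, hd⟩ := hbt 1 j
      have he := (htr i τ hτ).2.1
      simp only [M, y, B₀, F₀, Matrix.cons_val_one, Matrix.cons_val_zero] at hd
      linarith [(abs_le.1 hd).2]
    · intro j
      obtain ⟨τ, hτ, hd⟩ := hbt 2 j
      have he := (htr i τ hτ).2.2
      simp only [M, y, B₀, F₀, Matrix.cons_val_two, Matrix.tail_cons, Matrix.head_cons] at hd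
      linarith [(abs_le.1 hd).2]
  exact hfac

/-- The diagonal sum of the corner factors works. -/
theorem dsum_factors {A : Type*} [CStarAlgebra A] [PartialOrder A] [StarOrderedRing A] (D : MU A)
    {x p : A} (Si : Fin D.m → A) {ε δ η η' : ℝ} (hx : ‖x‖ ≤ 1) (hη' : 0 < η') (hη'1 : η' ≤ 1)
    (hη'η : η' ≤ η) (hεdef : ε = η' ^ 2 / 32) (hδ : 0 < δ) (hδε : δ ≤ ε / 16)
    (hδN : (D.size : ℝ) * (4 * δ) ≤ ε) (hps : star p = p) (hpn : ‖p‖ ≤ 1) (hp0 : 0 ≤ p)
    (hp1 : p ≤ 1) (hbp : p * (star x * x) * p ≤ p) (hxp : ‖x * p - p * x‖ ≤ δ)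
    (hfn : ‖1 - sq2 x‖ ≤ 1)
    (hfc : ∀ i a c, ‖(1 - sq2 x) * D.e i a c - D.e i a c * (1 - sq2 x)‖ ≤ 4 * δ)
    (hbc : ∀ i a c, ‖(1 - p * (star x * x) * p) * D.e i a c
      - D.e i a c * (1 - p * (star x * x) * p)‖ ≤ 4 * δ)
    (hSn : ∀ i, ‖Si i‖ ≤ 2)
    (hSf : ∀ i, ‖D.e i 0 0 * (star (Si i) * D.e i 0 0 * Si i - (1 - sq2 x)) * D.e i 0 0‖ ≤ 7 * ε)
    (hSb : ∀ i, ‖D.e i 0 0 * ((1 - p * (star x * x) * p) * D.e i 0 0 * Si i) * D.e i 0 0‖
      ≤ 5 * ε) :
    ‖D.dsum Si‖ ≤ 1 + η ∧ D.Commutes (D.dsum Si) ∧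
      ‖star (D.dsum Si) * D.dsum Si - (1 - sq2 x)‖ ≤ η ∧ ‖p * D.dsum Si - D.dsum Si‖ ≤ η ∧
      ‖star x * x * D.dsum Si - D.dsum Si‖ ≤ η := by
  set e := star x * x with hedef
  set f := 1 - sq2 x with hfdef
  set b := p * e * p with hbdef
  have he0 : 0 ≤ e := star_mul_self_nonneg x
  have he1 : e ≤ 1 := star_mul_self_le_one hx
  have hε : 0 < ε := by rw [hεdef]; positivity
  have hε1 : ε ≤ η' / 32 := by rw [hεdef]; nlinarith
  have hz : ∀ i, ‖D.e i 0 0‖ ≤ 1 := fun i => D.norm_e_le i 0 0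
  set s := D.dsum Si
  have hs2 : ‖s‖ ≤ 2 := D.norm_dsum_le Si (by norm_num) fun i =>
    (norm_mul_le _ _).trans ((mul_le_of_le_one_right (norm_nonneg _) (hz i)).trans
      ((norm_mul_le _ _).trans ((mul_le_of_le_one_left (norm_nonneg _) (hz i)).trans (hSn i))))
  have hd1 : ‖star s * s - f‖ ≤ 8 * ε := by
    have e : star s * s - f
        = D.dsum (fun i => star (Si i) * D.e i 0 0 * Si i - f) + (D.dsum (fun _ => f) - f) := by
      simp only [s, D.star_dsum, D.dsum_mul_dsum, ← D.dsum_sub]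
      abel
    rw [e]
    refine (norm_add_le _ _).trans ?_
    have a1 := D.norm_dsum_le _ (show 0 ≤ 7 * ε by positivity) hSf
    have a2 := (D.norm_dsum_sub_le f hfc).trans hδN
    linarith
  have hd2 : ‖(1 - b) * s‖ ≤ 7 * ε := by
    have e : (1 - b) * s = D.dsum (fun i => (1 - b) * D.e i 0 0 * Si i)
        - (D.dsum (fun _ => 1 - b) - (1 - b)) * s := by
      rw [sub_mul (D.dsum _) (1 - b) s]
      simp only [s, D.dsum_mul_dsum]
      abel
    rw [e]
    refine (norm_sub_le _ _).trans ?_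
    have a1 := D.norm_dsum_le _ (show 0 ≤ 5 * ε by positivity) hSb
    have a2 := (norm_mul_le (D.dsum (fun _ => 1 - b) - (1 - b)) s).trans
      (mul_le_mul ((D.norm_dsum_sub_le (1 - b) hbc).trans hδN) hs2 (norm_nonneg _) hε.le)
    linarith
  have hsb : ‖star s * (1 - b) * s‖ ≤ 14 * ε := by
    rw [mul_assoc]
    refine (norm_mul_le _ _).trans ?_
    rw [norm_star]
    nlinarith [norm_nonneg ((1 - b) * s), norm_nonneg s]
  refine ⟨?_, D.dsum_commutes _, ?_, ?_, ?_⟩
  · have : ‖s‖ * ‖s‖ ≤ 1 + 8 * ε := by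
      rw [← CStarRing.norm_star_mul_self]
      linarith [norm_le_norm_sub_add (star s * s) f]
    nlinarith [norm_nonneg s]
  · linarith
  · have h := norm_one_sub_mul_sq_le s hp0 hp1
    have h2 : star s * (1 - p) * s ≤ star s * (1 - b) * s :=
      star_left_conjugate_le_conjugate (sub_le_sub_left hbp _) s
    have h3 := CStarAlgebra.norm_le_norm_of_nonneg_of_le
      (star_left_conjugate_nonneg (sub_nonneg.2 hp1) s) h2
    rw [show p * s - s = -((1 - p) * s) by noncomm_ring, norm_neg]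
    nlinarith [norm_nonneg ((1 - p) * s)]
  · set c := star (p * x) * (p * x) with hcdef
    have hc : c ≤ e := by
      have h := star_left_conjugate_le_conjugate (star_mul_self_le_one hpn) x
      rw [mul_one] at h
      rw [hcdef, star_mul]
      simpa [mul_assoc] using h
    have hcb : ‖c - b‖ ≤ 2 * δ := by
      have e1 : c - b = (star (p * x) - star (x * p)) * (p * x)
          + star (x * p) * (p * x - x * p) := by
        rw [hcdef, hbdef, hedef, show p * (star x * x) * p = star (x * p) * (x * p) by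
          rw [star_mul, hps]; simp only [mul_assoc]]
        noncomm_ring
      have hd := hxp
      rw [norm_sub_rev] at hd
      rw [e1, ← star_sub]
      refine (norm_add_le _ _).trans ?_
      have a1 := (norm_mul_le (star (p * x - x * p)) (p * x)).trans
        (mul_le_mul (by rwa [norm_star]) ((norm_mul_le _ _).trans
          (mul_le_one₀ hpn (norm_nonneg _) hx)) (norm_nonneg _) hδ.le)
      have a2 := (norm_mul_le (star (x * p)) (p * x - x * p)).trans
        (mul_le_mul (show ‖star (x * p)‖ ≤ 1 by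
          rw [norm_star]; exact (norm_mul_le _ _).trans (mul_le_one₀ hx (norm_nonneg _) hpn))
          hd (norm_nonneg _) zero_le_one)
      linarith
    have h := norm_one_sub_mul_sq_le s he0 he1
    have h2 : star s * (1 - e) * s ≤ star s * (1 - c) * s :=
      star_left_conjugate_le_conjugate (sub_le_sub_left hc _) s
    have h3 := CStarAlgebra.norm_le_norm_of_nonneg_of_le
      (star_left_conjugate_nonneg (sub_nonneg.2 he1) s) h2
    have h4 : ‖star s * (1 - c) * s‖ ≤ 14 * ε + 4 * (2 * δ) := by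
      rw [show star s * (1 - c) * s = star s * (1 - b) * s - star s * (c - b) * s by noncomm_ring]
      refine (norm_sub_le _ _).trans (add_le_add hsb ?_)
      refine (norm_mul_le _ _).trans ?_
      have := (norm_mul_le (star s) (c - b)).trans (mul_le_mul (by rwa [norm_star]) hcb
        (norm_nonneg _) (by norm_num : (0 : ℝ) ≤ 2))
      nlinarith [norm_nonneg (star s * (c - b)), norm_nonneg s]
    rw [show e * s - s = -((1 - e) * s) by noncomm_ring, norm_neg]
    nlinarith [norm_nonneg ((1 - e) * s)]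


theorem comparePin : ComparePin.{u} := by
  intro A _ _ T k q hq hqc hu η hη
  let := CStarAlgebra.spectralOrder A
  have := CStarAlgebra.spectralOrderedRing A
  classical
  set D := T.D k
  set p := star q * q with hpdef
  have hps : star p = p := by simp [hpdef]
  have hp0 : 0 ≤ p := star_mul_self_nonneg q
  have hp1 : p ≤ 1 := star_mul_self_le_one hq
  have hpn : ‖p‖ ≤ 1 := by
    rw [hpdef, CStarRing.norm_star_mul_self]
    exact mul_le_one₀ hq (norm_nonneg q) hq
  choose u hu0 hzu hpu using hu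
  let v : Fin D.m → A := fun i => star (((‖u i‖⁻¹ : ℝ) : ℂ) • u i)
  have hvn : ∀ i, ‖v i‖ = 1 := fun i => by
    simp only [v, norm_star, norm_smul, Complex.norm_real, norm_inv, norm_norm]
    exact inv_mul_cancel₀ (norm_ne_zero_iff.2 (hu0 i))
  have hzv : ∀ i, D.e i 0 0 * star (v i) = star (v i) := fun i => by
    simp only [v, star_star, mul_smul_comm, D]
    rw [hzu i]
  have hpv : ∀ i, p * star (v i) = star (v i) := fun i => by
    simp only [v, star_star, mul_smul_comm, hpdef]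
    rw [hpu i]
  have hv0 : ∀ i, v i ≠ 0 := fun i h => by simpa [h] using hvn i
  have : Nonempty (Fin D.m) := ⟨⟨0, D.m_pos⟩⟩
  choose γ₀ hγ₀ hγτ using fun i => exists_pos_le_tsq (hv0 i)
  obtain ⟨γ, hγ, hγ1, hγi⟩ : ∃ γ > (0 : ℝ), γ ≤ 1 ∧ ∀ i, γ ≤ γ₀ i :=
    ⟨min 1 (Finset.univ.inf' Finset.univ_nonempty γ₀),
      lt_min one_pos ((Finset.lt_inf'_iff _).2 fun i _ => hγ₀ i), min_le_left _ _,
      fun i => (min_le_right _ _).trans (Finset.inf'_le _ (Finset.mem_univ i))⟩
  obtain ⟨η', hη', hη'1, hη'η⟩ : ∃ η' > (0 : ℝ), η' ≤ 1 ∧ η' ≤ η :=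
    ⟨min 1 η, lt_min one_pos hη, min_le_left _ _, min_le_right _ _⟩
  set ε := η' ^ 2 / 32 with hεdef
  have hε : 0 < ε := by positivity
  have hε1 : ε ≤ η' / 32 := by rw [hεdef]; nlinarith
  set ν := ε ^ 2 * γ / 1000 with hνdef
  have hν : 0 < ν := by positivity
  have hε2 : ε ^ 2 ≤ ε := by nlinarith
  have hν1 : ν ≤ ε / 4 := by
    rw [hνdef]
    nlinarith
  have hνγ : ν ≤ γ / 1000 := by
    rw [hνdef]
    nlinarith
  set N : ℝ := (D.size : ℝ) with hNdef
  set δ := ν ^ 2 / (100 * (N + 1)) with hδdef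
  have hN : 0 ≤ N := by positivity
  have hδ : 0 < δ := by positivity
  have hδν : δ ≤ ν ^ 2 / 100 := by
    rw [hδdef]
    gcongr
    linarith
  have hδν' : δ ≤ ν / 100 := hδν.trans (by nlinarith)
  have hδN : N * (4 * δ) ≤ ε := by
    have e : δ * (100 * (N + 1)) = ν ^ 2 := div_mul_cancel₀ _ (by positivity)
    nlinarith
  let S : Finset A := (Finset.univ.image
    fun s : Σ i : Fin D.m, Fin (D.d i + 1) × Fin (D.d i + 1) => D.e s.1 s.2.1 s.2.2)
    ∪ insert p (Finset.univ.image fun i => star (v i) * v i)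
  refine ⟨S, δ, hδ, fun x hx hxS hxx hxT => ?_⟩
  have hS1 : ∀ i a b, D.e i a b ∈ S := fun i a b => Finset.mem_union_left _
    (Finset.mem_image.2 ⟨⟨i, a, b⟩, Finset.mem_univ _, rfl⟩)
  have hS2 : p ∈ S := Finset.mem_union_right _ (Finset.mem_insert_self _ _)
  have hS3 : ∀ i, star (v i) * v i ∈ S := fun i => Finset.mem_union_right _
    (Finset.mem_insert_of_mem (Finset.mem_image.2 ⟨i, Finset.mem_univ _, rfl⟩))
  have hstarS : ∀ a, star a ∈ S → ‖star x * a - a * star x‖ ≤ δ := fun a ha => by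
    have h := hxS (star a) ha
    rw [← norm_star, star_sub, star_mul, star_mul, star_star, norm_sub_rev] at h
    exact h
  set e := star x * x with hedef
  set f := 1 - sq2 x with hfdef
  set b := p * e * p with hbdef
  have he0 : 0 ≤ e := star_mul_self_nonneg x
  have he1 : e ≤ 1 := star_mul_self_le_one hx
  have hb0 : 0 ≤ b := by
    have := star_left_conjugate_nonneg he0 p
    rwa [hps] at this
  have hbp : b ≤ p := by
    have h := star_left_conjugate_le_conjugate he1 p
    rw [hps, mul_one] at h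
    have h2 : 0 ≤ (1 - p) * p :=
      Commute.mul_nonneg (sub_nonneg.2 hp1) hp0 ((Commute.one_left p).sub_left (Commute.refl p))
    rw [sub_mul, one_mul, sub_nonneg] at h2
    exact h.trans h2
  have hb1 : b ≤ 1 := hbp.trans hp1
  have hsq := norm_sq2_le hx hxx
  have hsq0 : 0 ≤ sq2 x := add_nonneg (star_mul_self_nonneg x) (mul_star_self_nonneg x)
  have hsqle : sq2 x ≤ algebraMap ℝ A (1 + 2 * δ) :=
    (IsSelfAdjoint.of_nonneg hsq0).le_algebraMap_norm_self.trans (algebraMap_mono A hsq)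
  have hf1 : f ≤ algebraMap ℝ A 1 := by
    rw [map_one, hfdef]
    exact sub_le_self _ hsq0
  have hf0 : algebraMap ℝ A (-(2 * δ)) ≤ f := by
    rw [hfdef, show -(2 * δ) = 1 - (1 + 2 * δ) by ring, map_sub, map_one]
    exact sub_le_sub_left hsqle _
  have hfs : star f = f := by simp [hfdef, sq2]
  have hfn : ‖f‖ ≤ 1 := by
    have h := norm_sub_mid_le (by linarith) hf0 hf1
    have h' : ‖algebraMap ℝ A ((-(2 * δ) + 1) / 2)‖ ≤ (-(2 * δ) + 1) / 2 := by
      rw [norm_algebraMap', Real.norm_of_nonneg (by nlinarith)]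
    linarith [norm_le_norm_sub_add f (algebraMap ℝ A ((-(2 * δ) + 1) / 2))]
  have hbs : star b = b := (IsSelfAdjoint.of_nonneg hb0).star_eq
  -- commutators with the matrix units
  have hunits : ∀ i a b, D.e i a b ∈ S ∧ star (D.e i a b) ∈ S :=
    fun i a b => ⟨hS1 i a b, by rw [D.star_e]; exact hS1 i b a⟩
  have hfc : ∀ i a c, ‖f * D.e i a c - D.e i a c * f‖ ≤ 4 * δ := by
    intro i a c
    obtain ⟨h1, h2⟩ := norm_comm_squares hx (hxS _ (hunits i a c).1) (hstarS _ (hunits i a c).2)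
    rw [← hedef] at h1
    rw [show f * D.e i a c - D.e i a c * f = -((e * D.e i a c - D.e i a c * e)
      + (x * star x * D.e i a c - D.e i a c * (x * star x))) by
        rw [hfdef, sq2, hedef]; noncomm_ring, norm_neg]
    exact (norm_add_le _ _).trans (by linarith)
  have hbc : ∀ i a c, ‖(1 - b) * D.e i a c - D.e i a c * (1 - b)‖ ≤ 4 * δ := by
    intro i a c
    obtain ⟨h1, -⟩ := norm_comm_squares hx (hxS _ (hunits i a c).1) (hstarS _ (hunits i a c).2)
    rw [← hedef] at h1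
    have hpe : Commute p (D.e i a c) := hqc i a c
    rw [show (1 - b) * D.e i a c - D.e i a c * (1 - b) = -(p * e * (p * D.e i a c)
      - (D.e i a c * p) * e * p) by rw [hbdef]; noncomm_ring, norm_neg, hpe.eq, ← hpe.eq,
      show p * e * (p * D.e i a c) - p * D.e i a c * e * p
        = p * e * (D.e i a c * p) - p * D.e i a c * e * p by rw [hpe.eq],
      show p * e * (D.e i a c * p) - p * D.e i a c * e * p
        = p * (e * D.e i a c - D.e i a c * e) * p by noncomm_ring]
    refine (norm_mul_le _ _).trans ((mul_le_of_le_one_right (norm_nonneg _) hpn).trans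
      ((norm_mul_le _ _).trans ((mul_le_of_le_one_left (norm_nonneg _) hpn).trans ?_)))
    linarith
  -- the corners
  have hz : ∀ i, star (D.e i 0 0) = D.e i 0 0 ∧ D.e i 0 0 * D.e i 0 0 = D.e i 0 0 ∧
      ‖D.e i 0 0‖ ≤ 1 := fun i => ⟨D.star_e i 0 0, D.mul_eq i 0 0 0, D.norm_e_le i 0 0⟩
  have hz0 : ∀ i, 0 ≤ D.e i 0 0 := fun i => by
    have h := star_mul_self_nonneg (D.e i 0 0)
    rwa [(hz i).1, (hz i).2.1] at h
  have hz1 : ∀ i, D.e i 0 0 ≤ 1 := fun i => by
    have h := star_mul_self_le_one (hz i).2.2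
    rwa [(hz i).1, (hz i).2.1] at h
  have hconj : ∀ i (y y' : A), y ≤ y' →
      D.e i 0 0 * y * D.e i 0 0 ≤ D.e i 0 0 * y' * D.e i 0 0 := fun i y y' h => by
    have := star_left_conjugate_le_conjugate h (D.e i 0 0)
    rwa [(hz i).1] at this
  have hzb : ∀ i, ‖D.e i 0 0 * b * D.e i 0 0 - algebraMap ℝ A (1 / 2)‖ ≤ 1 / 2 := by
    intro i
    have h := norm_sub_mid_le (a := D.e i 0 0 * b * D.e i 0 0) (l := 0) (u := 1) zero_le_one
      (by simpa using hconj i 0 b hb0) (by
        rw [map_one]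
        refine (hconj i b 1 hb1).trans ?_
        rw [mul_one, (hz i).2.1]
        exact hz1 i)
    simpa using h
  have hzf : ∀ i, ‖D.e i 0 0 * f * D.e i 0 0 - algebraMap ℝ A (1 / 2)‖ ≤ 1 / 2 + ν := by
    intro i
    have h := norm_sub_mid_le (a := D.e i 0 0 * f * D.e i 0 0) (l := -(2 * δ)) (u := 1)
      (by linarith) (by
        refine le_trans ?_ (hconj i _ f hf0)
        rw [Algebra.algebraMap_eq_smul_one, mul_smul_comm, mul_one, smul_mul_assoc, (hz i).2.1]
        exact smul_le_smul_of_nonpos_left (hz1 i) (by linarith)) (by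
        refine (hconj i f _ hf1).trans ?_
        rw [map_one, mul_one, (hz i).2.1]
        exact hz1 i)
    have h' : ‖algebraMap ℝ A ((-(2 * δ) + 1) / 2) - algebraMap ℝ A (1 / 2)‖ ≤ δ := by
      rw [← map_sub, norm_algebraMap', Real.norm_eq_abs, abs_le]
      constructor <;> linarith
    have := norm_sub_le_norm_sub_add_norm_sub (D.e i 0 0 * f * D.e i 0 0)
      (algebraMap ℝ A ((-(2 * δ) + 1) / 2)) (algebraMap ℝ A (1 / 2))
    linarith
  have hz1n : ∀ i, ‖(1 : A) - D.e i 0 0‖ ≤ 1 := fun i => by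
    refine (CStarAlgebra.norm_le_norm_of_nonneg_of_le (sub_nonneg.2 (hz1 i))
      (sub_le_self _ (hz0 i))).trans_eq norm_one
  have hfac := exists_corner_factors T k v b f (δ := δ) hε (by linarith) hγ hν hν1 hνdef hνγ hδ hδν
    hδν' hbs hfs hvn hz hz1n hzb hzf fun i τ hτ =>
      trace_estimates hτ hx (hvn i).le (hz i) ⟨hps, hpn⟩ (hzv i) (hpv i) (hqc i 0 0).eq
        (by
          rintro a (rfl | rfl | rfl)
          · exact ⟨hxS _ hS2, hstarS _ (by rw [hps]; exact hS2)⟩
          · exact ⟨hxS _ (hS1 i 0 0), hstarS _ (hunits i 0 0).2⟩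
          · exact ⟨hxS _ (hS3 i), hstarS _ (by simpa using hS3 i)⟩)
        hxT ((hγi i).trans (hγτ i τ hτ))
  choose Si hSn hSf hSb using hfac
  exact ⟨D.dsum Si, dsum_factors D Si hx hη' hη'1 hη'η hεdef hδ (by linarith) hδN hps hpn hp0 hp1
    hbp (hxS p hS2) hfn hfc hbc hSn hSf hSb⟩

end Vale.Agent.P095.SI
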