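import Vale.Agent.P095.SI.EventBasic

/-!
P095, equivariant (SI) step, block B2: an average of moved central elements, almost commuting
with its translate and still moved.
-/

namespace Vale.Agent.P095.SI

variable {A : Type*} [CStarAlgebra A] {G : Type*} [Group G]

/-- A window, one at zero. -/
noncomputable def win (ρ t : ℝ) : ℝ := max 0 (1 - |t| / ρ)

/-- A plateau over the window. -/
noncomputable def cover (ρ t : ℝ) : ℝ := max 0 (min 1 (2 - |t| / ρ))

@[fun_prop]
lemma continuous_win (ρ : ℝ) : Continuous (win ρ) := by unfold win; fun_prop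

@[fun_prop]
lemma continuous_cover (ρ : ℝ) : Continuous (cover ρ) := by unfold cover; fun_prop

lemma win_zero (ρ : ℝ) : win ρ 0 = 1 := by simp [win]

lemma abs_win_le {ρ : ℝ} (hρ : 0 < ρ) (t : ℝ) : |win ρ t| ≤ 1 := by
  have : 0 ≤ |t| / ρ := by positivity
  rw [win, abs_of_nonneg (le_max_left _ _)]
  exact max_le zero_le_one (by linarith)

lemma cover_mul_win {ρ : ℝ} (t : ℝ) : cover ρ t * win ρ t = win ρ t := by
  rcases le_or_gt (|t| / ρ) 1 with h | h
  · rw [cover, min_eq_left (by linarith), max_eq_right zero_le_one, one_mul]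
  · rw [show win ρ t = 0 from max_eq_left (by linarith), mul_zero]

lemma abs_mul_cover_le {ρ : ℝ} (hρ : 0 < ρ) (t : ℝ) : |t * cover ρ t| ≤ 2 * ρ := by
  rcases le_or_gt |t| (2 * ρ) with h | h
  · have h1 : |cover ρ t| ≤ 1 := by
      rw [cover, abs_of_nonneg (le_max_left _ _)]
      exact max_le zero_le_one (min_le_left _ _)
    rw [abs_mul]
    exact (mul_le_of_le_one_right (abs_nonneg t) h1).trans h
  · have h1 : 2 < |t| / ρ := (lt_div_iff₀ hρ).2 h
    have h2 : cover ρ t = 0 := max_eq_left ((min_le_right _ _).trans (by linarith))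
    rw [h2, mul_zero, abs_zero]
    positivity

/-- Near a spectral value there is a vector-like element on which the element acts as a scalar. -/
lemma exists_window [Nontrivial A] {ρ : ℝ} (hρ : 0 < ρ) {c : A} (hc : IsSelfAdjoint c) {t : ℝ}
    (ht : t ∈ spectrum ℝ c) :
    ∃ Z : A, (c - t • 1) * cfc (fun y => win ρ (y - t)) c = Z * cfc (fun y => win ρ (y - t)) c ∧
      ‖Z‖ ≤ 2 * ρ ∧ ‖cfc (fun y => win ρ (y - t)) c‖ = 1 := by
  refine ⟨cfc (fun y => (y - t) * cover ρ (y - t)) c, ?_, ?_, ?_⟩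
  · have e : c - t • (1 : A) = cfc (fun y => y - t) c := by
      rw [cfc_sub (fun y : ℝ => y) (fun _ => t) c, cfc_id' ℝ c, cfc_const t c,
        Algebra.algebraMap_eq_smul_one]
    rw [e, ← cfc_mul (fun y => y - t) (fun y => win ρ (y - t)) c,
      ← cfc_mul (fun y => (y - t) * cover ρ (y - t)) (fun y => win ρ (y - t)) c]
    refine cfc_congr fun y _ => ?_
    simp only [mul_assoc, cover_mul_win]
  · exact norm_cfc_le (by positivity) fun y _ => by simpa using abs_mul_cover_le hρ (y - t)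
  · exact norm_cfc_eq_one (by fun_prop) (fun y => abs_win_le hρ _) hc ht (by simp [win_zero])

/-- A central element adds its norm, up to a sign, to the norm of a given element. -/
lemma exists_grow [IsSimpleRing A] [Nontrivial A] {Y : A} (hY : IsSelfAdjoint Y) {ρ : ℝ}
    (hρ : 0 < ρ) :
    ∃ (S : Finset A) (δ : ℝ), 0 < δ ∧ ∀ c : A, IsSelfAdjoint c → ‖c‖ ≤ 2 → Central S δ c →
      ‖Y‖ + ‖c‖ - ρ ≤ max ‖Y + c‖ ‖Y - c‖ := by
  classical
  obtain ⟨s, hs, hsY⟩ := exists_abs_eq_norm hY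
  obtain ⟨Z, hZk, hZ, hk1⟩ := exists_window (show 0 < ρ / 8 by positivity) hY hs
  set k := cfc (fun y => win (ρ / 8) (y - s)) Y with hk
  have hk0 : k ≠ 0 := fun h => by rw [h, norm_zero] at hk1; exact zero_ne_one hk1
  obtain ⟨S₁, γ, δ₁, hγ, hδ₁, hlow⟩ := exists_lower hk0
  set δ₂ := min δ₁ (ρ * γ / 8) with hδ₂
  have hδ₂0 : 0 < δ₂ := lt_min hδ₁ (by positivity)
  obtain ⟨δ₃, hδ₃, hmod⟩ := exists_central_modulus (A := A) (continuous_win (ρ / 8))
    (show (0 : ℝ) ≤ 4 by norm_num) (insert Z (insert Y S₁)) hδ₂0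
  refine ⟨insert Z (insert Y S₁), δ₃, hδ₃, fun c hc hc2 hcS => ?_⟩
  obtain ⟨t, ht, htc⟩ := exists_abs_eq_norm hc
  obtain ⟨Z', hZk', hZ', hk1'⟩ := exists_window (show 0 < ρ / 8 by positivity) hc ht
  set k' := cfc (fun y => win (ρ / 8) (y - t)) c with hk'
  have e : c - t • (1 : A) = cfc (fun y => y - t) c := by
    rw [cfc_sub (fun y : ℝ => y) (fun _ => t) c, cfc_id' ℝ c, cfc_const t c,
      Algebra.algebraMap_eq_smul_one]
  have hk'eq : k' = cfc (win (ρ / 8)) (c - t • 1) := by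
    rw [e, hk', cfc_comp' (win (ρ / 8)) (fun y => y - t) c]
  have hcsa : IsSelfAdjoint (c - t • (1 : A)) := by rw [e]; exact cfc_predicate _ c
  have hcn : ‖c - t • (1 : A)‖ ≤ 4 := by
    refine (norm_sub_le _ _).trans ?_
    rw [norm_smul, norm_one, mul_one, Real.norm_eq_abs, htc]
    linarith
  have hcC : Central (insert Z (insert Y S₁)) δ₃ (c - t • (1 : A)) := fun a ha => by
    simpa [sub_mul, mul_sub, smul_mul_assoc, mul_smul_comm] using hcS a ha
  have hk'C := hmod _ hcsa hcn hcC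
  rw [← hk'eq] at hk'C
  set v := k' * k with hv
  have hγv : γ ≤ ‖v‖ := hlow k' (hk'C.mono
    ((Finset.subset_insert _ _).trans (Finset.subset_insert _ _)) (min_le_left _ _)) hk1'
  have hv0 : 0 < ‖v‖ := hγ.trans_le hγv
  have hδv : 2 * δ₂ ≤ ρ / 4 * ‖v‖ :=
    le_trans (by linarith [min_le_right δ₁ (ρ * γ / 8)])
      (mul_le_mul_of_nonneg_left hγv (by positivity))
  have hkn : ‖k‖ ≤ 1 := hk1.le
  have hYv : ‖(Y - s • 1) * v‖ ≤ ρ / 2 * ‖v‖ := by
    have e1 : (Y - s • 1) * v = Z * v + (k' * Z - Z * k') * k + (Y * k' - k' * Y) * k := by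
      have e2 : (Y - s • 1) * v = k' * ((Y - s • 1) * k) + (Y * k' - k' * Y) * k := by
        simp only [hv, sub_mul, mul_sub, smul_mul_assoc, one_mul, mul_smul_comm, mul_assoc]
        abel
      rw [e2, hZk, hv]
      noncomm_ring
    have h2 : ∀ x : A, x ∈ insert Z (insert Y S₁) → ‖(k' * x - x * k') * k‖ ≤ δ₂ := fun x hx =>
      (norm_mul_le _ _).trans ((mul_le_of_le_one_right (norm_nonneg _) hkn).trans (hk'C x hx))
    rw [e1]
    refine (norm_add₃_le).trans ?_
    have h3 := (norm_mul_le Z v).trans (mul_le_mul_of_nonneg_right hZ (norm_nonneg v))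
    have h4 := h2 Z (Finset.mem_insert_self _ _)
    have h5 : ‖(Y * k' - k' * Y) * k‖ ≤ δ₂ := by
      rw [← neg_sub, neg_mul, norm_neg]
      exact h2 Y (Finset.mem_insert_of_mem (Finset.mem_insert_self _ _))
    linarith
  have hcv : ‖(c - t • 1) * v‖ ≤ ρ / 4 * ‖v‖ := by
    rw [hv, ← mul_assoc, hZk', mul_assoc]
    refine (norm_mul_le _ _).trans (mul_le_mul_of_nonneg_right ?_ (norm_nonneg _))
    linarith
  have key : ∀ r : ℝ, ∀ W : A, ‖(W - r • 1) * v‖ ≤ 3 * ρ / 4 * ‖v‖ → |r| - ρ ≤ ‖W‖ := by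
    intro r W hW
    have h1 : |r| * ‖v‖ ≤ ‖W‖ * ‖v‖ + 3 * ρ / 4 * ‖v‖ := by
      rw [← Real.norm_eq_abs, ← norm_smul,
        show r • v = W * v - (W - r • 1) * v by rw [sub_mul, smul_one_mul]; abel]
      exact (norm_sub_le _ _).trans (add_le_add (norm_mul_le _ _) hW)
    nlinarith
  have hp : |s + t| - ρ ≤ ‖Y + c‖ := key _ _ <| by
    rw [show (Y + c - (s + t) • 1) * v = (Y - s • 1) * v + (c - t • 1) * v by
      rw [add_smul, ← add_mul]; congr 1; abel]
    exact (norm_add_le _ _).trans (by linarith)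
  have hm : |s - t| - ρ ≤ ‖Y - c‖ := key _ _ <| by
    rw [show (Y - c - (s - t) • 1) * v = (Y - s • 1) * v - (c - t • 1) * v by
      rw [sub_smul, ← sub_mul]; congr 1; abel]
    exact (norm_sub_le _ _).trans (by linarith)
  rw [← hsY, ← htc]
  rcases le_total 0 s with h0 | h0 <;> rcases le_total 0 t with h1 | h1 <;>
    simp only [abs_of_nonneg, abs_of_nonpos, h0, h1, le_max_iff] <;>
    first
      | (left; linarith [le_abs_self (s + t), neg_abs_le (s + t)])
      | (right; linarith [le_abs_self (s - t), neg_abs_le (s - t)])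

/-- Outside the kernel, some self-adjoint central contraction is moved. -/
lemma exists_moved {α : G →* (A ≃⋆ₐ[ℂ] A)} {d : G} (hd : ¬ InKernel α d) :
    ∃ ε : ℝ, 0 < ε ∧ ∀ (S : Finset A) (δ : ℝ), 0 < δ →
      ∃ b : A, IsSelfAdjoint b ∧ ‖b‖ ≤ 1 ∧ Central S δ b ∧ ε ≤ ‖b - α d b‖ := by
  classical
  simp only [InKernel, not_forall, not_exists, not_and] at hd
  obtain ⟨ε, hε, hd⟩ := hd
  refine ⟨ε / 2, by positivity, fun S δ hδ => ?_⟩
  obtain ⟨x, hx, hxS, hxε⟩ : ∃ x : A, ‖x‖ ≤ 1 ∧ Central (S ∪ S.image star) δ x ∧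
      ε < ‖α d x - x‖ := by
    obtain ⟨x, hx1, hx2, hx3⟩ := hd (S ∪ S.image star) δ hδ
    exact ⟨x, hx1, hx2, not_le.1 hx3⟩
  have hxstar : ∀ a ∈ S, ‖star x * a - a * star x‖ ≤ δ := fun a ha => by
    have h := hxS (star a) (Finset.mem_union_right _ (Finset.mem_image_of_mem _ ha))
    rwa [← norm_star, star_sub, star_mul, star_mul, star_star, norm_sub_rev] at h
  set b₁ : A := (1 / 2 : ℂ) • (x + star x) with hb₁
  set b₂ : A := (Complex.I / 2) • (star x - x) with hb₂
  have h12 : x = b₁ + Complex.I • b₂ := by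
    rw [hb₁, hb₂, smul_smul,
      show Complex.I * (Complex.I / 2) = -(1 / 2 : ℂ) by
        rw [← mul_div_assoc, Complex.I_mul_I, neg_div],
      neg_smul, smul_sub, smul_add]
    module
  have hs₁ : IsSelfAdjoint b₁ := by
    simp [hb₁, isSelfAdjoint_iff, add_comm]
  have hs₂ : IsSelfAdjoint b₂ := by
    simp [hb₂, isSelfAdjoint_iff, neg_div, ← smul_neg]
  have hn₁ : ‖b₁‖ ≤ 1 := by
    rw [hb₁, norm_smul, show ‖(1 / 2 : ℂ)‖ = 1 / 2 by norm_num]
    linarith [norm_add_le x (star x), norm_star x]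
  have hn₂ : ‖b₂‖ ≤ 1 := by
    rw [hb₂, norm_smul, show ‖(Complex.I / 2)‖ = 1 / 2 by norm_num]
    linarith [norm_sub_le (star x) x, norm_star x]
  have hc : ∀ (c : ℂ) (y : A), ‖c‖ = 1 / 2 → (∀ a ∈ S, ‖y * a - a * y‖ ≤ 2 * δ) →
      Central S δ (c • y) := fun c y hc hy a ha => by
    rw [smul_mul_assoc, mul_smul_comm, ← smul_sub, norm_smul, hc]
    linarith [hy a ha]
  have hc₁ : Central S δ b₁ := hc _ _ (by norm_num) fun a ha => by
    rw [add_mul, mul_add, add_sub_add_comm, two_mul]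
    exact (norm_add_le _ _).trans
      (add_le_add (hxS a (Finset.mem_union_left _ ha)) (hxstar a ha))
  have hc₂ : Central S δ b₂ := hc _ _ (by norm_num) fun a ha => by
    rw [sub_mul, mul_sub, sub_sub_sub_comm, two_mul]
    exact (norm_sub_le _ _).trans
      (add_le_add (hxstar a ha) (hxS a (Finset.mem_union_left _ ha)))
  by_contra hne
  simp only [not_exists, not_and, not_le] at hne
  have h₁ := hne b₁ hs₁ hn₁ hc₁
  have h₂ := hne b₂ hs₂ hn₂ hc₂
  have : ‖α d x - x‖ ≤ ‖b₁ - α d b₁‖ + ‖b₂ - α d b₂‖ := by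
    clear_value b₁ b₂
    conv_lhs => rw [h12]
    rw [map_add, map_smul,
      show α d b₁ + Complex.I • α d b₂ - (b₁ + Complex.I • b₂)
        = -(b₁ - α d b₁) + Complex.I • -(b₂ - α d b₂) by rw [neg_sub, neg_sub, smul_sub]; abel]
    refine (norm_add_le _ _).trans (le_of_eq ?_)
    rw [norm_neg, norm_smul, Complex.norm_I, one_mul, norm_neg]
  linarith

/-- Sums of moved central elements: the commutator with the translate grows only linearly. -/
lemma exists_sum [IsSimpleRing A] [Nontrivial A] {α : G →* (A ≃⋆ₐ[ℂ] A)} {d : G} {ε : ℝ}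
    (hε : 0 < ε) (hmv : ∀ (S : Finset A) (δ : ℝ), 0 < δ →
      ∃ b : A, IsSelfAdjoint b ∧ ‖b‖ ≤ 1 ∧ Central S δ b ∧ ε ≤ ‖b - α d b‖)
    (n : ℕ) : ∀ (S : Finset A) (η : ℝ), 0 < η → ∃ X : A, IsSelfAdjoint X ∧ ‖X‖ ≤ n ∧
      Central S (n * η) X ∧ ‖X * α d X - α d X * X‖ ≤ 3 * n ∧
      n * (ε / 2) ≤ ‖X - α d X‖ := by
  classical
  induction n with
  | zero =>
    intro S η _
    exact ⟨0, by simp, by simp, fun a _ => by simp, by simp, by simp⟩
  | succ n ih =>
    intro S η hη
    obtain ⟨X, hXs, hXn, hXc, hXα, hXm⟩ := ih S η hη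
    have hYs : IsSelfAdjoint (X - α d X) := hXs.sub (hXs.map (α d))
    obtain ⟨S₁, δ₁, hδ₁, hgrow⟩ := exists_grow hYs (show 0 < ε / 2 by positivity)
    set β := (α d).symm
    set T := S ∪ {α d X, β X} ∪ S₁ ∪ S₁.image β with hT
    obtain ⟨b, hbs, hb1, hbc, hbm⟩ := hmv T (min η (min (1 / 2) (δ₁ / 2)))
      (lt_min hη (lt_min (by norm_num) (by positivity)))
    set δ := min η (min (1 / 2 : ℝ) (δ₁ / 2))
    have hδη : δ ≤ η := min_le_left _ _
    have hδh : δ ≤ 1 / 2 := (min_le_right _ _).trans (min_le_left _ _)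
    have hδ1 : δ ≤ δ₁ / 2 := (min_le_right _ _).trans (min_le_right _ _)
    have hαn : ∀ y : A, ‖α d y‖ ≤ ‖y‖ := fun y => NonUnitalStarAlgHom.norm_apply_le (α d) y
    have hab : ∀ a : A, α d (β a) = a := fun a => (α d).apply_symm_apply a
    have hαc : ∀ a : A, β a ∈ T → ‖α d b * a - a * α d b‖ ≤ δ := fun a ha => by
      have := hαn (b * β a - β a * b)
      rw [map_sub, map_mul, map_mul, hab] at this
      exact this.trans (hbc _ ha)
    have hg := hgrow (b - α d b) (hbs.sub (hbs.map (α d)))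
      ((norm_sub_le _ _).trans (by linarith [hαn b]))
      (fun a ha => by
        rw [sub_mul, mul_sub, sub_sub_sub_comm]
        refine (norm_sub_le _ _).trans ?_
        have h1 := hbc a (by simp [hT, ha])
        have h2 := hαc a (by
          simp only [hT, Finset.mem_union, Finset.mem_image]
          exact Or.inr ⟨a, ha, rfl⟩)
        linarith)
    have hsign : ∀ σ : ℝ, |σ| = 1 → ‖X + σ • b‖ ≤ (n + 1 : ℕ) ∧
        Central S ((n + 1 : ℕ) * η) (X + σ • b) ∧
        ‖(X + σ • b) * α d (X + σ • b) - α d (X + σ • b) * (X + σ • b)‖ ≤ 3 * (n + 1 : ℕ) := by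
      intro σ hσ
      have hsm : ∀ y : A, ‖σ • y‖ = ‖y‖ := fun y => by
        rw [norm_smul, Real.norm_eq_abs, hσ, one_mul]
      refine ⟨(norm_add_le _ _).trans (by rw [hsm]; push_cast; linarith), fun a ha => ?_, ?_⟩
      · rw [add_mul, mul_add, add_sub_add_comm, smul_mul_assoc, mul_smul_comm, ← smul_sub]
        refine (norm_add_le _ _).trans ?_
        rw [hsm]
        push_cast
        linarith [hXc a ha, hbc a (by simp [hT, ha])]
      · have hασ : α d (σ • b) = σ • α d b := by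
          rw [← algebraMap_smul ℂ σ b, ← algebraMap_smul ℂ σ (α d b), map_smul]
        rw [map_add, hασ]
        have e : (X + σ • b) * (α d X + σ • α d b) - (α d X + σ • α d b) * (X + σ • b)
            = (X * α d X - α d X * X) + σ • (b * α d X - α d X * b)
              + σ • (X * α d b - α d b * X) + (σ * σ) • (b * α d b - α d b * b) := by
          simp only [add_mul, mul_add, smul_mul_assoc, mul_smul_comm, smul_sub, smul_add, smul_smul]
          abel
        rw [e, show σ * σ = 1 by rw [← abs_mul_abs_self, hσ, one_mul], one_smul]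
        refine (norm_add_le _ _).trans ?_
        refine le_trans (add_le_add (norm_add₃_le) (norm_sub_le _ _)) ?_
        rw [hsm, hsm]
        have h1 := hbc (α d X) (by simp [hT])
        have h2 := hαc X (by simp [hT])
        rw [norm_sub_rev] at h2
        have h3 : ‖b * α d b‖ ≤ 1 :=
          (norm_mul_le _ _).trans (mul_le_one₀ hb1 (norm_nonneg _) ((hαn b).trans hb1))
        have h4 : ‖α d b * b‖ ≤ 1 :=
          (norm_mul_le _ _).trans (mul_le_one₀ ((hαn b).trans hb1) (norm_nonneg _) hb1)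
        push_cast
        linarith
    rcases le_max_iff.1 hg with h | h
    · obtain ⟨h1, h2, h3⟩ := hsign 1 (by norm_num)
      refine ⟨X + (1 : ℝ) • b, hXs.add (by simpa using hbs), h1, h2, h3, ?_⟩
      rw [one_smul, map_add, add_sub_add_comm]
      push_cast
      linarith
    · obtain ⟨h1, h2, h3⟩ := hsign (-1) (by norm_num)
      refine ⟨X + (-1 : ℝ) • b, hXs.add (by rw [neg_one_smul]; exact hbs.neg), h1, h2, h3, ?_⟩
      rw [neg_one_smul, map_add, map_neg,
        show X + -b - (α d X + -α d b) = X - α d X - (b - α d b) by abel]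
      push_cast
      linarith

end Vale.Agent.P095.SI
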