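import Vale.Agent.P095.SI.Defs
import Vale.Agent.P095.SI.MUBasic
import Vale.Agent.P095.Tracial.TraceBasic

/-!
P095, equivariant (SI) step, block B3: matrix units as homomorphisms of products of matrix algebras,
diagonal sums in their commutants, limits of functionals along a tower, block traces.
-/

namespace Vale.Agent.P095.SI

open Filter Matrix Tracial
open scoped Topology Matrix

variable {A : Type*} [CStarAlgebra A] (D : MU A)

/-- The abstract algebra of a system of matrix units. -/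
abbrev MU.Mat : Type := ∀ j, Matrix (Fin (D.d j + 1)) (Fin (D.d j + 1)) ℂ

theorem MU.e_mul_sum (j : Fin D.m) (a b : Fin (D.d j + 1)) (M : D.Mat) :
    D.e j a b * (∑ k, ∑ c, ∑ f, M k c f • D.e k c f) = ∑ f, M j b f • D.e j a f := by
  rw [Finset.mul_sum, Finset.sum_eq_single j]
  · rw [Finset.mul_sum, Finset.sum_eq_single b]
    · rw [Finset.mul_sum]
      exact Finset.sum_congr rfl fun f _ => by rw [mul_smul_comm, D.mul_same, if_pos rfl]
    · intro c _ hc
      rw [Finset.mul_sum]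
      exact Finset.sum_eq_zero fun f _ => by
        rw [mul_smul_comm, D.mul_same, if_neg (Ne.symm hc), smul_zero]
    · simp
  · intro k _ hk
    simp [Finset.mul_sum, D.mul_ne j k (Ne.symm hk)]
  · simp

/-- The homomorphism defined by matrix units. -/
noncomputable def MU.hom : D.Mat →⋆ₐ[ℂ] A where
  toFun M := ∑ j, ∑ a, ∑ b, M j a b • D.e j a b
  map_one' := by
    simp [Matrix.one_apply, D.sum_eq]
  map_mul' M N := by
    rw [Finset.sum_mul]
    refine Finset.sum_congr rfl fun j _ => ?_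
    rw [Finset.sum_mul]
    refine Finset.sum_congr rfl fun a _ => ?_
    rw [Finset.sum_mul]
    simp only [smul_mul_assoc, D.e_mul_sum, Finset.smul_sum, smul_smul]
    rw [Finset.sum_comm]
    refine Finset.sum_congr rfl fun b _ => ?_
    rw [← Finset.sum_smul, Pi.mul_apply, Matrix.mul_apply]
  map_zero' := by simp
  map_add' M N := by simp [add_smul, Finset.sum_add_distrib]
  commutes' c := by
    simp [Algebra.algebraMap_eq_smul_one, Matrix.one_apply, ← Finset.smul_sum, D.sum_eq]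
  map_star' M := by
    simp only [star_sum, star_smul, D.star_e]
    refine Finset.sum_congr rfl fun j _ => ?_
    rw [Finset.sum_comm]
    rfl

theorem MU.hom_apply (M : D.Mat) : D.hom M = ∑ j, ∑ a, ∑ b, M j a b • D.e j a b := rfl

theorem MU.e_mul_hom (j : Fin D.m) (a b : Fin (D.d j + 1)) (M : D.Mat) :
    D.e j a b * D.hom M = ∑ f, M j b f • D.e j a f :=
  D.e_mul_sum j a b M

theorem MU.e_mul_hom_mul_e (j : Fin D.m) (a b c f : Fin (D.d j + 1)) (M : D.Mat) :
    D.e j a b * D.hom M * D.e j c f = M j b c • D.e j a f := by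
  rw [D.e_mul_hom, Finset.sum_mul, Finset.sum_eq_single c]
  · rw [smul_mul_assoc, D.mul_same, if_pos rfl]
  · intro g _ hg
    rw [smul_mul_assoc, D.mul_same, if_neg hg, smul_zero]
  · simp

theorem MU.e_ne_zero (j : Fin D.m) (a b : Fin (D.d j + 1)) : D.e j a b ≠ 0 := by
  intro h
  refine D.ne_zero j ?_
  have e : D.e j 0 a * D.e j a b * D.e j b 0 = D.e j 0 0 := by simp [D.mul_same]
  rw [← e, h]
  simp

theorem MU.norm_e (j : Fin D.m) (a b : Fin (D.d j + 1)) : ‖D.e j a b‖ = 1 := by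
  have key : ∀ c, ‖D.e j c c‖ = 1 := fun c => by
    have h := CStarRing.norm_star_mul_self (x := D.e j c c)
    rw [D.star_e, D.mul_same, if_pos rfl] at h
    have : (0 : ℝ) < ‖D.e j c c‖ := norm_pos_iff.2 (D.e_ne_zero j c c)
    nlinarith
  have h := CStarRing.norm_star_mul_self (x := D.e j a b)
  rw [D.star_e, D.mul_same, if_pos rfl, key] at h
  nlinarith [norm_nonneg (D.e j a b)]

/-- The entries are bounded by the norm in the algebra. -/
theorem MU.norm_entry_le (M : D.Mat) (j : Fin D.m) (a b : Fin (D.d j + 1)) :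
    ‖M j a b‖ ≤ ‖D.hom M‖ := by
  have h := congrArg norm (D.e_mul_hom_mul_e j a a b b M)
  rw [norm_smul, D.norm_e, mul_one] at h
  rw [← h]
  calc ‖D.e j a a * D.hom M * D.e j b b‖ ≤ ‖D.e j a a * D.hom M‖ * ‖D.e j b b‖ := norm_mul_le _ _
    _ ≤ ‖D.e j a a‖ * ‖D.hom M‖ * ‖D.e j b b‖ := by gcongr; exact norm_mul_le _ _
    _ = ‖D.hom M‖ := by rw [D.norm_e, D.norm_e, one_mul, mul_one]

theorem MU.hom_injective : Function.Injective D.hom := by
  refine (injective_iff_map_eq_zero D.hom).2 fun M hM => ?_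
  funext j
  ext a b
  have h := D.norm_entry_le M j a b
  rw [hM, norm_zero, norm_le_zero_iff] at h
  simpa using h

theorem MU.alg_eq : (D.alg : Set A) = Set.range D.hom := by
  refine Set.Subset.antisymm (fun x hx => ?_) ?_
  · refine Submodule.span_induction ?_ ⟨0, map_zero _⟩ ?_ ?_ hx
    · rintro _ ⟨j, a, b, rfl⟩
      refine ⟨Pi.single j (Matrix.single a b 1), ?_⟩
      rw [D.hom_apply, Finset.sum_eq_single j]
      · simp [Matrix.single_apply, ite_and]
      · intro k _ hk
        simp [hk]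
      · simp
    · rintro x y _ _ ⟨M, rfl⟩ ⟨N, rfl⟩
      exact ⟨M + N, map_add _ _ _⟩
    · rintro c x _ ⟨M, rfl⟩
      exact ⟨c • M, map_smul _ _ _⟩
  · rintro _ ⟨M, rfl⟩
    rw [D.hom_apply]
    exact Submodule.sum_mem _ fun j _ => Submodule.sum_mem _ fun a _ => Submodule.sum_mem _
      fun b _ => Submodule.smul_mem _ _ (Submodule.subset_span ⟨j, a, b, rfl⟩)

/-! ### Diagonalisation -/

/-- A diagonal element. -/
def MU.diagM (c : ∀ j, Fin (D.d j + 1) → ℝ) : D.Mat :=
  fun j => Matrix.diagonal fun a => (c j a : ℂ)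

/-- Conjugation of a diagonal element by a unitary. -/
def MU.conjDiag (U : unitary D.Mat) (c : ∀ j, Fin (D.d j + 1) → ℝ) : D.Mat :=
  (U : D.Mat) * D.diagM c * star (U : D.Mat)

theorem MU.exists_conjDiag {F : D.Mat} (hF : IsSelfAdjoint F) :
    ∃ (U : unitary D.Mat) (c : ∀ j, Fin (D.d j + 1) → ℝ), F = D.conjDiag U c := by
  have hh : ∀ j, (F j).IsHermitian := fun j => congrFun hF.star_eq j
  let V : D.Mat := fun j =>
    ((hh j).eigenvectorUnitary : Matrix (Fin (D.d j + 1)) (Fin (D.d j + 1)) ℂ)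
  have hV : V ∈ unitary D.Mat := by
    rw [Unitary.mem_iff]
    exact ⟨funext fun j => Unitary.coe_star_mul_self _, funext fun j => Unitary.coe_mul_star_self _⟩
  refine ⟨⟨V, hV⟩, fun j => (hh j).eigenvalues, funext fun j => ?_⟩
  conv_lhs => rw [(hh j).spectral_theorem]
  rfl

theorem MU.diagM_mul (c c' : ∀ j, Fin (D.d j + 1) → ℝ) :
    D.diagM c * D.diagM c' = D.diagM fun j a => c j a * c' j a := by
  funext j
  simp [MU.diagM]

theorem MU.star_diagM (c : ∀ j, Fin (D.d j + 1) → ℝ) : star (D.diagM c) = D.diagM c := by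
  funext j
  simp [MU.diagM, Matrix.star_eq_conjTranspose, Matrix.diagonal_conjTranspose]

theorem MU.conjDiag_mul (U : unitary D.Mat) (c c' : ∀ j, Fin (D.d j + 1) → ℝ) :
    D.conjDiag U c * D.conjDiag U c' = D.conjDiag U fun j a => c j a * c' j a := by
  rw [MU.conjDiag, MU.conjDiag, MU.conjDiag, ← D.diagM_mul]
  simp only [mul_assoc]
  rw [← mul_assoc (star (U : D.Mat)), Unitary.coe_star_mul_self, one_mul]

theorem MU.star_conjDiag (U : unitary D.Mat) (c : ∀ j, Fin (D.d j + 1) → ℝ) :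
    star (D.conjDiag U c) = D.conjDiag U c := by
  rw [MU.conjDiag, star_mul, star_mul, star_star, D.star_diagM, mul_assoc]

theorem MU.conjDiag_const (U : unitary D.Mat) (r : ℝ) :
    D.conjDiag U (fun _ _ => r) = (r : ℂ) • (1 : D.Mat) := by
  have : D.diagM (fun _ _ => r) = (r : ℂ) • (1 : D.Mat) := by
    funext j
    ext a b
    simp [MU.diagM, Matrix.one_apply, Matrix.diagonal_apply]
  rw [MU.conjDiag, this, mul_smul_comm, mul_one, smul_mul_assoc, Unitary.mul_star_self_of_mem U.2]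

theorem MU.conjDiag_sub (U : unitary D.Mat) (c c' : ∀ j, Fin (D.d j + 1) → ℝ) :
    D.conjDiag U c - D.conjDiag U c' = D.conjDiag U fun j a => c j a - c' j a := by
  rw [MU.conjDiag, MU.conjDiag, MU.conjDiag, ← sub_mul, ← mul_sub]
  congr 2
  funext j
  simp [MU.diagM]

/-- An eigenvalue is bounded by the norm. -/
theorem MU.abs_le_norm_conjDiag (U : unitary D.Mat) (c : ∀ j, Fin (D.d j + 1) → ℝ) (j : Fin D.m)
    (a : Fin (D.d j + 1)) : |c j a| ≤ ‖D.hom (D.conjDiag U c)‖ := by
  have hU : star (U : D.Mat) * D.conjDiag U c * (U : D.Mat) = D.diagM c := by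
    rw [MU.conjDiag]
    simp only [mul_assoc, Unitary.coe_star_mul_self, mul_one]
    rw [← mul_assoc, Unitary.coe_star_mul_self, one_mul]
  have h := D.norm_entry_le (D.diagM c) j a a
  rw [MU.diagM, Matrix.diagonal_apply_eq, Complex.norm_real, Real.norm_eq_abs] at h
  refine h.trans ?_
  have hu : D.hom (U : D.Mat) ∈ unitary A := Unitary.map_mem D.hom U.2
  change ‖D.hom (D.diagM c)‖ ≤ _
  rw [← hU, map_mul, map_mul, map_star,
    CStarRing.norm_mul_mem_unitary _ hu, CStarRing.norm_mem_unitary_mul _ (Unitary.star_mem hu)]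

/-- The norm is bounded by the eigenvalues. -/
theorem MU.norm_conjDiag_le (U : unitary D.Mat) (c : ∀ j, Fin (D.d j + 1) → ℝ) {R : ℝ}
    (hR : 0 ≤ R) (hc : ∀ j a, |c j a| ≤ R) : ‖D.hom (D.conjDiag U c)‖ ≤ R := by
  let := CStarAlgebra.spectralOrder A
  have := CStarAlgebra.spectralOrderedRing A
  let t : ∀ j, Fin (D.d j + 1) → ℝ := fun j a => Real.sqrt (R ^ 2 - c j a ^ 2)
  have ht : ∀ j a, t j a * t j a = R ^ 2 - c j a ^ 2 := fun j a => by
    refine Real.mul_self_sqrt (sub_nonneg.2 ?_)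
    rw [← sq_abs (c j a)]
    exact pow_le_pow_left₀ (abs_nonneg _) (hc j a) 2
  set x := D.hom (D.conjDiag U c) with hx
  have h1 : star x * x + star (D.hom (D.conjDiag U t)) * D.hom (D.conjDiag U t) =
      algebraMap ℝ A (R ^ 2) := by
    rw [hx, ← map_star, ← map_star, D.star_conjDiag, D.star_conjDiag, ← map_mul, ← map_mul,
      D.conjDiag_mul, D.conjDiag_mul, ← eq_sub_iff_add_eq', IsScalarTower.algebraMap_apply ℝ ℂ A,
      Algebra.algebraMap_eq_smul_one, ← map_one D.hom, Complex.coe_algebraMap, ← map_smul,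
      ← map_sub, ← D.conjDiag_const U, D.conjDiag_sub]
    congr 2
    funext j a
    rw [ht]
    ring
  have h2 : star x * x ≤ algebraMap ℝ A (R ^ 2) :=
    h1 ▸ le_add_of_nonneg_right (star_mul_self_nonneg _)
  have h3 := CStarAlgebra.norm_le_norm_of_nonneg_of_le (star_mul_self_nonneg x) h2
  rw [CStarRing.norm_star_mul_self] at h3
  have h4 : ‖algebraMap ℝ A (R ^ 2)‖ ≤ R ^ 2 := by
    rcases subsingleton_or_nontrivial A with hs | hn
    · simp [Subsingleton.elim (algebraMap ℝ A (R ^ 2)) 0, sq_nonneg]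
    · rw [norm_algebraMap', Real.norm_of_nonneg (sq_nonneg R)]
  nlinarith [norm_nonneg x]

/-! ### Diagonal sums -/

/-- The element of the commutant with given corners. -/
noncomputable def MU.dsum (y : Fin D.m → A) : A := ∑ i, ∑ a, D.e i a 0 * y i * D.e i 0 a

theorem MU.e_mul_dsum (y : Fin D.m → A) (i : Fin D.m) (b c : Fin (D.d i + 1)) :
    D.e i b c * D.dsum y = D.e i b 0 * y i * D.e i 0 c := by
  rw [MU.dsum, Finset.mul_sum, Finset.sum_eq_single i]
  · rw [Finset.mul_sum, Finset.sum_eq_single c]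
    · rw [← mul_assoc, ← mul_assoc, D.mul_same, if_pos rfl]
    · intro a _ ha
      rw [← mul_assoc, ← mul_assoc, D.mul_same, if_neg (Ne.symm ha), zero_mul, zero_mul]
    · simp
  · intro k _ hk
    simp [Finset.mul_sum, ← mul_assoc, D.mul_ne i k (Ne.symm hk)]
  · simp

theorem MU.dsum_mul_e (y : Fin D.m → A) (i : Fin D.m) (b c : Fin (D.d i + 1)) :
    D.dsum y * D.e i b c = D.e i b 0 * y i * D.e i 0 c := by
  rw [MU.dsum, Finset.sum_mul, Finset.sum_eq_single i]
  · rw [Finset.sum_mul, Finset.sum_eq_single b]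
    · rw [mul_assoc _ (D.e i 0 b), D.mul_same, if_pos rfl]
    · intro a _ ha
      rw [mul_assoc _ (D.e i 0 a), D.mul_same, if_neg ha, mul_zero]
    · simp
  · intro k _ hk
    simp [Finset.sum_mul, mul_assoc, D.mul_ne k i hk]
  · simp

theorem MU.dsum_commutes (y : Fin D.m → A) : D.Commutes (D.dsum y) := fun i a b =>
  (D.dsum_mul_e y i a b).trans (D.e_mul_dsum y i a b).symm

theorem MU.star_dsum (y : Fin D.m → A) : star (D.dsum y) = D.dsum fun i => star (y i) := by
  simp [MU.dsum, star_sum, star_mul, D.star_e, mul_assoc]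

theorem MU.dsum_mul_dsum (x y : Fin D.m → A) :
    D.dsum x * D.dsum y = D.dsum fun i => x i * D.e i 0 0 * y i := by
  conv_lhs => rw [MU.dsum, Finset.sum_mul]
  refine Finset.sum_congr rfl fun i _ => ?_
  rw [Finset.sum_mul]
  refine Finset.sum_congr rfl fun a _ => ?_
  rw [mul_assoc, D.e_mul_dsum]
  simp only [mul_assoc]

theorem MU.dsum_one : D.dsum (fun _ => 1) = 1 := by
  simp [MU.dsum, D.mul_same, D.sum_eq]

theorem MU.dsum_corner (y : Fin D.m → A) :
    D.dsum (fun i => D.e i 0 0 * y i * D.e i 0 0) = D.dsum y := by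
  refine Finset.sum_congr rfl fun i _ => Finset.sum_congr rfl fun a _ => ?_
  have h1 : D.e i a 0 * D.e i 0 0 = D.e i a 0 := by simp [D.mul_same]
  have h2 : D.e i 0 0 * D.e i 0 a = D.e i 0 a := by simp [D.mul_same]
  calc _ = D.e i a 0 * D.e i 0 0 * y i * (D.e i 0 0 * D.e i 0 a) := by noncomm_ring
    _ = _ := by rw [h1, h2]

theorem MU.dsum_sub (x y : Fin D.m → A) :
    D.dsum x - D.dsum y = D.dsum fun i => x i - y i := by
  simp only [MU.dsum, ← Finset.sum_sub_distrib, ← sub_mul, ← mul_sub]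

theorem MU.dsum_add (x y : Fin D.m → A) :
    D.dsum x + D.dsum y = D.dsum fun i => x i + y i := by
  simp only [MU.dsum, ← Finset.sum_add_distrib, ← add_mul, ← mul_add]

theorem MU.norm_dsum_le (y : Fin D.m → A) {R : ℝ} (hR : 0 ≤ R)
    (hy : ∀ i, ‖D.e i 0 0 * y i * D.e i 0 0‖ ≤ R) : ‖D.dsum y‖ ≤ R := by
  let := CStarAlgebra.spectralOrder A
  have := CStarAlgebra.spectralOrderedRing A
  rw [← D.dsum_corner]
  set y' := fun i => D.e i 0 0 * y i * D.e i 0 0
  have h1 : star (D.dsum y') * D.dsum y' ≤ D.dsum fun _ => algebraMap ℝ A (R ^ 2) := by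
    rw [D.star_dsum, D.dsum_mul_dsum]
    refine Finset.sum_le_sum fun i _ => Finset.sum_le_sum fun a _ => ?_
    rw [← D.star_e i 0 a]
    refine star_left_conjugate_le_conjugate ?_ _
    have hz : star (D.e i 0 0) * D.e i 0 0 = D.e i 0 0 := by simp [D.star_e, D.mul_same]
    have h0 : D.e i 0 0 * y' i = y' i := by
      simp [y', ← mul_assoc, D.mul_same]
    calc star (y' i) * D.e i 0 0 * y' i = star (y' i) * y' i := by rw [mul_assoc, h0]
      _ ≤ algebraMap ℝ A ‖star (y' i) * y' i‖ :=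
          (IsSelfAdjoint.star_mul_self _).le_algebraMap_norm_self
      _ ≤ algebraMap ℝ A (R ^ 2) := by
          refine algebraMap_mono A ?_
          rw [CStarRing.norm_star_mul_self, ← sq]
          exact pow_le_pow_left₀ (norm_nonneg _) (hy i) 2
  have h2 : (D.dsum fun _ => algebraMap ℝ A (R ^ 2)) = algebraMap ℝ A (R ^ 2) := by
    have : (fun _ : Fin D.m => algebraMap ℝ A (R ^ 2)) = fun _ => (R ^ 2 : ℝ) • (1 : A) :=
      funext fun _ => Algebra.algebraMap_eq_smul_one _
    rw [this, Algebra.algebraMap_eq_smul_one]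
    conv_rhs => rw [← D.dsum_one]
    simp only [MU.dsum, Finset.smul_sum, mul_smul_comm, smul_mul_assoc]
  rw [h2] at h1
  have h3 := CStarAlgebra.norm_le_norm_of_nonneg_of_le (star_mul_self_nonneg _) h1
  rw [CStarRing.norm_star_mul_self] at h3
  have h4 : ‖algebraMap ℝ A (R ^ 2)‖ ≤ R ^ 2 := by
    rcases subsingleton_or_nontrivial A with hs | hn
    · simp [Subsingleton.elim (algebraMap ℝ A (R ^ 2)) 0, sq_nonneg]
    · rw [norm_algebraMap', Real.norm_of_nonneg (sq_nonneg R)]
  nlinarith [norm_nonneg (D.dsum y')]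

/-- The number of diagonal units. -/
def MU.size : ℕ := ∑ i, (D.d i + 1)

theorem MU.norm_dsum_sub_le (f : A) {δ : ℝ}
    (hf : ∀ i a b, ‖f * D.e i a b - D.e i a b * f‖ ≤ δ) :
    ‖D.dsum (fun _ => f) - f‖ ≤ D.size * δ := by
  have e : D.dsum (fun _ => f) - f
      = ∑ i, ∑ a, (D.e i a 0 * f - f * D.e i a 0) * D.e i 0 a := by
    simp only [sub_mul, Finset.sum_sub_distrib, MU.dsum]
    congr 1
    simp only [mul_assoc, ← Finset.mul_sum]
    simp [D.mul_same, D.sum_eq]
  rw [e]
  refine (norm_sum_le _ _).trans ?_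
  rw [MU.size, Nat.cast_sum, Finset.sum_mul]
  refine Finset.sum_le_sum fun i _ => (norm_sum_le _ _).trans ?_
  refine (Finset.sum_le_sum (g := fun _ => δ) fun a _ => ?_).trans_eq (by simp)
  refine (norm_mul_le _ _).trans ?_
  rw [D.norm_e, mul_one, norm_sub_rev]
  exact hf i a 0

end Vale.Agent.P095.SI
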