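import Vale.Agent.P095.SI.AFBasic

/-!
P095, equivariant (SI) step, block B3: limits along a tower, traces and block sizes.
-/

namespace Vale.Agent.P095.SI

open Filter Matrix Tracial
open scoped Topology Matrix

variable {A : Type*} [CStarAlgebra A]

theorem AFTower.alg_mono (T : AFTower A) : Monotone fun k => (T.D k).alg :=
  monotone_nat_of_le_succ T.mono

theorem AFTower.exists_approx (T : AFTower A) (a : A) :
    ∃ M : ∀ L, (T.D L).Mat, Tendsto (fun L => (T.D L).hom (M L)) atTop (𝓝 a) := by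
  have h : ∀ L : ℕ, ∃ M : (T.D L).Mat,
      dist a ((T.D L).hom M) < Metric.infDist a (Set.range (T.D L).hom) + 1 / ((L : ℝ) + 1) := by
    intro L
    obtain ⟨_, ⟨M, rfl⟩, hM⟩ := (Metric.infDist_lt_iff (Set.range_nonempty _)).1
      (lt_add_of_pos_right (Metric.infDist a (Set.range (T.D L).hom))
        (show (0 : ℝ) < 1 / ((L : ℝ) + 1) by positivity))
    exact ⟨M, hM⟩
  choose M hM using h
  refine ⟨M, Metric.tendsto_atTop.2 fun ε hε => ?_⟩
  obtain ⟨k, y, hy, hay⟩ := T.dense a (ε / 2) (half_pos hε)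
  obtain ⟨n, hn⟩ := exists_nat_one_div_lt (half_pos hε)
  refine ⟨max k n, fun L hL => ?_⟩
  have hy' : y ∈ Set.range (T.D L).hom :=
    (T.D L).alg_eq ▸ T.alg_mono ((le_max_left k n).trans hL) hy
  have h1 := Metric.infDist_le_dist_of_mem (x := a) hy'
  rw [dist_eq_norm] at h1
  rw [dist_comm]
  refine lt_of_lt_of_le (hM L) ?_
  have : 1 / ((L : ℝ) + 1) ≤ 1 / ((n : ℝ) + 1) := by
    gcongr
    exact_mod_cast (le_max_right k n).trans hL
  linarith

/-- A bounded family of linear functionals on the steps has a limit on the algebra. -/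
theorem AFTower.exists_limit (T : AFTower A) (U : Ultrafilter ℕ) (hU : (U : Filter ℕ) ≤ atTop)
    (f : ∀ L, (T.D L).Mat →ₗ[ℂ] ℂ) (hf : ∀ L M, ‖f L M‖ ≤ ‖(T.D L).hom M‖) :
    ∃ Φ : A →ₗ[ℂ] ℂ, ∀ (a : A) (M : ∀ L, (T.D L).Mat),
      Tendsto (fun L => (T.D L).hom (M L)) (U : Filter ℕ) (𝓝 a) →
        Tendsto (fun L => f L (M L)) (U : Filter ℕ) (𝓝 (Φ a)) := by
  choose M hM using T.exists_approx
  have hM' : ∀ a, Tendsto (fun L => (T.D L).hom (M a L)) (U : Filter ℕ) (𝓝 a) :=
    fun a => (hM a).mono_left hU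
  have hex : ∀ a, ∃ z : ℂ, Tendsto (fun L => f L (M a L)) (U : Filter ℕ) (𝓝 z) := by
    intro a
    have hb : ∀ᶠ L in (U : Filter ℕ), f L (M a L) ∈ Metric.closedBall (0 : ℂ) (‖a‖ + 1) := by
      filter_upwards [Metric.tendsto_nhds.1 (hM' a) 1 one_pos] with L hL
      rw [dist_eq_norm] at hL
      rw [mem_closedBall_zero_iff]
      refine (hf L _).trans ?_
      linarith [norm_le_norm_add_norm_sub' ((T.D L).hom (M a L)) a]
    obtain ⟨z, -, hz⟩ := (isCompact_closedBall (0 : ℂ) (‖a‖ + 1)).ultrafilter_le_nhds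
      (U.map fun L => f L (M a L)) (le_principal_iff.2 hb)
    exact ⟨z, hz⟩
  choose Φ hΦ using hex
  have key : ∀ (a : A) (N : ∀ L, (T.D L).Mat),
      Tendsto (fun L => (T.D L).hom (N L)) (U : Filter ℕ) (𝓝 a) →
        Tendsto (fun L => f L (N L)) (U : Filter ℕ) (𝓝 (Φ a)) := by
    intro a N hN
    have h0 : Tendsto (fun L => f L (N L) - f L (M a L)) (U : Filter ℕ) (𝓝 0) := by
      refine squeeze_zero_norm (fun L => ?_)
        (tendsto_zero_iff_norm_tendsto_zero.1 (sub_self a ▸ hN.sub (hM' a)))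
      rw [← map_sub (f L), ← map_sub (T.D L).hom]
      exact hf L _
    simpa using h0.add (hΦ a)
  refine ⟨{ toFun := Φ, map_add' := fun a b => ?_, map_smul' := fun c a => ?_ }, key⟩
  · refine tendsto_nhds_unique (key (a + b) (fun L => M a L + M b L) ?_) ?_
    · simpa using (hM' a).add (hM' b)
    · simpa using (hΦ a).add (hΦ b)
  · refine tendsto_nhds_unique (key (c • a) (fun L => c • M a L) ?_) ?_
    · simpa [map_smul] using (hM' a).const_smul c
    · simpa using (hΦ a).const_mul c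

/-- A normalised trace of a block. -/
noncomputable def blockTrace (D : MU A) (j : Fin D.m) : D.Mat →ₗ[ℂ] ℂ where
  toFun M := (M j).trace / ((D.d j : ℂ) + 1)
  map_add' M N := by simp [add_div]
  map_smul' c M := by simp [mul_div_assoc]

theorem blockTrace_apply (D : MU A) (j : Fin D.m) (M : D.Mat) :
    blockTrace D j M = (M j).trace / ((D.d j : ℂ) + 1) := rfl

theorem norm_blockTrace_le (D : MU A) (j : Fin D.m) (M : D.Mat) :
    ‖blockTrace D j M‖ ≤ ‖D.hom M‖ := by
  rw [blockTrace_apply, norm_div]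
  have e : ‖((D.d j : ℂ) + 1)‖ = (D.d j : ℝ) + 1 := by
    rw [← Nat.cast_succ, Complex.norm_natCast]
    simp
  rw [e, div_le_iff₀ (by positivity), Matrix.trace]
  refine (norm_sum_le _ _).trans
    ((Finset.sum_le_sum fun a _ => D.norm_entry_le M j a a).trans_eq ?_)
  simp [mul_comm]

theorem MU.m_pos [Nontrivial A] (D : MU A) : 0 < D.m := by
  by_contra h
  have he : IsEmpty (Fin D.m) := by
    rw [Nat.le_zero.1 (not_lt.1 h)]
    infer_instance
  exact one_ne_zero (α := A) (D.sum_eq.symm.trans (Finset.sum_of_isEmpty _))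

theorem re_im_star_mul_trace {n : Type*} [Fintype n] (M : Matrix n n ℂ) :
    0 ≤ (star M * M).trace.re ∧ (star M * M).trace.im = 0 := by
  have e : (star M * M).trace = ∑ a, ∑ b, ((Complex.normSq (M b a) : ℝ) : ℂ) := by
    simp [Matrix.trace, Matrix.mul_apply, Matrix.star_apply, Complex.normSq_eq_conj_mul_self]
  simp only [e, ← Complex.ofReal_sum, Complex.ofReal_re, Complex.ofReal_im]
  exact ⟨Finset.sum_nonneg fun a _ => Finset.sum_nonneg fun b _ => Complex.normSq_nonneg _, trivial⟩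

/-- Limits of block traces are traces. -/
theorem AFTower.exists_trace_limit [Nontrivial A] (T : AFTower A) (U : Ultrafilter ℕ)
    (hU : (U : Filter ℕ) ≤ atTop) (j : ∀ L, Fin (T.D L).m) :
    ∃ τ : A → ℂ, IsTraceOn (⊤ : StarSubalgebra ℂ A) τ ∧ ∀ (a : A) (M : ∀ L, (T.D L).Mat),
      Tendsto (fun L => (T.D L).hom (M L)) (U : Filter ℕ) (𝓝 a) →
        Tendsto (fun L => blockTrace (T.D L) (j L) (M L)) (U : Filter ℕ) (𝓝 (τ a)) := by
  obtain ⟨Φ, hΦ⟩ := T.exists_limit U hU (fun L => blockTrace (T.D L) (j L))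
    (fun L M => norm_blockTrace_le _ _ M)
  refine ⟨Φ, ⟨?_, fun x _ y _ => map_add Φ x y, fun c x _ => map_smul Φ c x, fun x _ => ?_,
    fun x _ y _ => ?_⟩, hΦ⟩
  · refine tendsto_nhds_unique (hΦ 1 (fun _ => 1) (by simp)) ?_
    refine tendsto_const_nhds.congr fun L => ?_
    simp [blockTrace_apply, (Nat.cast_add_one_ne_zero _ : ((T.D L).d (j L) : ℂ) + 1 ≠ 0)]
  · obtain ⟨M, hM⟩ := T.exists_approx x
    have h := hΦ (star x * x) (fun L => star (M L) * M L)
      (by simpa [map_star] using ((hM.mono_left hU).star.mul (hM.mono_left hU)))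
    have hp : ∀ L, 0 ≤ (blockTrace (T.D L) (j L) (star (M L) * M L)).re ∧
        (blockTrace (T.D L) (j L) (star (M L) * M L)).im = 0 := by
      intro L
      have h1 := re_im_star_mul_trace (M L (j L))
      rw [blockTrace_apply, show ((T.D L).d (j L) : ℂ) + 1 = (((T.D L).d (j L) + 1 : ℝ) : ℂ) by
        simp, Complex.div_ofReal_re, Complex.div_ofReal_im]
      refine ⟨div_nonneg h1.1 (by positivity), ?_⟩
      rw [show ((star (M L) * M L) (j L)).trace.im = 0 from h1.2, zero_div]
    refine ⟨ge_of_tendsto ((Complex.continuous_re.tendsto _).comp h) (.of_forall fun L => (hp L).1),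
      tendsto_nhds_unique ((Complex.continuous_im.tendsto _).comp h)
        (tendsto_const_nhds.congr fun L => ((hp L).2).symm)⟩
  · obtain ⟨M, hM⟩ := T.exists_approx x
    obtain ⟨N, hN⟩ := T.exists_approx y
    refine tendsto_nhds_unique
      (hΦ (x * y) (fun L => M L * N L) (by simpa using (hM.mono_left hU).mul (hN.mono_left hU))) ?_
    refine (hΦ (y * x) (fun L => N L * M L)
      (by simpa using (hN.mono_left hU).mul (hM.mono_left hU))).congr fun L => ?_
    simp [blockTrace_apply, Matrix.trace_mul_comm (N L (j L))]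

/-- Eventually all block traces are close to traces of the algebra. -/
theorem AFTower.eventually_trace [Nontrivial A] (T : AFTower A) {κ : Type*} [Finite κ]
    (y : κ → A) {θ : ℝ} (hθ : 0 < θ) :
    ∀ᶠ L in atTop, ∀ j : Fin (T.D L).m, ∃ τ, IsTraceOn (⊤ : StarSubalgebra ℂ A) τ ∧
      ∀ (x : κ) (M : (T.D L).Mat),
        ‖blockTrace (T.D L) j M - τ (y x)‖ ≤ ‖(T.D L).hom M - y x‖ + θ := by
  by_contra hcon
  rw [not_eventually] at hcon
  let P : ℕ → Prop := fun L => ∃ j : Fin (T.D L).m, ∀ τ, IsTraceOn (⊤ : StarSubalgebra ℂ A) τ →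
      ∃ (x : κ) (M : (T.D L).Mat),
        ‖(T.D L).hom M - y x‖ + θ < ‖blockTrace (T.D L) j M - τ (y x)‖
  have hP : ∃ᶠ L in atTop, P L := hcon.mono fun L hL => by
    push Not at hL
    exact hL
  have : NeBot (atTop ⊓ 𝓟 {L | P L}) := frequently_mem_iff_neBot.1 hP
  let U := Ultrafilter.of (atTop ⊓ 𝓟 {L | P L})
  have hU : (U : Filter ℕ) ≤ atTop := (Ultrafilter.of_le _).trans inf_le_left
  have hUP : ∀ᶠ L in (U : Filter ℕ), P L :=
    ((Ultrafilter.of_le _).trans inf_le_right) (mem_principal_self _)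
  classical
  let j : ∀ L, Fin (T.D L).m := fun L => if h : P L then h.choose else ⟨0, (T.D L).m_pos⟩
  obtain ⟨τ, hτ, hlim⟩ := T.exists_trace_limit U hU j
  choose M hM using fun x => T.exists_approx (y x)
  have h1 : ∀ᶠ L in (U : Filter ℕ), ∀ x, ‖(T.D L).hom (M x L) - y x‖ ≤ θ / 4 ∧
      ‖blockTrace (T.D L) (j L) (M x L) - τ (y x)‖ ≤ θ / 4 := by
    refine eventually_all.2 fun x => ?_
    have hx := (hM x).mono_left hU
    filter_upwards [Metric.tendsto_nhds.1 hx (θ / 4) (by positivity),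
      Metric.tendsto_nhds.1 (hlim _ _ hx) (θ / 4) (by positivity)] with L a b
    rw [dist_eq_norm] at a b
    exact ⟨a.le, b.le⟩
  obtain ⟨L, hL, hL1⟩ := (hUP.and h1).exists
  have hj : j L = hL.choose := dif_pos hL
  obtain ⟨x, N, hN⟩ := hL.choose_spec τ hτ
  rw [← hj] at hN
  obtain ⟨a, b⟩ := hL1 x
  have c := norm_blockTrace_le (T.D L) (j L) (N - M x L)
  rw [map_sub, map_sub] at c
  have d := norm_sub_le_norm_sub_add_norm_sub
    (blockTrace (T.D L) (j L) N) (blockTrace (T.D L) (j L) (M x L)) (τ (y x))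
  have e := norm_sub_le_norm_sub_add_norm_sub ((T.D L).hom N) (y x) ((T.D L).hom (M x L))
  rw [norm_sub_rev (y x)] at e
  linarith

/-! ### Simple algebras -/

/-- A nonzero element has uniformly positive two-norm in all traces. -/
theorem exists_pos_le_tsq [IsSimpleRing A] {v : A} (hv : v ≠ 0) :
    ∃ γ > (0 : ℝ), ∀ τ, IsTraceOn (⊤ : StarSubalgebra ℂ A) τ → γ ≤ tsq τ v := by
  by_contra hcon
  push Not at hcon
  choose τ hτ hτv using fun n : ℕ => hcon (1 / ((n : ℝ) + 1)) (by positivity)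
  let U := Ultrafilter.of (atTop : Filter ℕ)
  have hB : IsClosed ((⊤ : StarSubalgebra ℂ A) : Set A) := isClosed_univ
  have hex : ∀ a, ∃ z : ℂ, Tendsto (fun n => τ n a) (U : Filter ℕ) (𝓝 z) := fun a => by
    obtain ⟨z, -, hz⟩ := (isCompact_closedBall (0 : ℂ) ‖a‖).ultrafilter_le_nhds
      (U.map fun n => τ n a) (le_principal_iff.2 (mem_map.2 (Eventually.of_forall fun n => by
        simpa [mem_closedBall_zero_iff] using (hτ n).norm_le hB (x := a) trivial)))
    exact ⟨z, hz⟩
  choose σ hσ using hex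
  have hσt : IsTraceOn (⊤ : StarSubalgebra ℂ A) σ :=
    ⟨tendsto_nhds_unique (hσ 1)
        (Tendsto.congr (fun n => (hτ n).one.symm) tendsto_const_nhds),
      fun x _ y _ => tendsto_nhds_unique (hσ (x + y))
        (((hσ x).add (hσ y)).congr fun n => ((hτ n).add x trivial y trivial).symm),
      fun c x _ => tendsto_nhds_unique (hσ (c • x))
        (((hσ x).const_mul c).congr fun n => ((hτ n).smul c x trivial).symm),
      fun x _ => ⟨ge_of_tendsto ((Complex.continuous_re.tendsto _).comp (hσ (star x * x)))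
          (.of_forall fun n => ((hτ n).pos x trivial).1),
        tendsto_nhds_unique ((Complex.continuous_im.tendsto _).comp (hσ (star x * x)))
          (tendsto_const_nhds.congr fun n => (((hτ n).pos x trivial).2).symm)⟩,
      fun x _ y _ => tendsto_nhds_unique (hσ (x * y))
        ((hσ (y * x)).congr fun n => (hτ n).tracial y trivial x trivial)⟩
  have hsv : tsq σ v = 0 := by
    refine le_antisymm ?_ (hσt.tsq_nonneg trivial)
    refine le_of_tendsto_of_tendsto ((Complex.continuous_re.tendsto _).comp (hσ (star v * v)))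
      (tendsto_one_div_add_atTop_nhds_zero_nat.mono_left (Ultrafilter.of_le _))
      (.of_forall fun n => (hτv n).le)
  let J : TwoSidedIdeal A := .mk' {a | tsq σ a = 0} (by simp [tsq, hσt.map_zero])
    (fun {x y} (hx : tsq σ x = 0) (hy : tsq σ y = 0) => le_antisymm
      (by simpa [hx, hy] using hσt.tsq_add_le hB (x := x) (y := y) trivial trivial)
      (hσt.tsq_nonneg trivial))
    (fun {x} (hx : tsq σ x = 0) => by simpa [tsq] using hx)
    (fun {a x} (hx : tsq σ x = 0) => le_antisymm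
      (by simpa [hx] using hσt.tsq_mul_le hB (a := a) (x := x) trivial trivial)
      (hσt.tsq_nonneg trivial))
    (fun {x a} (hx : tsq σ x = 0) => le_antisymm
      (by simpa [hx] using hσt.tsq_mul_right_le hB (a := a) (x := x) trivial trivial)
      (hσt.tsq_nonneg trivial))
  have hvJ : v ∈ J := (TwoSidedIdeal.mem_mk' ..).2 hsv
  rcases eq_bot_or_eq_top J with h | h
  · rw [h] at hvJ
    exact hv ((TwoSidedIdeal.mem_bot A).1 hvJ)
  · have h1 : (1 : A) ∈ J := h ▸ trivial
    have h2 : (1 : A) ∈ {a | tsq σ a = 0} := (TwoSidedIdeal.mem_mk' ..).1 h1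
    simp [tsq, hσt.one] at h2

/-- In a simple infinite-dimensional algebra the blocks become large. -/
theorem AFTower.eventually_large [IsSimpleRing A] (T : AFTower A) (hA : ¬ FiniteDimensional ℂ A)
    (N : ℕ) : ∀ᶠ L in atTop, ∀ j : Fin (T.D L).m, N ≤ (T.D L).d j := by
  by_contra hcon
  rw [not_eventually] at hcon
  let P : ℕ → Prop := fun L => ∃ j : Fin (T.D L).m, (T.D L).d j < N
  have hP : ∃ᶠ L in atTop, P L := hcon.mono fun L hL => by
    push Not at hL
    exact hL
  have : NeBot (atTop ⊓ 𝓟 {L | P L}) := frequently_mem_iff_neBot.1 hP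
  let U := Ultrafilter.of (atTop ⊓ 𝓟 {L | P L})
  have hU : (U : Filter ℕ) ≤ atTop := (Ultrafilter.of_le _).trans inf_le_left
  have hUP : ∀ᶠ L in (U : Filter ℕ), P L :=
    ((Ultrafilter.of_le _).trans inf_le_right) (mem_principal_self _)
  classical
  let j : ∀ L, Fin (T.D L).m := fun L => if h : P L then h.choose else ⟨0, (T.D L).m_pos⟩
  have hjN : ∀ᶠ L in (U : Filter ℕ), (T.D L).d (j L) < N := hUP.mono fun L hL => by
    rw [show j L = hL.choose from dif_pos hL]
    exact hL.choose_spec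
  let ent : ∀ L, Fin N → Fin N → (T.D L).Mat →ₗ[ℂ] ℂ := fun L a b =>
    { toFun := fun M => if h : (a : ℕ) < (T.D L).d (j L) + 1 ∧ (b : ℕ) < (T.D L).d (j L) + 1 then
        M (j L) ⟨a, h.1⟩ ⟨b, h.2⟩ else 0
      map_add' := fun M M' => by split <;> simp
      map_smul' := fun c M => by split <;> simp }
  choose Φ hΦ using fun a b => T.exists_limit U hU (fun L => ent L a b) fun L M => by
    simp only [ent, LinearMap.coe_mk, AddHom.coe_mk]
    split
    · exact (T.D L).norm_entry_le M _ _ _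
    · simp
  let π : A →ₗ[ℂ] Matrix (Fin N) (Fin N) ℂ :=
    { toFun := fun x => Matrix.of fun a b => Φ a b x
      map_add' := fun x y => by ext; simp
      map_smul' := fun c x => by ext; simp }
  have hmul : ∀ x y, π (x * y) = π x * π y := by
    intro x y
    obtain ⟨M, hM⟩ := T.exists_approx x
    obtain ⟨M', hM'⟩ := T.exists_approx y
    have hx := hM.mono_left hU
    have hy := hM'.mono_left hU
    ext a c
    refine tendsto_nhds_unique (hΦ a c (x * y) (fun L => M L * M' L) (by simpa using hx.mul hy)) ?_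
    rw [Matrix.mul_apply]
    refine Tendsto.congr' ?_
      (tendsto_finsetSum _ fun b _ => (hΦ a b x M hx).mul (hΦ b c y M' hy))
    filter_upwards [hjN] with L hL
    simp only [ent, LinearMap.coe_mk, AddHom.coe_mk]
    by_cases hac : (a : ℕ) < (T.D L).d (j L) + 1 ∧ (c : ℕ) < (T.D L).d (j L) + 1
    · rw [dif_pos hac, Pi.mul_apply, Matrix.mul_apply,
        ← Finset.sum_subset (Finset.subset_univ (Finset.univ.map
          (Fin.castLEEmb (show (T.D L).d (j L) + 1 ≤ N by omega)))), Finset.sum_map]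
      · refine Finset.sum_congr rfl fun b _ => ?_
        rw [dif_pos ⟨hac.1, b.isLt⟩, dif_pos ⟨b.isLt, hac.2⟩]
        rfl
      · intro b _ hb
        have : ¬ (b : ℕ) < (T.D L).d (j L) + 1 := fun h =>
          hb (Finset.mem_map.2 ⟨⟨b, h⟩, Finset.mem_univ _, rfl⟩)
        simp [this]
    · rw [dif_neg hac]
      refine Finset.sum_eq_zero fun b _ => ?_
      rcases not_and_or.1 hac with h | h <;> simp [h]
  let J : TwoSidedIdeal A := .mk' {a | π a = 0} (map_zero π)
    (fun {x y} (hx : π x = 0) (hy : π y = 0) => by simp [hx, hy])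
    (fun {x} (hx : π x = 0) => by simp [hx])
    (fun {a x} (hx : π x = 0) => by simp [hmul, hx])
    (fun {x a} (hx : π x = 0) => by simp [hmul, hx])
  rcases eq_bot_or_eq_top J with h | h
  · refine hA (Module.Finite.of_injective π ((injective_iff_map_eq_zero π).2 fun a ha => ?_))
    have : a ∈ J := (TwoSidedIdeal.mem_mk' ..).2 ha
    rw [h] at this
    exact (TwoSidedIdeal.mem_bot A).1 this
  · have h1 : (1 : A) ∈ J := h ▸ trivial
    replace h1 : (1 : A) ∈ {a | π a = 0} := (TwoSidedIdeal.mem_mk' ..).1 h1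
    change π 1 = 0 at h1
    have hN : 0 < N := by
      obtain ⟨L, hL⟩ := hjN.exists
      omega
    have h2 := congrFun (congrFun h1 ⟨0, hN⟩) ⟨0, hN⟩
    have h3 : Φ ⟨0, hN⟩ ⟨0, hN⟩ 1 = 1 := by
      refine tendsto_nhds_unique (hΦ _ _ 1 (fun _ => 1) (by simp)) (tendsto_const_nhds.congr' ?_)
      filter_upwards with L
      simp [ent]
    simp [π, h3] at h2

end Vale.Agent.P095.SI
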