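import Vale.Agent.P095.Tracial.Defs

/-!
P095, equivariant (SI) step (notes/P095/helper2_si.md): definitions.
-/

namespace Vale.Agent.P095.SI

open Tracial

variable {A : Type*} [CStarAlgebra A] {G : Type*} [Group G]

/-- All commutators with a finite set are small. -/
def Central (S : Finset A) (δ : ℝ) (b : A) : Prop := ∀ a ∈ S, ‖b * a - a * b‖ ≤ δ

/-- A group element acts trivially on every sufficiently central contraction, up to any margin. -/
def InKernel (α : G →* (A ≃⋆ₐ[ℂ] A)) (d : G) : Prop :=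
  ∀ ε : ℝ, 0 < ε → ∃ (S : Finset A) (δ : ℝ), 0 < δ ∧
    ∀ b : A, ‖b‖ ≤ 1 → Central S δ b → ‖α d b - b‖ ≤ ε

/-- Matrix units of a unital finite-dimensional subalgebra. -/
structure MU (A : Type*) [CStarAlgebra A] where
  /-- The number of blocks. -/
  m : ℕ
  /-- The sizes of the blocks, minus one. -/
  d : Fin m → ℕ
  /-- The matrix units. -/
  e : ∀ i, Fin (d i + 1) → Fin (d i + 1) → A
  ne_zero : ∀ i, e i 0 0 ≠ 0
  star_e : ∀ i a b, star (e i a b) = e i b a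
  mul_same : ∀ i a b c f, e i a b * e i c f = if b = c then e i a f else 0
  mul_ne : ∀ i j, i ≠ j → ∀ a b c f, e i a b * e j c f = 0
  sum_eq : ∑ i, ∑ a, e i a a = 1

/-- An element commutes with all the matrix units. -/
def MU.Commutes (D : MU A) (x : A) : Prop := ∀ i a b, Commute x (D.e i a b)

/-- The expectation onto the commutant of the matrix units. -/
noncomputable def MU.expect (D : MU A) (x : A) : A := ∑ i, ∑ a, D.e i a 0 * x * D.e i 0 a

/-- The span of the matrix units. -/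
noncomputable def MU.alg (D : MU A) : Submodule ℂ A :=
  Submodule.span ℂ {x | ∃ i a b, D.e i a b = x}

/-- An approximately finite-dimensional algebra, as a tower of matrix units. -/
structure AFTower (A : Type*) [CStarAlgebra A] where
  /-- The matrix units of the steps. -/
  D : ℕ → MU A
  mono : ∀ k, (D k).alg ≤ (D (k + 1)).alg
  dense : ∀ (a : A) (ε : ℝ), 0 < ε → ∃ k, ∃ y ∈ (D k).alg, ‖a - y‖ ≤ ε

/-- Theorem T: an almost invariant, almost central element generating a two by two matrix algebra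
in every trace. -/
def TracialM2 (α : G →* (A ≃⋆ₐ[ℂ] A)) : Prop :=
  ∀ (K : Finset G) (S : Finset A) (ε : ℝ), 0 < ε → ∃ x : A, ‖x‖ ≤ 1 ∧
    (∀ a ∈ S, ‖x * a - a * x‖ ≤ ε) ∧
    ∀ τ, IsTraceOn (⊤ : StarSubalgebra ℂ A) τ →
      tsq τ (x * x) ≤ ε ∧ tsq τ (sq2 x - 1) ≤ ε ∧ ∀ g ∈ K, tsq τ (α g x - x) ≤ ε

/-- Smallness of the defects of an almost square-zero element in every trace. -/
def TraceSmall (x : A) (δ : ℝ) : Prop :=
  ∀ τ, IsTraceOn (⊤ : StarSubalgebra ℂ A) τ →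
    tsq τ (1 - sq2 x) ≤ δ ∧ (τ (star x * x * (1 - star x * x))).re ≤ δ

/-- The lifted element: square zero and invariant in norm. -/
def LiftGood (α : G →* (A ≃⋆ₐ[ℂ] A)) : Prop :=
  ∀ (K : Finset G) (S : Finset A) (ε : ℝ), 0 < ε → ∃ x : A, ‖x‖ ≤ 1 ∧ Central S ε x ∧
    ‖x * x‖ ≤ ε ∧ (∀ g ∈ K, ‖α g x - x‖ ≤ ε) ∧ TraceSmall x ε

/-- The approximate dimension drop relations, almost central and almost invariant. -/
def DropGood (α : G →* (A ≃⋆ₐ[ℂ] A)) : Prop :=
  ∀ (K : Finset G) (S : Finset A) (ε : ℝ), 0 < ε → ∃ y s : A, ‖y‖ ≤ 1 ∧ ‖s‖ ≤ 1 ∧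
    Central S ε y ∧ Central S ε s ∧
    ‖y * y‖ ≤ ε ∧ ‖star s * s - (1 - star y * y - y * star y)‖ ≤ ε ∧ ‖star y * y * s - s‖ ≤ ε ∧
    ∀ g ∈ K, ‖α g y - y‖ ≤ ε ∧ ‖α g s - s‖ ≤ ε

end Vale.Agent.P095.SI
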