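import Vale.Agent.P095.SI.Pins
import Vale.Agent.P101.DimDrop.Main

/-!
P095, equivariant (SI) step, block B4b: from approximate relations to exact ones in the fixed
algebra of the central sequence algebra.
-/

namespace Vale.Agent.P095.SI

open Filter Vale.Agent.P101 Vale.Agent.P095
open scoped Topology BoundedContinuousFunction

universe u v

noncomputable local instance diagCStar {A : Type u} [CStarAlgebra A] (w : Ultrafilter ℕ) :
    CStarAlgebra (centralSeq (w : Filter ℕ) A) :=
  StarSubalgebra.cstarAlgebra _ (h_closed := isClosed_centralSeq w)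

lemma tendsto_zero_of_norm_le {A : Type u} [CStarAlgebra A] {w : Ultrafilter ℕ}
    (hw : (w : Filter ℕ) ≤ cofinite) (N : ℕ) {f : ℕ → A}
    (h : ∀ n ≥ N, ‖f n‖ ≤ 1 / ((n : ℝ) + 1)) : Tendsto f w (𝓝 0) := by
  refine Tendsto.mono_left ?_ (hw.trans Nat.cofinite_eq_atTop.le)
  refine squeeze_zero_norm' ?_ tendsto_one_div_add_atTop_nhds_zero_nat
  filter_upwards [eventually_ge_atTop N] with n hn using h n hn

theorem diagonalPin : DiagonalPin.{u, v} := by
  intro A _ _ G _ _ α hgood w hw
  classical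
  let : CStarAlgebra (centralSeq (w : Filter ℕ) A) :=
    StarSubalgebra.cstarAlgebra _ (h_closed := isClosed_centralSeq w)
  obtain ⟨a, ha⟩ := TopologicalSpace.exists_dense_seq A
  obtain ⟨e, he⟩ := exists_surjective_nat G
  have hstep : ∀ n : ℕ, _ := fun n => hgood ((Finset.range (n + 1)).image e)
    ((Finset.range (n + 1)).image a) (1 / ((n : ℝ) + 1)) Nat.one_div_pos_of_nat
  choose y s hy hs hyc hsc hy2 hss hys hinv using hstep
  let mk : ∀ f : ℕ → A, (∀ n, ‖f n‖ ≤ 1) → (ℕ →ᵇ A) := fun f hf =>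
    BoundedContinuousFunction.ofNormedAddCommGroupDiscrete f 1 hf
  have hcent : ∀ (f : ℕ → A) (hf : ∀ n, ‖f n‖ ≤ 1),
      (∀ n, Central ((Finset.range (n + 1)).image a) (1 / ((n : ℝ) + 1)) (f n)) →
      mk f hf ∈ centralSeq (w : Filter ℕ) A := by
    intro f hf hc b
    rw [Metric.tendsto_nhds]
    intro ε hε
    obtain ⟨i, hi⟩ := ha.exists_dist_lt b (show 0 < ε / 4 by positivity)
    have h1 : Tendsto (fun n => f n * a i - a i * f n) w (𝓝 0) :=
      tendsto_zero_of_norm_le hw i fun n hn =>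
        hc n (a i) (Finset.mem_image_of_mem a (Finset.mem_range.2 (by omega)))
    filter_upwards [Metric.tendsto_nhds.1 h1 (ε / 2) (by positivity)] with n hn
    rw [dist_zero_right] at hn ⊢
    rw [dist_eq_norm] at hi
    show ‖f n * b - b * f n‖ < ε
    calc ‖f n * b - b * f n‖
        = ‖(f n * (b - a i) - (b - a i) * f n) + (f n * a i - a i * f n)‖ := by
          congr 1; noncomm_ring
      _ ≤ (‖f n‖ * ‖b - a i‖ + ‖b - a i‖ * ‖f n‖) + ‖f n * a i - a i * f n‖ :=
          (norm_add_le _ _).trans (add_le_add ((norm_sub_le _ _).trans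
            (add_le_add (norm_mul_le _ _) (norm_mul_le _ _))) le_rfl)
      _ < ε := by nlinarith [hf n, norm_nonneg (f n), norm_nonneg (b - a i)]
  let Y : centralSeq (w : Filter ℕ) A := ⟨mk y hy, hcent y hy hyc⟩
  let S : centralSeq (w : Filter ℕ) A := ⟨mk s hs, hcent s hs hsc⟩
  let q := quotHom (nullIdeal (A := A) w)
  have hnull : ∀ (f g : centralSeq (w : Filter ℕ) A),
      Tendsto (fun n => (f : ℕ →ᵇ A) n - (g : ℕ →ᵇ A) n) w (𝓝 0) → q f = q g := by
    intro f g h
    exact (Ideal.Quotient.mk_eq_mk_iff_sub_mem f g).2 h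
  have hfix : ∀ g, quotAct α w g (q Y) = q Y ∧ quotAct α w g (q S) = q S := by
    intro g
    obtain ⟨i, rfl⟩ := he g
    have hm : ∀ n ≥ i, e i ∈ (Finset.range (n + 1)).image e := fun n hn =>
      Finset.mem_image_of_mem e (Finset.mem_range.2 (by omega))
    constructor
    · exact (quotAct_mk α w (e i) Y).trans
        (hnull _ _ (tendsto_zero_of_norm_le hw i fun n hn => (hinv n (e i) (hm n hn)).1))
    · exact (quotAct_mk α w (e i) S).trans
        (hnull _ _ (tendsto_zero_of_norm_le hw i fun n hn => (hinv n (e i) (hm n hn)).2))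
  have hrel : DropRelations (q Y) (q S) := by
    refine ⟨?_, ?_, ?_⟩
    · rw [← map_mul, ← map_zero q]
      exact hnull _ _ (tendsto_zero_of_norm_le hw 0 fun n _ => by
        show ‖y n * y n - 0‖ ≤ _
        rw [sub_zero]
        exact hy2 n)
    · simp only [← map_star, ← map_mul, ← map_one q, ← map_sub]
      exact hnull _ _ (tendsto_zero_of_norm_le hw 0 fun n _ => hss n)
    · simp only [← map_star, ← map_mul]
      exact hnull _ _ (tendsto_zero_of_norm_le hw 0 fun n _ => hys n)
  obtain ⟨φ⟩ := (DimDrop.exists_starAlgHom_iff (F := fixedQuot α w)).2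
    ⟨⟨q Y, fun g => (hfix g).1⟩, ⟨q S, fun g => (hfix g).2⟩,
      Subtype.ext hrel.1, Subtype.ext hrel.2.1, Subtype.ext hrel.2.2⟩
  exact ⟨(fixedQuot α w).subtype.comp φ, fun g z => (φ z).2 g⟩

end Vale.Agent.P095.SI
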