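import Vale.Agent.P095.SI.EventMoved

/-!
P095, equivariant (SI) step, block B2: two almost commuting self-adjoint elements at positive
distance have spectral pieces far apart; this gives an event moved off itself by one element.
-/

namespace Vale.Agent.P095.SI

variable {A : Type*} [CStarAlgebra A]

/-- The hat function. -/
noncomputable def hat (u : ℝ) : ℝ := max 0 (1 - |u|)

@[fun_prop]
lemma continuous_hat : Continuous hat := by unfold hat; fun_prop

lemma hat_nonneg (u : ℝ) : 0 ≤ hat u := le_max_left _ _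

lemma hat_le_one (u : ℝ) : hat u ≤ 1 :=
  max_le zero_le_one (by linarith [abs_nonneg u])

lemma hat_eq_zero {u : ℝ} (h : 1 ≤ |u|) : hat u = 0 := max_eq_left (by linarith)

/-- Hats form a partition of unity reproducing affine functions. -/
lemma hat_sums (N : ℕ) {y : ℝ} (hy : |y| ≤ N) :
    ∑ i ∈ Finset.Icc (-(N : ℤ)) N, hat (y - i) = 1 ∧
      ∑ i ∈ Finset.Icc (-(N : ℤ)) N, (i : ℝ) * hat (y - i) = y := by
  classical
  obtain ⟨hy1, hy2⟩ := abs_le.1 hy
  set m : ℤ := ⌊y⌋ with hm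
  have hm1 : (m : ℝ) ≤ y := Int.floor_le y
  have hm2 : y < m + 1 := Int.lt_floor_add_one y
  set I := Finset.Icc (-(N : ℤ)) N with hI
  have hmI : m ∈ I := by
    rw [hI, Finset.mem_Icc]
    exact ⟨Int.le_floor.2 (by push_cast; linarith),
      Int.cast_le.1 (show ((m : ℤ) : ℝ) ≤ ((N : ℤ) : ℝ) by push_cast; linarith)⟩
  have hout : ∀ i : ℤ, i ≠ m → i ≠ m + 1 → hat (y - i) = 0 := by
    intro i h1 h2
    refine hat_eq_zero ?_
    rcases lt_or_gt_of_ne h1 with h | h
    · have : (i : ℝ) ≤ m - 1 := by exact_mod_cast (show i ≤ m - 1 by omega)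
      exact le_trans (by linarith) (le_abs_self _)
    · have : (m : ℝ) + 2 ≤ i := by exact_mod_cast (show m + 2 ≤ i by omega)
      exact le_trans (by linarith) (neg_le_abs _)
  have h0 : hat (y - m) = 1 - (y - m) := by
    rw [hat, abs_of_nonneg (by linarith), max_eq_right (by linarith)]
  have h1 : hat (y - (m + 1 : ℤ)) = y - m := by
    rw [hat, abs_of_nonpos (by push_cast; linarith), max_eq_right (by push_cast; linarith)]
    push_cast; ring
  have hgen : ∀ g : ℤ → ℝ, ∑ i ∈ I, g i * hat (y - i)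
      = g m * hat (y - m) + g (m + 1) * hat (y - (m + 1 : ℤ)) := by
    intro g
    rw [show g m * hat (y - m) + g (m + 1) * hat (y - (m + 1 : ℤ))
        = ∑ i ∈ ({m, m + 1} : Finset ℤ), g i * hat (y - i) by
      rw [Finset.sum_pair (by omega)]]
    by_cases hmem : m + 1 ∈ I
    · refine (Finset.sum_subset ?_ fun i _ hi => ?_).symm
      · intro i hi
        simp only [Finset.mem_insert, Finset.mem_singleton] at hi
        rcases hi with rfl | rfl <;> assumption
      · simp only [Finset.mem_insert, Finset.mem_singleton, not_or] at hi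
        rw [hout i hi.1 hi.2, mul_zero]
    · have hmN : m = N := by
        simp only [hI, Finset.mem_Icc] at hmI hmem
        omega
      have hz : hat (y - (m + 1 : ℤ)) = 0 := by
        rw [h1]
        have : (m : ℝ) = N := by exact_mod_cast hmN
        linarith
      rw [Finset.sum_pair (by omega), hz, mul_zero, add_zero]
      refine Finset.sum_eq_single_of_mem m hmI fun i hi hne => ?_
      rw [hout i hne (fun h => hmem (h ▸ hi)), mul_zero]
  refine ⟨?_, ?_⟩
  · have := hgen fun _ => 1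
    simp only [one_mul] at this
    rw [this, h0, h1]; ring
  · rw [hgen fun i => (i : ℝ), h0, h1]; push_cast; ring

/-- The spectral pieces of width `1 / N`. -/
noncomputable def piece (N : ℕ) (i : ℤ) (x : ℝ) : ℝ := hat ((N : ℝ) * x - i)

@[fun_prop]
lemma continuous_piece (N : ℕ) (i : ℤ) : Continuous (piece N i) := by unfold piece; fun_prop

lemma piece_mul_eq_zero (N : ℕ) {i j : ℤ} (h : 2 ≤ |i - j|) (x : ℝ) :
    piece N i x * piece N j x = 0 := by
  rcases le_or_gt 1 |(N : ℝ) * x - i| with h1 | h1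
  · rw [piece, hat_eq_zero h1, zero_mul]
  · rw [piece, piece, hat_eq_zero (u := (N : ℝ) * x - j), mul_zero]
    have h2 : (2 : ℝ) ≤ |(i : ℝ) - j| := by exact_mod_cast h
    have h3 : |(i : ℝ) - j| ≤ |(N : ℝ) * x - i| + |(N : ℝ) * x - j| := by
      rw [show (i : ℝ) - j = ((N : ℝ) * x - j) - ((N : ℝ) * x - i) by ring]
      exact (abs_sub _ _).trans (le_of_eq (add_comm _ _))
    linarith

lemma cfc_piece_mul_eq_zero (N : ℕ) {i j : ℤ} (h : 2 ≤ |i - j|) (x : A) :
    cfc (piece N i) x * cfc (piece N j) x = 0 := by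
  rw [← cfc_mul (piece N i) (piece N j) x]
  simp only [piece_mul_eq_zero N h, cfc_const_zero]

lemma norm_cfc_piece_le (N : ℕ) (i : ℤ) (x : A) : ‖cfc (piece N i) x‖ ≤ 1 :=
  norm_cfc_le zero_le_one fun t _ => by
    rw [Real.norm_eq_abs, piece, abs_of_nonneg (hat_nonneg _)]
    exact hat_le_one _

/-- Sums along two orthogonal families have the size of one term. -/
lemma norm_band_le {ι : Type*} (I : Finset ι) (a b : ι → A) (ha : ∀ i, IsSelfAdjoint (a i))
    (hb : ∀ i, IsSelfAdjoint (b i)) (hao : ∀ i ∈ I, ∀ j ∈ I, i ≠ j → a i * a j = 0)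
    (hbo : ∀ i ∈ I, ∀ j ∈ I, i ≠ j → b i * b j = 0) (hbn : ∀ i, ‖b i‖ ≤ 1)
    (hsum : ‖∑ i ∈ I, a i‖ ≤ 1) : ‖∑ i ∈ I, a i * b i‖ ≤ 1 := by
  classical
  let := CStarAlgebra.spectralOrder A
  have := CStarAlgebra.spectralOrderedRing A
  set z := ∑ i ∈ I, a i * b i with hz
  have hzz : z * star z = ∑ i ∈ I, a i * (b i * b i) * a i := by
    rw [hz, star_sum, Finset.sum_mul_sum]
    refine Finset.sum_congr rfl fun i hi => ?_
    rw [Finset.sum_eq_single_of_mem i hi]
    · rw [star_mul, (ha i).star_eq, (hb i).star_eq]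
      noncomm_ring
    · intro j hj hne
      rw [star_mul, (ha j).star_eq, (hb j).star_eq,
        show a i * b i * (b j * a j) = a i * (b i * b j) * a j by noncomm_ring,
        hbo i hi j hj hne.symm]
      simp
  have hsq : (∑ i ∈ I, a i) * (∑ i ∈ I, a i) = ∑ i ∈ I, a i * a i := by
    rw [Finset.sum_mul_sum]
    exact Finset.sum_congr rfl fun i hi =>
      Finset.sum_eq_single_of_mem i hi fun j hj hne => hao i hi j hj hne.symm
  have hle : z * star z ≤ (∑ i ∈ I, a i) * (∑ i ∈ I, a i) := by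
    rw [hzz, hsq]
    refine Finset.sum_le_sum fun i _ => ?_
    have h1 : b i * b i ≤ 1 := by
      have h2 : 0 ≤ b i * b i := by
        nth_rewrite 1 [← (hb i).star_eq]
        exact star_mul_self_nonneg _
      exact (CStarAlgebra.norm_le_one_iff_of_nonneg _ h2).1
        ((norm_mul_le _ _).trans (mul_le_one₀ (hbn i) (norm_nonneg _) (hbn i)))
    have := star_left_conjugate_le_conjugate h1 (a i)
    rwa [(ha i).star_eq, mul_one] at this
  have h1 := CStarAlgebra.norm_le_norm_of_nonneg_of_le (mul_star_self_nonneg z) hle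
  rw [CStarRing.norm_self_mul_star] at h1
  have h2 : ‖(∑ i ∈ I, a i) * (∑ i ∈ I, a i)‖ ≤ 1 :=
    (norm_mul_le _ _).trans (mul_le_one₀ hsum (norm_nonneg _) hsum)
  nlinarith [norm_nonneg z]

variable (N : ℕ)

lemma norm_sum_piece_le (hN : 0 < N) (J : Finset ℤ) (hJ : J ⊆ Finset.Icc (-(N : ℤ)) N) {x : A}
    (hx : IsSelfAdjoint x) (hx1 : ‖x‖ ≤ 1) : ‖∑ i ∈ J, cfc (piece N i) x‖ ≤ 1 := by
  rcases subsingleton_or_nontrivial A with hA | hA
  · simp [Subsingleton.elim _ (0 : A)]
  rw [← cfc_sum (piece N) x J]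
  refine norm_cfc_le zero_le_one fun t ht => ?_
  have htn : |t| ≤ 1 := le_trans (by simpa using spectrum.norm_le_norm_of_mem ht) hx1
  have hy : |(N : ℝ) * t| ≤ N := by
    rw [abs_mul, Nat.abs_cast]
    exact mul_le_of_le_one_right (Nat.cast_nonneg N) htn
  simp only [Finset.sum_apply, Real.norm_eq_abs, piece]
  rw [abs_of_nonneg (Finset.sum_nonneg fun i _ => hat_nonneg _), ← (hat_sums N hy).1]
  exact Finset.sum_le_sum_of_subset_of_nonneg hJ fun i _ _ => hat_nonneg _

lemma pieces_spec (hN : 0 < N) {x : A} (hx : IsSelfAdjoint x) (hx1 : ‖x‖ ≤ 1) :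
    ∑ i ∈ Finset.Icc (-(N : ℤ)) N, cfc (piece N i) x = 1 ∧
      ∑ i ∈ Finset.Icc (-(N : ℤ)) N, ((i : ℝ) / N) • cfc (piece N i) x = x := by
  rcases subsingleton_or_nontrivial A with hA | hA
  · exact ⟨Subsingleton.elim _ _, Subsingleton.elim _ _⟩
  have hy : ∀ t ∈ spectrum ℝ x, |(N : ℝ) * t| ≤ N := fun t ht => by
    have htn : |t| ≤ 1 := le_trans (by simpa using spectrum.norm_le_norm_of_mem ht) hx1
    rw [abs_mul, Nat.abs_cast]
    exact mul_le_of_le_one_right (Nat.cast_nonneg N) htn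
  refine ⟨?_, ?_⟩
  · rw [← cfc_sum (piece N) x _]
    conv_rhs => rw [← cfc_const_one ℝ x]
    refine cfc_congr fun t ht => ?_
    simp only [Finset.sum_apply]
    exact (hat_sums N (hy t ht)).1
  · have e : ∀ i : ℤ, ((i : ℝ) / N) • cfc (piece N i) x
        = cfc (fun t => (i : ℝ) / N * piece N i t) x := fun i =>
      (cfc_const_mul _ (piece N i) x).symm
    simp only [e]
    rw [← cfc_sum (fun (i : ℤ) (t : ℝ) => (i : ℝ) / N * piece N i t) x _]
    conv_rhs => rw [← cfc_id' ℝ x]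
    refine cfc_congr fun t ht => ?_
    simp only [Finset.sum_apply]
    have h := (hat_sums N (hy t ht)).2
    have hN' : (N : ℝ) ≠ 0 := by positivity
    calc ∑ i ∈ Finset.Icc (-(N : ℤ)) N, (i : ℝ) / N * piece N i t
        = (∑ i ∈ Finset.Icc (-(N : ℤ)) N, (i : ℝ) * hat ((N : ℝ) * t - i)) / N := by
          rw [Finset.sum_div]
          exact Finset.sum_congr rfl fun i _ => by rw [piece]; ring
      _ = t := by rw [h]; field_simp

/-- A neighbouring band is small. -/
lemma norm_shift_band_le (hN : 0 < N) {B B' : A} (hB : IsSelfAdjoint B) (hB1 : ‖B‖ ≤ 1) (k : ℤ) :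
    ‖∑ i ∈ Finset.Icc (-(N : ℤ)) N, if i + k ∈ Finset.Icc (-(N : ℤ)) N then
      cfc (piece N i) B * cfc (piece N (i + k)) B' else 0‖ ≤ 2 := by
  classical
  set I := (Finset.Icc (-(N : ℤ)) N).filter (fun i => i + k ∈ Finset.Icc (-(N : ℤ)) N)
  rw [← Finset.sum_filter, ← Finset.sum_filter_add_sum_filter_not I (fun i => Even i)]
  refine (norm_add_le _ _).trans ?_
  have key : ∀ J : Finset ℤ, J ⊆ I → (∀ i ∈ J, ∀ j ∈ J, i ≠ j → 2 ≤ |i - j|) →
      ‖∑ i ∈ J, cfc (piece N i) B * cfc (piece N (i + k)) B'‖ ≤ 1 := fun J hJ hfar =>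
    norm_band_le J _ _ (fun i => cfc_predicate _ B) (fun i => cfc_predicate _ B')
      (fun i hi j hj hne => cfc_piece_mul_eq_zero N (hfar i hi j hj hne) B)
      (fun i hi j hj hne => cfc_piece_mul_eq_zero N (by simpa using hfar i hi j hj hne) B')
      (fun i => norm_cfc_piece_le N _ B')
      (norm_sum_piece_le N hN J (hJ.trans (Finset.filter_subset _ _)) hB hB1)
  have h2 : ∀ i j : ℤ, (Even i ↔ Even j) → i ≠ j → 2 ≤ |i - j| := by
    intro i j h hne
    rw [Int.even_iff, Int.even_iff] at h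
    rw [le_abs]
    omega
  have h3 := key (I.filter fun i => Even i) (Finset.filter_subset _ _) fun i hi j hj hne =>
    h2 i j (iff_of_true (Finset.mem_filter.1 hi).2 (Finset.mem_filter.1 hj).2) hne
  have h4 := key (I.filter fun i => ¬ Even i) (Finset.filter_subset _ _) fun i hi j hj hne =>
    h2 i j (iff_of_false (Finset.mem_filter.1 hi).2 (Finset.mem_filter.1 hj).2) hne
  linarith

/-- Two contractions at distance `r` have far pieces with a product bounded below. -/
lemma exists_far_pieces {r : ℝ} (hr : 0 < r) :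
    ∃ (N : ℕ) (c : ℝ), 0 < c ∧ ∀ B B' : A, IsSelfAdjoint B → IsSelfAdjoint B' → ‖B‖ ≤ 1 →
      ‖B'‖ ≤ 1 → r ≤ ‖B - B'‖ → ∃ i ∈ Finset.Icc (-(N : ℤ)) N, ∃ j ∈ Finset.Icc (-(N : ℤ)) N,
        2 ≤ |i - j| ∧ c ≤ ‖cfc (piece N i) B * cfc (piece N j) B'‖ := by
  classical
  obtain ⟨N, hN⟩ := exists_nat_gt (8 / r)
  have hN0 : (0 : ℝ) < N := lt_trans (by positivity) hN
  have hNn : 0 < N := by exact_mod_cast hN0
  refine ⟨N, r / (5 * (2 * (N : ℝ) + 1) ^ 2), by positivity,
    fun B B' hB hB' hB1 hB1' hd => ?_⟩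
  set c := r / (5 * (2 * (N : ℝ) + 1) ^ 2) with hc
  by_contra hne
  simp only [not_exists, not_and, not_le] at hne
  set I := Finset.Icc (-(N : ℤ)) N with hI
  set F : ℤ → ℤ → A := fun i j => cfc (piece N i) B * cfc (piece N j) B' with hF
  obtain ⟨h1, h2⟩ := pieces_spec N hNn hB hB1
  obtain ⟨h1', h2'⟩ := pieces_spec N hNn hB' hB1'
  have hBe : B - B' = ∑ i ∈ I, ∑ j ∈ I, (((i : ℝ) - j) / N) • F i j := by
    have e1 : B = ∑ i ∈ I, ∑ j ∈ I, ((i : ℝ) / N) • F i j := by
      simp only [hF, ← Finset.smul_sum, ← Finset.mul_sum, h1', mul_one, h2, hI]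
    have e2 : B' = ∑ i ∈ I, ∑ j ∈ I, ((j : ℝ) / N) • F i j := by
      simp only [hF, ← mul_smul_comm, ← Finset.mul_sum, h2', ← Finset.sum_mul, h1, one_mul, hI]
    conv_lhs => rw [e1, e2]
    simp only [← Finset.sum_sub_distrib, ← sub_smul, sub_div]
  have hsplit : ∀ i j : ℤ, (((i : ℝ) - j) / N) • F i j
      = (if j = i + 1 then (-1 / (N : ℝ)) • F i j else 0)
        + (if j = i + -1 then (1 / (N : ℝ)) • F i j else 0)
        + (if 2 ≤ |i - j| then (((i : ℝ) - j) / N) • F i j else 0) := by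
    intro i j
    by_cases h3 : 2 ≤ |i - j|
    · rw [if_pos h3, if_neg, if_neg, zero_add, zero_add]
      · rintro rfl; simp at h3
      · rintro rfl; simp at h3
    · rw [if_neg h3, add_zero]
      rw [not_le, abs_lt] at h3
      rcases (show j = i ∨ j = i + 1 ∨ j = i + -1 by omega) with rfl | rfl | rfl
      · simp
      · rw [if_pos rfl, if_neg (by omega), add_zero]
        push_cast; ring_nf
      · rw [if_neg (by omega), if_pos rfl, zero_add]
        push_cast; ring_nf
  rw [Finset.sum_congr rfl fun i (_ : i ∈ I) =>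
    Finset.sum_congr rfl fun j (_ : j ∈ I) => hsplit i j] at hBe
  simp only [Finset.sum_add_distrib, Finset.sum_ite_eq'] at hBe
  have hband : ∀ (k : ℤ) (s : ℝ), ‖∑ i ∈ I, if i + k ∈ I then s • F i (i + k) else 0‖
      ≤ |s| * 2 := by
    intro k s
    rw [show (∑ i ∈ I, if i + k ∈ I then s • F i (i + k) else 0)
        = s • ∑ i ∈ I, if i + k ∈ I then F i (i + k) else 0 by
      rw [Finset.smul_sum]; exact Finset.sum_congr rfl fun i _ => by split_ifs <;> simp,
      norm_smul, Real.norm_eq_abs]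
    exact mul_le_mul_of_nonneg_left (norm_shift_band_le N hNn hB hB1 k) (abs_nonneg s)
  have hfar : ‖∑ i ∈ I, ∑ j ∈ I, if 2 ≤ |i - j| then (((i : ℝ) - j) / N) • F i j else 0‖
      ≤ (2 * (N : ℝ) + 1) ^ 2 * (2 * c) := by
    refine (norm_sum_le_of_le _ fun i hi => norm_sum_le_of_le I (n := fun _ => 2 * c)
      fun j hj => ?_).trans (le_of_eq ?_)
    · have hc0 : 0 ≤ c := by positivity
      split_ifs with h3
      · rw [norm_smul, Real.norm_eq_abs]
        refine mul_le_mul ?_ (hne i hi j hj h3).le (norm_nonneg _) zero_le_two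
        rw [abs_div, Nat.abs_cast, div_le_iff₀ hN0]
        have hi' := Finset.mem_Icc.1 hi
        have hj' := Finset.mem_Icc.1 hj
        have e : |i - j| ≤ 2 * (N : ℤ) := abs_le.2 ⟨by omega, by omega⟩
        exact_mod_cast e
      · simpa using hc0
    · simp only [Finset.sum_const, nsmul_eq_mul, hI, Int.card_Icc]
      rw [show ((N : ℤ) + 1 - -(N : ℤ)).toNat = 2 * N + 1 by omega]
      push_cast; ring
  have h5 : ‖B - B'‖ ≤ |-1 / (N : ℝ)| * 2 + |1 / (N : ℝ)| * 2
      + (2 * (N : ℝ) + 1) ^ 2 * (2 * c) := by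
    rw [hBe]
    exact norm_add₃_le.trans (add_le_add_three (hband _ _) (hband _ _) hfar)
  have h6 : (2 * (N : ℝ) + 1) ^ 2 * (2 * c) = 2 * r / 5 := by
    rw [hc]; field_simp
  have h7 : 4 / (N : ℝ) < r / 2 := by
    rw [div_lt_iff₀ hr] at hN
    rw [div_lt_iff₀ hN0]
    nlinarith
  rw [neg_div, abs_neg, abs_of_pos (by positivity : (0 : ℝ) < 1 / N), h6] at h5
  have h8 : 1 / (N : ℝ) * 2 + 1 / (N : ℝ) * 2 = 4 / N := by ring
  linarith

end Vale.Agent.P095.SI
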