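import Vale.Agent.P095.SI.Pins
import Vale.Agent.P095.SI.EventBand

/-!
P095, equivariant (SI) step, block B2: central events moved off themselves by finitely many
elements outside the kernel, inside the commutant of given matrix units.
-/

namespace Vale.Agent.P095.SI

universe u v

variable {A : Type*} [CStarAlgebra A] {G : Type*} [Group G]

/-- A raw event: a self-adjoint central contraction of large norm, almost orthogonal to its
translates. -/
def HasRaw (α : G →* (A ≃⋆ₐ[ℂ] A)) (Δ : Finset G) : Prop :=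
  ∀ (S : Finset A) (η : ℝ), 0 < η → ∃ r : A, IsSelfAdjoint r ∧ ‖r‖ ≤ 1 ∧ 3 / 4 ≤ ‖r‖ ∧
    Central S η r ∧ ∀ d ∈ Δ, ‖r * α d r‖ ≤ η

/-- An event with a witness of norm one below it. -/
def HasPair (α : G →* (A ≃⋆ₐ[ℂ] A)) (Δ : Finset G) : Prop :=
  ∀ (S : Finset A) (η : ℝ), 0 < η → ∃ p k : A, IsSelfAdjoint p ∧ IsSelfAdjoint k ∧ ‖p‖ ≤ 1 ∧
    ‖k‖ = 1 ∧ p * k = k ∧ Central S η p ∧ Central S η k ∧ ∀ d ∈ Δ, ‖p * α d p‖ ≤ η

variable {α : G →* (A ≃⋆ₐ[ℂ] A)}

/-- Raw events give events with witnesses. -/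
lemma HasRaw.pair [Nontrivial A] {Δ : Finset G} (h : HasRaw α Δ) : HasPair α Δ := by
  intro S η hη
  obtain ⟨δ₁, hδ₁, h₁⟩ := exists_central_modulus (A := A) continuous_plat zero_le_one S hη
  obtain ⟨δ₂, hδ₂, h₂⟩ := exists_central_modulus (A := A) continuous_wit zero_le_one S hη
  obtain ⟨r, hr, hr1, hr34, hrS, hrd⟩ := h S (min δ₁ (min δ₂ (η / 4)))
    (lt_min hδ₁ (lt_min hδ₂ (by positivity)))
  refine ⟨cfc plat r, cfc wit r, cfc_predicate _ r, cfc_predicate _ r,
    norm_cfc_le zero_le_one fun t _ => ?_, norm_wit_eq_one hr hr34, cfc_plat_mul_wit r hr,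
    h₁ r hr hr1 (hrS.mono subset_rfl (min_le_left _ _)),
    h₂ r hr hr1 (hrS.mono subset_rfl ((min_le_right _ _).trans (min_le_left _ _))),
    fun d hd => ?_⟩
  · rw [Real.norm_eq_abs, abs_of_nonneg (plat_nonneg t)]; exact plat_le_one t
  · have h3 : ‖r * α d r‖ ≤ η / 4 :=
      (hrd d hd).trans ((min_le_right _ _).trans (min_le_right _ _))
    linarith [norm_plat_mul_le (α d) r hr]

lemma hasPair_empty [Nontrivial A] : HasPair α ∅ := fun S η hη =>
  ⟨1, 1, IsSelfAdjoint.one A, IsSelfAdjoint.one A, norm_one.le, norm_one, one_mul _,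
    fun a _ => by simpa using hη.le, fun a _ => by simpa using hη.le, by simp⟩

/-- One element outside the kernel gives a raw event. -/
lemma hasRaw_singleton [IsSimpleRing A] [Nontrivial A] {d : G} (hd : ¬ InKernel α d) :
    HasRaw α {d} := by
  classical
  obtain ⟨ε, hε, hmv⟩ := exists_moved hd
  obtain ⟨N, c, hc, hfar⟩ := exists_far_pieces (A := A) (show 0 < ε / 2 by positivity)
  intro S η hη
  set I := Finset.Icc (-(N : ℤ)) N
  set κ := η * c ^ 4 / 4 with hκ
  have hκ0 : 0 < κ := by positivity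
  set κ' := η * c ^ 2 / 4 with hκ'
  have hκ'0 : 0 < κ' := by positivity
  -- uniform moduli for the finitely many pieces
  have hmodA : ∀ i : ℤ, ∃ δ : ℝ, 0 < δ ∧ ∀ x a : A, IsSelfAdjoint x → ‖x‖ ≤ 1 → ‖a‖ ≤ 1 →
      ‖x * a - a * x‖ ≤ δ → ‖cfc (piece N i) x * a - a * cfc (piece N i) x‖ ≤ κ := fun i =>
    exists_comm_modulus (continuous_piece N i) zero_le_one zero_le_one hκ0
  choose δA hδA hA using hmodA
  obtain ⟨m, hm, hmI⟩ : ∃ m : ℝ, 0 < m ∧ ∀ i ∈ I, m ≤ δA i :=
    ⟨I.inf' (Finset.nonempty_Icc.2 (by omega)) δA,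
      (Finset.lt_inf'_iff _).2 fun i _ => hδA i, fun i hi => Finset.inf'_le _ hi⟩
  have hmodB : ∀ i : ℤ, ∃ δ : ℝ, 0 < δ ∧ ∀ x a : A, IsSelfAdjoint x → ‖x‖ ≤ 1 → ‖a‖ ≤ 1 →
      ‖x * a - a * x‖ ≤ δ → ‖cfc (piece N i) x * a - a * cfc (piece N i) x‖ ≤ m := fun i =>
    exists_comm_modulus (continuous_piece N i) zero_le_one zero_le_one hm
  choose δB hδB hB using hmodB
  have hmodC : ∀ i : ℤ, ∃ δ : ℝ, 0 < δ ∧ ∀ x : A, IsSelfAdjoint x → ‖x‖ ≤ 1 →
      Central (S ∪ S.image (α d).symm) δ x →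
      Central (S ∪ S.image (α d).symm) κ' (cfc (piece N i) x) := fun i =>
    exists_central_modulus (continuous_piece N i) zero_le_one _ hκ'0
  choose δC hδC hC using hmodC
  obtain ⟨δ, hδ, hδI⟩ : ∃ δ : ℝ, 0 < δ ∧ ∀ i ∈ I, δ ≤ δB i ∧ δ ≤ δC i :=
    ⟨I.inf' (Finset.nonempty_Icc.2 (by omega)) (fun i => min (δB i) (δC i)),
      (Finset.lt_inf'_iff _).2 fun i _ => lt_min (hδB i) (hδC i),
      fun i hi => ⟨(Finset.inf'_le _ hi).trans (min_le_left _ _),
        (Finset.inf'_le _ hi).trans (min_le_right _ _)⟩⟩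
  -- the average
  obtain ⟨L, hL⟩ := exists_nat_gt (3 / δ)
  have hL0 : (0 : ℝ) < L := lt_trans (by positivity) hL
  obtain ⟨X, hXs, hXn, hXc, hXα, hXm⟩ := exists_sum hε hmv L (S ∪ S.image (α d).symm) δ hδ
  have hLi : |(L : ℝ)⁻¹| = (L : ℝ)⁻¹ := abs_of_pos (inv_pos.2 hL0)
  set B := (L : ℝ)⁻¹ • X with hBdef
  have hαB : α d B = (L : ℝ)⁻¹ • α d X := by
    rw [hBdef, ← algebraMap_smul ℂ ((L : ℝ)⁻¹) X, ← algebraMap_smul ℂ ((L : ℝ)⁻¹) (α d X),
      map_smul]
  have hBs : IsSelfAdjoint B := by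
    rw [isSelfAdjoint_iff, hBdef, star_smul, star_trivial, hXs.star_eq]
  have hB1 : ‖B‖ ≤ 1 := by
    rw [hBdef, norm_smul, Real.norm_eq_abs, hLi, inv_mul_le_iff₀ hL0, mul_one]
    exact hXn
  have hBc : Central (S ∪ S.image (α d).symm) δ B :=
    (hXc.smul (L : ℝ)⁻¹).mono subset_rfl (by rw [hLi, inv_mul_cancel_left₀ hL0.ne'])
  set B' := α d B with hB'def
  have hBs' : IsSelfAdjoint B' := hBs.map (α d)
  have hB1' : ‖B'‖ ≤ 1 := (NonUnitalStarAlgHom.norm_apply_le (α d) B).trans hB1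
  have hBB : ‖B * B' - B' * B‖ ≤ δ := by
    rw [hαB, hBdef, smul_mul_smul_comm, smul_mul_smul_comm, ← smul_sub, norm_smul, Real.norm_eq_abs,
      abs_mul, hLi]
    rw [div_lt_iff₀ hδ] at hL
    have h1 : (L : ℝ)⁻¹ * (L : ℝ)⁻¹ * ‖X * α d X - α d X * X‖
        ≤ (L : ℝ)⁻¹ * (L : ℝ)⁻¹ * (3 * L) :=
      mul_le_mul_of_nonneg_left hXα (by positivity)
    have h2 : (L : ℝ)⁻¹ * (L : ℝ)⁻¹ * (3 * L) = 3 / L := by field_simp
    have h3 : 3 / (L : ℝ) ≤ δ := by rw [div_le_iff₀ hL0]; linarith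
    linarith
  have hBd : ε / 2 ≤ ‖B - B'‖ := by
    rw [hαB, hBdef, ← smul_sub, norm_smul, Real.norm_eq_abs, hLi, le_inv_mul_iff₀ hL0]
    exact hXm
  obtain ⟨i, hi, j, hj, hij, hcw⟩ := hfar B B' hBs hBs' hB1 hB1' hBd
  set a := cfc (piece N i) B with ha
  set b := cfc (piece N j) B' with hb
  have has : IsSelfAdjoint a := cfc_predicate _ _
  have hbs : IsSelfAdjoint b := cfc_predicate _ _
  have ha1 : ‖a‖ ≤ 1 := norm_cfc_piece_le N i B
  have hb1 : ‖b‖ ≤ 1 := norm_cfc_piece_le N j B'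
  have hαn : ∀ y : A, ‖α d y‖ ≤ ‖y‖ := fun y => NonUnitalStarAlgHom.norm_apply_le (α d) y
  have hαa : α d a = cfc (piece N i) B' :=
    StarAlgHomClass.map_cfc (S := ℂ) (α d) (piece N i) B
      (hφ := AddMonoidHomClass.continuous_of_bound (α d) 1 fun y => by simpa using hαn y)
  set a' := α d a with ha'
  have ha1' : ‖a'‖ ≤ 1 := (hαn a).trans ha1
  have haa : ‖a * a' - a' * a‖ ≤ κ := by
    rw [norm_sub_rev, hαa]
    refine hA i B' a hBs' hB1' ha1 ?_
    rw [norm_sub_rev]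
    exact (hB i B B' hBs hB1 hB1' (hBB.trans (hδI i hi).1)).trans (hmI i hi)
  have hba : b * a' = 0 := by
    rw [hαa, hb]
    exact cfc_piece_mul_eq_zero N (by rwa [abs_sub_comm]) B'
  have hac : Central S κ' a := (hC i B hBs hB1 (hBc.mono subset_rfl (hδI i hi).2)).mono
    Finset.subset_union_left le_rfl
  have hbc : Central S κ' b := fun x hx => by
    have h1 := hC j B hBs hB1 (hBc.mono subset_rfl (hδI j hj).2) ((α d).symm x)
      (Finset.mem_union_right _ (Finset.mem_image_of_mem _ hx))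
    have e1 : α d ((α d).symm x) = x := (α d).apply_symm_apply x
    have e2 : α d (cfc (piece N j) B) = b :=
      StarAlgHomClass.map_cfc (S := ℂ) (α d) (piece N j) B
        (hφ := AddMonoidHomClass.continuous_of_bound (α d) 1 fun y => by simpa using hαn y)
    have h2 := (hαn _).trans h1
    rwa [map_sub, map_mul, map_mul, e1, e2] at h2
  set r₀ := a * b * (b * a) with hr₀
  have hr₀n : c ^ 2 ≤ ‖r₀‖ := by
    have e : r₀ = a * b * star (a * b) := by rw [star_mul, has.star_eq, hbs.star_eq]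
    rw [e, CStarRing.norm_self_mul_star, sq]
    exact mul_self_le_mul_self hc.le hcw
  have hr₀0 : 0 < ‖r₀‖ := lt_of_lt_of_le (by positivity) hr₀n
  have hr₀c : Central S (4 * κ') r₀ := fun x hx => by
    have e : r₀ * x - x * r₀ = a * b * b * (a * x - x * a) + a * b * (b * x - x * b) * a
        + a * (b * x - x * b) * b * a + (a * x - x * a) * b * b * a := by
      rw [hr₀]; noncomm_ring
    rw [e]
    have hm2 : ∀ u v : A, ‖u‖ ≤ 1 → ‖u * v‖ ≤ ‖v‖ := fun u v hu =>
      (norm_mul_le _ _).trans (mul_le_of_le_one_left (norm_nonneg _) hu)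
    have hm3 : ∀ u v : A, ‖v‖ ≤ 1 → ‖u * v‖ ≤ ‖u‖ := fun u v hv =>
      (norm_mul_le _ _).trans (mul_le_of_le_one_right (norm_nonneg _) hv)
    have h1 := hac x hx
    have h2 := hbc x hx
    refine (norm_add_le _ _).trans ((add_le_add norm_add₃_le le_rfl).trans ?_)
    have k1 : ‖a * b * b * (a * x - x * a)‖ ≤ κ' :=
      (hm2 _ _ ((hm3 _ _ hb1).trans ((hm3 _ _ hb1).trans ha1))).trans h1
    have k2 : ‖a * b * (b * x - x * b) * a‖ ≤ κ' :=
      (hm3 _ _ ha1).trans ((hm2 _ _ ((hm3 _ _ hb1).trans ha1)).trans h2)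
    have k3 : ‖a * (b * x - x * b) * b * a‖ ≤ κ' :=
      (hm3 _ _ ha1).trans ((hm3 _ _ hb1).trans ((hm2 _ _ ha1).trans h2))
    have k4 : ‖(a * x - x * a) * b * b * a‖ ≤ κ' :=
      (hm3 _ _ ha1).trans ((hm3 _ _ hb1).trans ((hm3 _ _ hb1).trans h1))
    linarith
  have hr₀m : ‖r₀ * α d r₀‖ ≤ κ := by
    have hb2 : ‖α d b‖ ≤ 1 := (hαn b).trans hb1
    have e : r₀ * α d r₀ = a * b * (b * (a * a' - a' * a)) * (α d b * (α d b * a')) := by
      rw [hr₀, map_mul, map_mul, map_mul, ← ha']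
      calc a * b * (b * a) * (a' * α d b * (α d b * a'))
          = a * b * (b * (a * a')) * (α d b * (α d b * a')) := by simp only [mul_assoc]
        _ = a * b * (b * (a * a' - a' * a)) * (α d b * (α d b * a')) := by
            rw [mul_sub b, ← mul_assoc b a' a, hba, zero_mul, sub_zero]
    rw [e]
    refine norm_mul_le _ _ |>.trans ?_
    have h1 : ‖α d b * (α d b * a')‖ ≤ 1 := (norm_mul_le _ _).trans
      (mul_le_one₀ hb2 (norm_nonneg _) ((norm_mul_le _ _).trans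
        (mul_le_one₀ hb2 (norm_nonneg _) ha1')))
    refine (mul_le_of_le_one_right (norm_nonneg _) h1).trans ((norm_mul_le _ _).trans ?_)
    refine (mul_le_of_le_one_left (norm_nonneg _) ((norm_mul_le _ _).trans
      (mul_le_one₀ ha1 (norm_nonneg _) hb1))).trans ((norm_mul_le _ _).trans ?_)
    exact (mul_le_of_le_one_left (norm_nonneg _) hb1).trans haa
  set n₀ := ‖r₀‖⁻¹ with hn₀
  have hn₀0 : 0 ≤ n₀ := by positivity
  have hn₀c : n₀ * c ^ 2 ≤ 1 := by
    rw [hn₀, inv_mul_le_iff₀ hr₀0, mul_one]; exact hr₀n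
  have hr₀s : IsSelfAdjoint r₀ := by
    rw [isSelfAdjoint_iff, hr₀]
    simp only [star_mul, has.star_eq, hbs.star_eq, mul_assoc]
  refine ⟨n₀ • r₀, by rw [isSelfAdjoint_iff, star_smul, star_trivial, hr₀s.star_eq], ?_, ?_,
    (hr₀c.smul n₀).mono subset_rfl ?_, fun e he => ?_⟩
  · rw [norm_smul, Real.norm_eq_abs, abs_of_nonneg hn₀0, hn₀, inv_mul_cancel₀ hr₀0.ne']
  · rw [norm_smul, Real.norm_eq_abs, abs_of_nonneg hn₀0, hn₀, inv_mul_cancel₀ hr₀0.ne']
    norm_num
  · rw [abs_of_nonneg hn₀0, hκ', show n₀ * (4 * (η * c ^ 2 / 4)) = n₀ * c ^ 2 * η by ring]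
    exact mul_le_of_le_one_left hη.le hn₀c
  · rw [Finset.mem_singleton] at he
    rw [he, ← algebraMap_smul ℂ n₀ r₀, map_smul, algebraMap_smul, algebraMap_smul,
      smul_mul_smul_comm, norm_smul, Real.norm_eq_abs, abs_mul, abs_of_nonneg hn₀0]
    refine (mul_le_mul_of_nonneg_left hr₀m (by positivity)).trans ?_
    rw [hκ, show n₀ * n₀ * (η * c ^ 4 / 4) = (n₀ * c ^ 2) * (n₀ * c ^ 2) * (η / 4) by ring]
    have h1 : (n₀ * c ^ 2) * (n₀ * c ^ 2) ≤ 1 := mul_le_one₀ hn₀c (by positivity) hn₀c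
    nlinarith

/-- Adding one element to an event. -/
lemma hasRaw_insert [IsSimpleRing A] [Nontrivial A] [DecidableEq G] {Δ : Finset G} {d : G}
    (hΔ : HasPair α Δ) (hd : HasPair α {d}) : HasRaw α (insert d Δ) := by
  classical
  intro S η hη
  obtain ⟨p, k, hps, hks, hp1, hk1, hpk, hpS, hkS, hpΔ⟩ := hΔ S (η / 8) (by positivity)
  have hk0 : k ≠ 0 := fun h => by rw [h, norm_zero] at hk1; exact zero_ne_one hk1
  obtain ⟨S', γ, δw, hγ, hδw, hlow⟩ := exists_lower hk0
  set δ := min (η / 8) (min δw (γ / 8)) with hδdef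
  have hδ0 : 0 < δ := lt_min (by positivity) (lt_min hδw (by positivity))
  obtain ⟨p', k', hps', hks', hp1', hk1', hpk', hpS', hkS', hpd'⟩ :=
    hd (S ∪ S' ∪ {p, k, p * α d p}) δ hδ0
  set v := k' * k with hv
  have hγv : γ ≤ ‖v‖ := hlow k' (hkS'.mono (fun x hx => by simp [hx])
    ((min_le_right _ _).trans (min_le_left _ _))) hk1'
  have hpp : ‖p * p'‖ ≤ 1 := (norm_mul_le _ _).trans (mul_le_one₀ hp1 (norm_nonneg _) hp1')
  have hppp : ‖p' * p‖ ≤ 1 := (norm_mul_le _ _).trans (mul_le_one₀ hp1' (norm_nonneg _) hp1)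
  have hαn : ∀ (g : G) (y : A), ‖α g y‖ ≤ ‖y‖ := fun g y =>
    NonUnitalStarAlgHom.norm_apply_le (α g) y
  have hm2 : ∀ u w : A, ‖u‖ ≤ 1 → ‖u * w‖ ≤ ‖w‖ := fun u w hu =>
    (norm_mul_le _ _).trans (mul_le_of_le_one_left (norm_nonneg _) hu)
  have hm3 : ∀ u w : A, ‖w‖ ≤ 1 → ‖u * w‖ ≤ ‖u‖ := fun u w hw =>
    (norm_mul_le _ _).trans (mul_le_of_le_one_right (norm_nonneg _) hw)
  have hδη : δ ≤ η / 8 := min_le_left _ _
  set r := p * p' * p with hr
  refine ⟨r, ?_, (hm3 _ _ hp1).trans hpp, ?_, fun x hx => ?_, fun e he => ?_⟩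
  · rw [isSelfAdjoint_iff, hr]
    simp only [star_mul, hps.star_eq, hps'.star_eq, mul_assoc]
  · set E := (p * k' - k' * p) * k with hE
    have hE1 : ‖E‖ ≤ δ := by
      refine (hm3 _ _ hk1.le).trans ?_
      rw [norm_sub_rev]
      exact hkS' p (by simp)
    have hpv : p * v = v + E := by
      rw [hE, sub_mul, mul_assoc k' p k, hpk, hv, ← mul_assoc]; abel
    have hp'v : p' * v = v := by rw [hv, ← mul_assoc, hpk']
    have hrv : r * v = v + E + p * p' * E := by
      rw [hr, mul_assoc, hpv, mul_add, mul_assoc p p' v, hp'v, hpv]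
    have h1 : ‖v‖ ≤ ‖r‖ * ‖v‖ + 2 * δ := by
      calc ‖v‖ = ‖r * v - E - p * p' * E‖ := by rw [hrv]; congr 1; abel
        _ ≤ ‖r * v‖ + ‖E‖ + ‖p * p' * E‖ :=
            (norm_sub_le _ _).trans (add_le_add (norm_sub_le _ _) le_rfl)
        _ ≤ _ := by linarith [norm_mul_le r v, hm2 _ E hpp]
    have h2 : δ ≤ γ / 8 := (min_le_right _ _).trans (min_le_right _ _)
    by_contra hlt
    rw [not_le] at hlt
    nlinarith
  · have e : r * x - x * r = p * p' * (p * x - x * p) + p * (p' * x - x * p') * p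
        + (p * x - x * p) * p' * p := by rw [hr]; noncomm_ring
    rw [e]
    refine norm_add₃_le.trans ?_
    have h1 := hpS x hx
    have h2 := hpS' x (by simp [hx])
    linarith [hm2 _ (p * x - x * p) hpp, hm3 ((p * x - x * p) * p') p hp1,
      hm3 (p * x - x * p) p' hp1', hm3 (p * (p' * x - x * p')) p hp1,
      hm2 p (p' * x - x * p') hp1]
  · have hαr : α e r = α e p * α e (p' * p) := by rw [hr, mul_assoc, map_mul]
    have hP : ‖α e (p' * p)‖ ≤ 1 := (hαn e _).trans hppp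
    rw [Finset.mem_insert] at he
    rcases he with rfl | he
    · have e1 : r * α e r = p * (p * α e p) * (p' * α e p') * α e p
          + p * (p' * (p * α e p) - p * α e p * p') * (α e p' * α e p) := by
        rw [hαr, map_mul, hr]; noncomm_ring
      rw [e1]
      refine (norm_add_le _ _).trans ?_
      have h1 : ‖p * (p * α e p)‖ ≤ 1 :=
        (hm2 _ _ hp1).trans ((hm2 _ _ hp1).trans ((hαn e p).trans hp1))
      have h2 : ‖p * (p * α e p) * (p' * α e p') * α e p‖ ≤ δ :=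
        (hm3 _ _ ((hαn e p).trans hp1)).trans
          ((hm2 _ _ h1).trans (hpd' e (Finset.mem_singleton_self _)))
      have h3 : ‖p * (p' * (p * α e p) - p * α e p * p') * (α e p' * α e p)‖ ≤ δ :=
        (hm3 _ _ (by rw [← map_mul]; exact hP)).trans
          ((hm2 _ _ hp1).trans (hpS' _ (by simp)))
      linarith
    · rw [show r * α e r = p * p' * (p * α e p) * α e (p' * p) by
        rw [hαr, hr]; simp only [mul_assoc]]
      refine ((hm3 _ _ hP).trans ((hm2 _ _ hpp).trans (hpΔ e he))).trans ?_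
      linarith

/-- Finitely many elements outside the kernel have events with witnesses. -/
lemma hasPair_of_notInKernel [IsSimpleRing A] [Nontrivial A] {Δ : Finset G}
    (hΔ : ∀ d ∈ Δ, ¬ InKernel α d) : HasPair α Δ := by
  classical
  induction Δ using Finset.induction_on with
  | empty => exact hasPair_empty
  | @insert d Δ _ ih =>
    exact (hasRaw_insert (ih fun e he => hΔ e (Finset.mem_insert_of_mem he))
      (hasRaw_singleton (hΔ d (Finset.mem_insert_self _ _))).pair).pair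

theorem eventPin : EventPin.{u, v} := by
  intro A _ _ G _ α D Δ hΔ S η hη
  classical
  let := CStarAlgebra.spectralOrder A
  have := CStarAlgebra.spectralOrderedRing A
  have hpair := hasPair_of_notInKernel hΔ
  have he0 : ∀ i, D.e i 0 0 ≠ 0 := D.ne_zero
  choose Sw γ δw hγ hδw hlow using fun i => exists_lower (he0 i)
  obtain ⟨γ₀, hγ₀, δ₀, hδ₀, hγi⟩ : ∃ γ₀ : ℝ, 0 < γ₀ ∧ ∃ δ₀ : ℝ, 0 < δ₀ ∧
      ∀ i, γ₀ ≤ γ i ∧ δ₀ ≤ δw i := by
    rcases isEmpty_or_nonempty (Fin D.m) with h | h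
    · exact ⟨1, one_pos, 1, one_pos, fun i => isEmptyElim i⟩
    · exact ⟨Finset.univ.inf' Finset.univ_nonempty γ, (Finset.lt_inf'_iff _).2 fun i _ => hγ i,
        Finset.univ.inf' Finset.univ_nonempty δw, (Finset.lt_inf'_iff _).2 fun i _ => hδw i,
        fun i => ⟨Finset.inf'_le _ (Finset.mem_univ _), Finset.inf'_le _ (Finset.mem_univ _)⟩⟩
  obtain ⟨δc, hδc, hmod⟩ := exists_central_modulus (A := A) continuous_plat zero_le_one S hη
  set C₁ : ℝ := ∑ i : Fin D.m, (D.d i + 1 : ℝ) with hC₁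
  have hC₁0 : 0 ≤ C₁ := Finset.sum_nonneg fun i _ => by positivity
  set M : ℝ := ∑ a ∈ S, ‖a‖ with hM
  have hM0 : 0 ≤ M := Finset.sum_nonneg fun a _ => norm_nonneg a
  obtain ⟨δ, hδ, hδ1, hδ2, hδ3, hδ4⟩ : ∃ δ : ℝ, 0 < δ ∧ δ ≤ δ₀ ∧
      δ * (1 + 2 * M * C₁) ≤ δc ∧ δ * (1 + 2 * C₁) ≤ η / 4 ∧ δ * (8 * (C₁ + 2)) ≤ γ₀ / 4 := by
    refine ⟨min δ₀ (min (δc / (1 + 2 * M * C₁)) (min (η / 4 / (1 + 2 * C₁))
      (γ₀ / 4 / (8 * (C₁ + 2))))), ?_, min_le_left _ _, ?_, ?_, ?_⟩
    · exact lt_min hδ₀ (lt_min (by positivity) (lt_min (by positivity) (by positivity)))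
    · exact (le_div_iff₀ (by positivity)).1 ((min_le_right _ _).trans (min_le_left _ _))
    · exact (le_div_iff₀ (by positivity)).1
        ((min_le_right _ _).trans ((min_le_right _ _).trans (min_le_left _ _)))
    · exact (le_div_iff₀ (by positivity)).1
        ((min_le_right _ _).trans ((min_le_right _ _).trans (min_le_right _ _)))
  set U : Finset A := Finset.univ.biUnion fun i : Fin D.m =>
    (Finset.univ.image fun a => D.e i 0 a) ∪ Sw i ∪ {D.e i 0 0} with hU
  obtain ⟨p, k, hps, hks, hp1, hk1, hpk, hpS, hkS, hpd⟩ := hpair (S ∪ U) δ hδ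
  have hmem : ∀ i a, D.e i 0 a ∈ S ∪ U := fun i a => by
    refine Finset.mem_union_right _ (Finset.mem_biUnion.2 ⟨i, Finset.mem_univ _, ?_⟩)
    simp
  have hmemw : ∀ i, Sw i ⊆ S ∪ U := fun i x hx => by
    refine Finset.mem_union_right _ (Finset.mem_biUnion.2 ⟨i, Finset.mem_univ _, ?_⟩)
    simp [hx]
  set r := D.expect p with hr
  have hrs : IsSelfAdjoint r := by rw [isSelfAdjoint_iff, hr, D.star_expect, hps.star_eq]
  have hr1 : ‖r‖ ≤ 1 := (D.norm_expect_le p).trans hp1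
  have hrp : ‖r - p‖ ≤ C₁ * δ := by
    refine (D.expect_sub_self_le p).trans ?_
    rw [hC₁, Finset.sum_mul]
    refine Finset.sum_le_sum fun i _ => ?_
    refine (Finset.sum_le_card_nsmul _ _ δ fun a _ => hpS _ (hmem i a)).trans (le_of_eq ?_)
    simp
  have hrS : Central S δc r := fun a ha => by
    have e : r * a - a * r = (p * a - a * p) + ((r - p) * a - a * (r - p)) := by noncomm_ring
    rw [e]
    refine (norm_add_le _ _).trans (le_trans ?_ hδ2)
    have h1 := hpS a (Finset.mem_union_left _ ha)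
    have h2 : ‖a‖ ≤ M := Finset.single_le_sum (fun b _ => norm_nonneg b) ha
    have h3 : ‖(r - p) * a - a * (r - p)‖ ≤ C₁ * δ * M + M * (C₁ * δ) :=
      (norm_sub_le _ _).trans (add_le_add
        ((norm_mul_le _ _).trans (mul_le_mul hrp h2 (norm_nonneg _) (by positivity)))
        ((norm_mul_le _ _).trans (mul_le_mul h2 hrp (norm_nonneg _) hM0)))
    linarith
  have hrD : D.Commutes r := D.expect_commutes p
  have hqq := star_mul_platSqrt r hrs
  refine ⟨cfc platSqrt r, ?_, ?_, ?_, ?_, fun i => ?_⟩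
  · refine norm_cfc_le zero_le_one fun t _ => ?_
    rw [Real.norm_eq_abs, platSqrt, abs_of_nonneg (Real.sqrt_nonneg _)]
    exact Real.sqrt_le_one.2 (plat_le_one t)
  · rw [hqq]; exact hmod r hrs hr1 hrS
  · rw [hqq]; exact fun i a b => (hrD i a b).cfc_real plat
  · intro d hd
    rw [hqq]
    refine (norm_plat_mul_le (α d) r hrs).trans ?_
    have e : r * α d r = p * α d p + (r - p) * α d r + p * α d (r - p) := by
      rw [map_sub]; noncomm_ring
    rw [e]
    have h1 := hpd d hd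
    have h2 : ‖(r - p) * α d r‖ ≤ C₁ * δ := (norm_mul_le _ _).trans
      ((mul_le_of_le_one_right (norm_nonneg _)
        ((NonUnitalStarAlgHom.norm_apply_le (α d) r).trans hr1)).trans hrp)
    have h3 : ‖p * α d (r - p)‖ ≤ C₁ * δ := (norm_mul_le _ _).trans
      ((mul_le_of_le_one_left (norm_nonneg _) hp1).trans
        ((NonUnitalStarAlgHom.norm_apply_le (α d) _).trans hrp))
    have h4 := norm_add₃_le (a := p * α d p) (b := (r - p) * α d r) (c := p * α d (r - p))
    linarith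
  · set e := D.e i 0 0 with he
    have hee : e * e = e := D.mul_eq i 0 0 0
    have he1 : ‖e‖ ≤ 1 := D.norm_e_le i 0 0
    have hcw : Commute (cfc wit r) e := (hrD i 0 0).cfc_real wit
    refine ⟨e * cfc wit r, fun h0 => ?_, by rw [← mul_assoc, hee], ?_⟩
    · have hγk : γ₀ ≤ ‖k * e‖ := (hγi i).1.trans
        (hlow i k (hkS.mono (hmemw i) (hδ1.trans (hγi i).2)) hk1)
      have hek : ‖k * e - e * k‖ ≤ δ := hkS e (hmem i 0)
      have hv : γ₀ - δ ≤ ‖e * k‖ := by
        have := norm_sub_norm_le (k * e) (e * k)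
        linarith
      have hsmall : ‖e * r‖ ≤ 3 / 4 := by
        have e2 : cfc (fun t => t * (1 - wit t)) r = r - r * cfc wit r := by
          rw [cfc_mul (fun t : ℝ => t) (fun t => 1 - wit t) r,
            cfc_sub (fun _ : ℝ => (1 : ℝ)) wit r, cfc_id' ℝ r, cfc_const_one ℝ r, mul_sub, mul_one]
        have e1 : e * r = e * cfc (fun t => t * (1 - wit t)) r := by
          rw [e2, mul_sub, ← mul_assoc e r (cfc wit r), ← (hrD i 0 0).eq, mul_assoc r e, h0,
            mul_zero, sub_zero]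
        rw [e1]
        refine (norm_mul_le _ _).trans ((mul_le_of_le_one_left (norm_nonneg _) he1).trans ?_)
        exact norm_cfc_le (by norm_num) fun t _ => by simpa using abs_one_sub_wit_mul_le t
      have hbig : ‖e * k‖ ≤ 3 / 4 * ‖e * k‖ + (C₁ + 2) * δ := by
        have e3 : e * r * (e * k) = r * (e * k) := by
          rw [← (hrD i 0 0).eq, mul_assoc r e, ← mul_assoc e e k, hee]
        have e4 : e * k = e * r * (e * k) - (r - p) * (e * k) - p * (e * k - k * e)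
            + (e * k - k * e) := by
          have h6 : p * (k * e) = k * e := by rw [← mul_assoc, hpk]
          rw [e3, sub_mul r p, mul_sub p (e * k), h6]; abel
        have h1 : ‖e * r * (e * k)‖ ≤ 3 / 4 * ‖e * k‖ :=
          (norm_mul_le _ _).trans (mul_le_mul_of_nonneg_right hsmall (norm_nonneg _))
        have h2 : ‖(r - p) * (e * k)‖ ≤ C₁ * δ := (norm_mul_le _ _).trans
          ((mul_le_of_le_one_right (norm_nonneg _) ((norm_mul_le _ _).trans
            (mul_le_one₀ he1 (norm_nonneg _) hk1.le))).trans hrp)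
        have h3 : ‖e * k - k * e‖ ≤ δ := by rw [norm_sub_rev]; exact hek
        have h4 : ‖p * (e * k - k * e)‖ ≤ δ :=
          (norm_mul_le _ _).trans ((mul_le_of_le_one_left (norm_nonneg _) hp1).trans h3)
        conv_lhs => rw [e4]
        refine ((norm_add_le _ _).trans (add_le_add ((norm_sub_le _ _).trans
          (add_le_add (norm_sub_le _ _) le_rfl)) le_rfl)).trans ?_
        linarith
      have hCδ : 0 ≤ C₁ * δ := by positivity
      nlinarith
    · rw [hqq, ← hcw.eq, ← mul_assoc, cfc_plat_mul_wit r hrs]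

end Vale.Agent.P095.SI
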