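import Vale.Agent.P095.SI.Pins
import Vale.Agent.P095.SI.Diagonal

/-!
P095, Theorem S: composition of the blocks.
-/

namespace Vale.Agent.P095.SI

open Filter Vale.Agent.P101 Vale.Agent.P095
open scoped Topology BoundedContinuousFunction

universe u v

noncomputable local instance mainCStar {A : Type u} [CStarAlgebra A] (w : Ultrafilter ℕ) :
    CStarAlgebra (centralSeq (w : Filter ℕ) A) :=
  StarSubalgebra.cstarAlgebra _ (h_closed := isClosed_centralSeq w)

/-- Two bounded sequences differ by a null sequence. -/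
def NullDiff {A : Type u} [CStarAlgebra A] (w : Ultrafilter ℕ) (f g : ℕ →ᵇ A) : Prop :=
  Tendsto (fun n => f n - g n) w (𝓝 0)

/-- A map into central sequences is, modulo null sequences, a unital star homomorphism into the
fixed algebra. -/
structure IsFixedHom {A : Type u} [CStarAlgebra A] (w : Ultrafilter ℕ) {G : Type v} [Group G]
    (α : G →* (A ≃⋆ₐ[ℂ] A)) (φ : ZTwoThree → centralSeq (w : Filter ℕ) A) : Prop where
  one : Tendsto (fun n => (φ 1 : ℕ →ᵇ A) n - 1) w (𝓝 0)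
  add : ∀ a b, NullDiff w (φ (a + b) : ℕ →ᵇ A) ((φ a : ℕ →ᵇ A) + (φ b : ℕ →ᵇ A))
  mul : ∀ a b, NullDiff w (φ (a * b) : ℕ →ᵇ A) ((φ a : ℕ →ᵇ A) * (φ b : ℕ →ᵇ A))
  smul : ∀ (c : ℂ) a, NullDiff w (φ (c • a) : ℕ →ᵇ A) (c • (φ a : ℕ →ᵇ A))
  star : ∀ a, Tendsto (fun n => (φ (Star.star a) : ℕ →ᵇ A) n - Star.star ((φ a : ℕ →ᵇ A) n)) w (𝓝 0)
  fixed : ∀ g a, Tendsto (fun n => α g ((φ a : ℕ →ᵇ A) n) - (φ a : ℕ →ᵇ A) n) w (𝓝 0)

/-- Lifting a fixed star homomorphism to central sequences. -/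
lemma exists_isFixedHom {A : Type u} [CStarAlgebra A] (w : Ultrafilter ℕ) {G : Type v} [Group G]
    (α : G →* (A ≃⋆ₐ[ℂ] A))
    (h : ∃ φ : ZTwoThree →⋆ₐ[ℂ] CentralQuot (A := A) w, ∀ g z, quotAct α w g (φ z) = φ z) :
    ∃ φ : ZTwoThree → centralSeq (w : Filter ℕ) A, IsFixedHom w α φ := by
  obtain ⟨φ, hφ⟩ := h
  choose lift hlift using fun z => Ideal.Quotient.mk_surjective (φ z)
  have key : ∀ f g : centralSeq (w : Filter ℕ) A,
      Ideal.Quotient.mk (nullIdeal w) f = Ideal.Quotient.mk (nullIdeal w) g →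
        Tendsto (fun n => (f : ℕ →ᵇ A) n - (g : ℕ →ᵇ A) n) w (𝓝 0) :=
    fun f g e => (Ideal.Quotient.mk_eq_mk_iff_sub_mem f g).1 e
  refine ⟨lift, key _ 1 ?_, fun a b => key _ (lift a + lift b) ?_,
    fun a b => key _ (lift a * lift b) ?_, fun c a => key _ (c • lift a) ?_,
    fun a => key _ (star (lift a)) ?_, fun g a => key (centralAct α w g (lift a)) (lift a) ?_⟩
  · rw [hlift, map_one, map_one]
  · rw [map_add (Ideal.Quotient.mk _), hlift, hlift, hlift, map_add]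
  · rw [map_mul (Ideal.Quotient.mk _), hlift, hlift, hlift, map_mul]
  · show _ = c • Ideal.Quotient.mk _ (lift a)
    rw [hlift, hlift, map_smul]
  · rw [← star_mk, hlift, hlift, map_star]
  · rw [← quotAct_mk, hlift]
    exact hφ g a

/-- Theorem S from the blocks and the tracial theorem. -/
theorem fixedHom_of_pins (hLift : LiftPin.{u, v}) (hEvent : EventPin.{u, v})
    (hCompare : ComparePin.{u}) (hDrop : DropPin.{u, v})
    (A : Type u) [CStarAlgebra A] [TopologicalSpace.SeparableSpace A] [IsSimpleRing A]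
    (T : AFTower A) (w : Ultrafilter ℕ) (hw : (w : Filter ℕ) ≤ cofinite)
    (G : Type v) [Group G] [Countable G] (hG : Tracial.Foelner G) (α : G →* (A ≃⋆ₐ[ℂ] A))
    (hT : TracialM2 α) :
    ∃ φ : ZTwoThree → centralSeq (w : Filter ℕ) A, IsFixedHom w α φ :=
  exists_isFixedHom w α (diagonalPin A G α
    (hDrop A G α hEvent hCompare T hG (hLift A G α hT)) w hw)

end Vale.Agent.P095.SI
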