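import Vale.Agent.P095.SI.Defs
import Vale.Agent.P095.Tracial.Pins
import Vale.Agent.P101.ZTwoThree

/-!
P095, equivariant (SI) step: statements of the blocks.
B1 `LiftPin`; B2 `EventPin`; B3 `NoCharPin`, `ComparePin`; B4 `DropPin`, `DiagonalPin`.
-/

namespace Vale.Agent.P095.SI

open Filter Tracial Vale.Agent.P101 Vale.Agent.P095
open scoped Topology BoundedContinuousFunction

universe u v

noncomputable local instance {A : Type u} [CStarAlgebra A] (w : Ultrafilter ℕ) :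
    CStarAlgebra (centralSeq (w : Filter ℕ) A) :=
  StarSubalgebra.cstarAlgebra _ (h_closed := isClosed_centralSeq w)

/-- B1: from traces to norm, for the square zero and the invariance relations. -/
def LiftPin : Prop :=
  ∀ (A : Type u) [CStarAlgebra A] [TopologicalSpace.SeparableSpace A] (G : Type v) [Group G]
    (α : G →* (A ≃⋆ₐ[ℂ] A)), TracialM2 α → LiftGood α

/-- B2: central events moved off themselves by the elements outside the kernel. -/
def EventPin : Prop :=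
  ∀ (A : Type u) [CStarAlgebra A] [IsSimpleRing A] (G : Type v) [Group G]
    (α : G →* (A ≃⋆ₐ[ℂ] A)) (D : MU A) (Δ : Finset G), (∀ d ∈ Δ, ¬ InKernel α d) →
    ∀ (S : Finset A) (η : ℝ), 0 < η → ∃ q : A, ‖q‖ ≤ 1 ∧ Central S η (star q * q) ∧
      D.Commutes (star q * q) ∧ (∀ d ∈ Δ, ‖star q * q * α d (star q * q)‖ ≤ η) ∧
      ∀ i, ∃ u : A, u ≠ 0 ∧ D.e i 0 0 * u = u ∧ star q * q * u = u

/-- B3a: central sequences of a simple infinite-dimensional AF algebra have no characters. -/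
def NoCharPin : Prop :=
  ∀ (A : Type u) [CStarAlgebra A] [IsSimpleRing A], ¬ FiniteDimensional ℂ A → AFTower A →
    ∀ w : Ultrafilter ℕ, (w : Filter ℕ) ≤ cofinite →
      ¬ ∃ χ : centralSeq (w : Filter ℕ) A →⋆ₐ[ℂ] ℂ,
        ∀ f : centralSeq (w : Filter ℕ) A, IsNull (w : Filter ℕ) (f : ℕ →ᵇ A) → χ f = 0

/-- B3b: comparison in a simple AF algebra, inside the commutant of a step of the tower. -/
def ComparePin : Prop :=
  ∀ (A : Type u) [CStarAlgebra A] [IsSimpleRing A] (T : AFTower A) (k : ℕ) (q : A), ‖q‖ ≤ 1 →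
    (T.D k).Commutes (star q * q) →
    (∀ i, ∃ u : A, u ≠ 0 ∧ (T.D k).e i 0 0 * u = u ∧ star q * q * u = u) →
    ∀ η : ℝ, 0 < η → ∃ (S : Finset A) (δ : ℝ), 0 < δ ∧
      ∀ x : A, ‖x‖ ≤ 1 → Central S δ x → ‖x * x‖ ≤ δ → TraceSmall x δ →
        ∃ s : A, ‖s‖ ≤ 1 + η ∧ (T.D k).Commutes s ∧ ‖star s * s - (1 - sq2 x)‖ ≤ η ∧
          ‖star q * q * s - s‖ ≤ η ∧ ‖star x * x * s - s‖ ≤ η

/-- B4a: orthogonal translates averaged over a Foelner set. -/
def DropPin : Prop :=
  ∀ (A : Type u) [CStarAlgebra A] [IsSimpleRing A] (G : Type v) [Group G]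
    (α : G →* (A ≃⋆ₐ[ℂ] A)), EventPin.{u, v} → ComparePin.{u} → AFTower A → Foelner G →
    LiftGood α → DropGood α

/-- B4b: exact relations in the central sequence algebra. -/
def DiagonalPin : Prop :=
  ∀ (A : Type u) [CStarAlgebra A] [TopologicalSpace.SeparableSpace A] (G : Type v) [Group G]
    [Countable G] (α : G →* (A ≃⋆ₐ[ℂ] A)), DropGood α →
    ∀ w : Ultrafilter ℕ, (w : Filter ℕ) ≤ cofinite →
      ∃ φ : ZTwoThree →⋆ₐ[ℂ] CentralQuot (A := A) w, ∀ g z, quotAct α w g (φ z) = φ z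

end Vale.Agent.P095.SI
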